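import Crest.Agent.R17.D.Sums

/-! Row 17, block D (owner helper53): the constant term series `psi rho 0`. -/

set_option autoImplicit false

namespace Crest.Agent.R17.D

open Complex MeasureTheory Filter Set
open scoped Real Topology ComplexConjugate

open Classical in
/-- Euler's function of `O` -/
noncomputable def phi (m : O) : ℂ := rsum m fun y => if IsCoprime y m then 1 else 0

theorem Zera_crt {Q R : O} (h : IsCoprime Q R) (x y : O) : ∃ a, Q ∣ a - x ∧ R ∣ a - y := by
  obtain ⟨u, v, huv⟩ := h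
  refine ⟨x * v * R + y * u * Q, ⟨u * (y - x), ?_⟩, ⟨v * (x - y), ?_⟩⟩
  · linear_combination x * huv
  · linear_combination y * huv

theorem Zera_cop {a b n : O} (h : n ∣ a - b) (hb : IsCoprime b n) : IsCoprime a n := by
  obtain ⟨k, hk⟩ := h
  have : a = b + n * k := by linear_combination hk
  rw [this]
  exact hb.add_mul_left_left k

theorem Zera_nine {a : O} (ha : Prim a) : IsCoprime (9 : O) a := by
  have := (ha.coprime_three.symm).pow_left (m := 2)
  rwa [show (3 : O) ^ 2 = 9 by norm_num] at this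

theorem Zera_prim {a b : O} (hb : Prim b) (h : (9 : O) ∣ a - b) : Prim a :=
  hb.congr (dvd_sub_comm.1 ((show (3 : O) ∣ 9 from ⟨3, by norm_num⟩).trans h))

theorem Zera_cube {n : O} (hn : Prim n) :
    (∀ a, (9 : O) ∣ a - 1 → IsCoprime a n → cb n a = 1) → ∃ b, n = b ^ 3 := by
  refine hn.induction_coprime (P := fun n => (∀ a, (9 : O) ∣ a - 1 → IsCoprime a n → cb n a = 1) →
    ∃ b, n = b ^ 3) (fun _ => ⟨1, by ring⟩) fun p k m hp hp' hm hpm ih H => ?_
  have hc : IsCoprime (9 * m) p :=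
    (Zera_nine hp').mul_left ((Prime.coprime_iff_not_dvd hp).2 hpm).symm
  have key : ∀ x y, (9 : O) ∣ x - 1 → IsCoprime x m → IsCoprime y p →
      cb y p ^ (k + 1) * cb m x = 1 := by
    intro x y h9 hx hy
    obtain ⟨a, h1, h2⟩ := Zera_crt hc x y
    have a9 : (9 : O) ∣ a - x := (dvd_mul_right _ _).trans h1
    have am : m ∣ a - x := (dvd_mul_left _ _).trans h1
    have hxp : Prim x := Zera_prim prim_one h9
    have hap : Prim a := Zera_prim hxp a9
    have := H a (by simpa using dvd_add a9 h9)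
      (((Zera_cop h2 hy).pow_right).mul_right (Zera_cop am hx))
    rwa [cb_mul_left, cb_pow_left _ _ (Nat.succ_ne_zero k), cb_recip hp' hap, cb_congr h2,
      cb_recip hm hap, cb_congr am, cb_recip hxp hm] at this
  obtain ⟨u, hu⟩ := exists_cb_eq_om hp hp'.coprime_three
  have hup : IsCoprime u p := (cb_ne_zero.1 (hu ▸ cub_om_ne)).2
  have h1 := key 1 u (by simp) isCoprime_one_left hup
  rw [cb_one_right, mul_one, hu] at h1
  obtain ⟨j, hj⟩ := (isPrimitiveRoot_sg_om.pow_eq_one_iff_dvd _).1 h1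
  obtain ⟨b, hb⟩ := ih fun a h9 ha => by
    have := key a 1 h9 ha isCoprime_one_left
    rwa [cub_one hp', one_pow, one_mul] at this
  exact ⟨p ^ j * b, by rw [hj, hb]; ring⟩

/-- For a non-cube `c = ζ λ^i c₀` there is a primary `a` coprime to `c` with `(c / a) ≠ 1`: if a prime
`p` has `3 ∤ v_p(c₀)` take `a ≡ 1` modulo `9 c₀ / p^v` and a non-cube modulo `p` (`exists_cb_eq_om`);
otherwise `a ≡ 1 mod c₀`, `a ≡ 1 + 3 x mod 9` (`cb_om`, `cb_lam`). -/
theorem exists_cb_ne_one {c : O} (hc : c ≠ 0) (h : ¬ ∃ m, c = m ^ 3) :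
    ∃ a, Prim a ∧ IsCoprime a c ∧ cb c a ≠ 1 := by
  by_contra H
  push Not at H
  obtain ⟨ζ, i, n, hζ, hn, rfl⟩ := exists_decomp hc
  have hcop : ∀ a, Prim a → IsCoprime a n → IsCoprime a (ζ * lam ^ i * n) := fun a ha h =>
    (((syb_cop_unit hζ a).symm).mul_right
      ((ha.coprime_three.of_isCoprime_of_dvd_right lam_dvd_three).pow_right)).mul_right h
  obtain ⟨b, rfl⟩ := Zera_cube hn fun a h9 ha => by
    have hap : Prim a := Zera_prim prim_one h9
    have := H a hap (hcop a hap ha)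
    rwa [cb_mul_left, cb_unit_lam_congr hζ i h9, cb_one_right, one_mul] at this
  have key : ∀ x, Prim x → cb (ζ * lam ^ i) x = 1 := by
    intro x hx
    obtain ⟨a, h1, h2⟩ := Zera_crt (Zera_nine hn) x 1
    have hap : Prim a := Zera_prim hx h1
    have := H a hap (hcop a hap (Zera_cop h2 isCoprime_one_left))
    rwa [cb_mul_left, cb_unit_lam_congr hζ i h1, cb_recip hn hap, cb_congr h2, cub_one hn,
      mul_one] at this
  obtain ⟨j, -, rfl⟩ := isUnit_iff.1 hζ
  have k1 := key _ (cub_prim 1 0)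
  have k2 := key _ (cub_prim (-1) 1)
  rw [cb_mul_left, cb_pow_left' _ (cub_prim _ _).coprime_three,
    cb_pow_left' _ (cub_prim _ _).coprime_three, cub_zt, cb_lam] at k1 k2
  simp only [add_zero, zpow_one, neg_zero, zpow_zero, one_pow, mul_one, neg_add_cancel, one_mul,
    zpow_neg, inv_pow, inv_eq_one] at k1 k2
  obtain ⟨j', rfl⟩ := (isPrimitiveRoot_sg_om.pow_eq_one_iff_dvd _).1 k1
  obtain ⟨i', rfl⟩ := (isPrimitiveRoot_sg_om.pow_eq_one_iff_dvd _).1 k2
  exact h ⟨zt ^ j' * lam ^ i' * b, by ring⟩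

theorem SG_zero_of_not_cube {c : O} (h : ¬ ∃ m, c = m ^ 3) : SG rho c 0 = 0 := by
  have hc : c ≠ 0 := fun h0 => h ⟨0, by rw [h0]; ring⟩
  obtain ⟨a, ha, hac, h1⟩ := exists_cb_ne_one hc h
  have h2 := SG_mul_arg ha hac 0
  rw [mul_zero] at h2
  have h3 : 1 - conj (cb c a) ≠ 0 := fun h0 => h1 (by
    have := congrArg conj (sub_eq_zero.1 h0)
    simpa using this.symm)
  exact (mul_eq_zero.1 (by linear_combination h2)).resolve_left h3

open Classical in
theorem Zera_rho (m d : O) :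
    rho (m ^ 3) d = (if Rt d then 1 else 0) * if IsCoprime d m then 1 else 0 := by
  by_cases h : Rt d ∧ IsCoprime d m
  · rw [if_pos h.1, if_pos h.2, mul_one, rho, if_pos ⟨rt_cube m, h.1⟩]
    split_ifs with h3
    · rw [cb_pow_left _ _ three_ne_zero, cb_pow_three,
        if_pos ⟨(h.2.pow_right (n := 3)).of_isCoprime_of_dvd_right h3, h.2.symm⟩]
    · have hl : ¬ lam ∣ m := by
        rintro ⟨k, rfl⟩
        exact h3 ⟨-lam * k ^ 3, by linear_combination lam * k ^ 3 * lam_sq⟩
      rw [cb_pow_right, cb_pow_three, if_pos ⟨coprime_three_iff.2 hl, h.2⟩]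
  · have : rho (m ^ 3) d = 0 := by
      by_contra h0
      obtain ⟨-, h1, h2⟩ := rho_ne_zero.1 h0
      exact h ⟨h1, ((IsCoprime.pow_left_iff three_pos).1 h2).symm⟩
    rw [this]
    by_cases h1 : Rt d
    · rw [if_neg fun h2 => h ⟨h1, h2⟩, mul_zero]
    · rw [if_neg h1, zero_mul]

open Classical in
theorem Zera_per (m : O) : Per m fun d => if IsCoprime d m then (1 : ℂ) else 0 := by
  intro a b h
  exact if_congr ⟨Zera_cop (dvd_sub_comm.1 h), Zera_cop h⟩ rfl rfl

open Classical in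
theorem Zera_per3 : Per 3 fun d => if Rt d then (1 : ℂ) else 0 := by
  intro a b h
  refine if_congr ⟨fun ha => ?_, fun hb => ?_⟩ rfl rfl
  · simpa using ha.sub (rt_of_dvd h)
  · simpa using hb.add (rt_of_dvd h)

open Classical in
theorem Zera_three : rsum 3 (fun d => if Rt d then (1 : ℂ) else 0) = 3 := by
  have h := rsum_nat (m := 3) three_ne_zero (f := fun d => if Rt d then (1 : ℂ) else 0)
    (by simpa using Zera_per3)
  have e : ∀ x y : ℕ, Rt ((x : O) + y * om) ↔ (3 : ℤ) ∣ y := fun x y => by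
    simpa using rt_coord (x := x) (y := y)
  rw [Nat.cast_ofNat] at h
  simp only [h, e, Finset.sum_range_succ, Finset.range_zero, Finset.sum_empty]
  norm_num

open Classical in
theorem Zera_one {d : O} (hd : ¬ lam ∣ d) : (if Rt d then (1 : ℂ) else 0) +
    (if Rt (om * d) then 1 else 0) + (if Rt (om ^ 2 * d) then 1 else 0) = 1 := by
  obtain ⟨x, y, rfl⟩ := exists_coord d
  have e1 : om * ((x : O) + y * om) = ((-y : ℤ) : O) + ((x - y : ℤ) : O) * om := by
    push_cast
    linear_combination (y : O) * om_sq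
  have e2 : om ^ 2 * ((x : O) + y * om) = ((y - x : ℤ) : O) + ((-x : ℤ) : O) * om := by
    push_cast
    linear_combination (x : O) * om_sq + (y : O) * om_cube
  rw [lam_dvd_coord] at hd
  rw [e1, e2, rt_coord, rt_coord, rt_coord]
  have hx : x % 3 = 0 ∨ x % 3 = 1 ∨ x % 3 = 2 := by omega
  have hy : y % 3 = 0 ∨ y % 3 = 1 ∨ y % 3 = 2 := by omega
  rcases hx with hx | hx | hx <;> rcases hy with hy | hy | hy <;>
    split_ifs <;> first | (exfalso; omega) | norm_num

/-- `rho (m³) d = 1[d ∈ Λ, (d, m) = 1]`.  `λ ∤ m`: `rsum_crt_mul` for `3` and `m³`; `λ ∣ m`: the classes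
`d`, `ω d`, `ω² d` (exactly one is in `Λ`). -/
theorem SG_cube_zero {m : O} (hm : m ≠ 0) : SG rho (m ^ 3) 0 = 3 * (nm m : ℂ) ^ 2 * phi m := by
  classical
  have h3 : (3 : O) ≠ 0 := by exact_mod_cast (three_ne_zero : (3 : ℕ) ≠ 0)
  have hm3 : m ^ 3 ≠ 0 := pow_ne_zero _ hm
  have hQ : 3 * m ^ 3 ≠ 0 := mul_ne_zero h3 hm3
  rw [SG, if_neg hm3, FT_zero]
  by_cases hl : lam ∣ m
  · have hper := wt_rho.per (m ^ 3)
    have e1 := rsum_mul_arg hQ (syb_cop_unit isUnit_om _) hper
    have e2 := rsum_mul_arg hQ (syb_cop_unit (isUnit_om.pow 2) _) hper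
    have e3 : rsum (3 * m ^ 3) (fun d => rho (m ^ 3) d + rho (m ^ 3) (om * d) +
        rho (m ^ 3) (om ^ 2 * d)) = rsum (3 * m ^ 3) fun d => if IsCoprime d m then 1 else 0 := by
      congr 1
      funext d
      rw [Zera_rho, Zera_rho, Zera_rho, isCoprime_mul_unit_left_left isUnit_om,
        isCoprime_mul_unit_left_left (isUnit_om.pow 2), ← add_mul, ← add_mul]
      by_cases hd : IsCoprime d m
      · rw [Zera_one fun h => prime_lam.not_isUnit (hd.isUnit_of_dvd' h hl), one_mul]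
      · rw [if_neg hd, mul_zero]
    rw [rsum_add hQ, rsum_add hQ, e1, e2] at e3
    have e4 := rsum_lift hm (mul_ne_zero h3 (pow_ne_zero 2 hm)) (Zera_per m)
    have e5 : nm (3 * m ^ 2) = 9 * nm m ^ 2 := by
      have := nm_natCast 3
      rw [Nat.cast_ofNat] at this
      rw [nm_mul, nm_pow, this]
      norm_num
    rw [show m * (3 * m ^ 2) = 3 * m ^ 3 by ring, e5] at e4
    rw [e4] at e3
    push_cast at e3
    rw [phi]
    linear_combination e3 / 3
  · have hc : IsCoprime 3 (m ^ 3) := (coprime_three_iff.2 hl).symm.pow_right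
    have e1 := rsum_crt_mul h3 hm3 hc Zera_per3 ((Zera_per m).mono (dvd_pow_self m three_ne_zero))
    have e2 := rsum_lift hm (pow_ne_zero 2 hm) (Zera_per m)
    rw [show m * m ^ 2 = m ^ 3 by ring, nm_pow] at e2
    rw [show rho (m ^ 3) = fun d => (if Rt d then 1 else 0) * if IsCoprime d m then 1 else 0 from
      funext (Zera_rho m), e1, e2, Zera_three, phi]
    push_cast
    ring

theorem zb_summable {w : ℂ} (hw : 2 < w.re) :
    Summable fun m : O => ‖phi m * (nm m : ℂ) ^ (-w)‖ := by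
  refine Summable.of_nonneg_of_le (fun _ => norm_nonneg _) (fun m => ?_)
    (summable_nm_rpow (σ := w.re - 1) (by linarith))
  by_cases hm : m = 0
  · have : -w ≠ 0 := fun e => by
      have := congrArg Complex.re e
      simp at this
      linarith
    rw [hm, nm_eq_zero.2 rfl, ofReal_zero, zero_cpow this, mul_zero, norm_zero]
    exact Real.rpow_nonneg le_rfl _
  · have h0 := nm_pos hm
    have h1 : ‖phi m‖ ≤ nm m * 1 := norm_rsum_le hm fun y => by split_ifs <;> simp
    rw [norm_mul, norm_cpow_eq_rpow_re_of_pos h0, neg_re, neg_sub, sub_eq_add_neg,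
      Real.rpow_add h0, Real.rpow_one]
    exact mul_le_mul_of_nonneg_right (by simpa using h1) (by positivity)

theorem zb_summable_ZK {w : ℂ} (hw : 1 < w.re) : Summable fun m : O => ‖(nm m : ℂ) ^ (-w)‖ := by
  refine (summable_nm_rpow hw).congr fun m => ?_
  rw [norm_cpow_eq_rpow_re_of_nonneg (nm_nonneg m) (by simp; linarith), neg_re]

open Classical in
theorem zb_fiber {m : O} :
    (fun x : O => x ^ 3) ⁻¹' {m ^ 3} = ((Finset.range 3).image fun j => om ^ j * m : Finset O) := by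
  ext x
  simp only [mem_preimage, mem_singleton_iff, Finset.coe_image, Finset.coe_range, mem_image, mem_Iio]
  constructor
  · intro h
    have : (x - m) * (x - om * m) * (x - om ^ 2 * m) = 0 := by
      linear_combination h + (-(x ^ 2 * m) + x * m ^ 2 * om) * om_sq - m ^ 3 * om_cube
    rcases mul_eq_zero.1 this with h1 | h1
    · rcases mul_eq_zero.1 h1 with h2 | h2
      · exact ⟨0, by norm_num, by linear_combination -h2⟩
      · exact ⟨1, by norm_num, by linear_combination -h2⟩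
    · exact ⟨2, by norm_num, by linear_combination -h1⟩
  · rintro ⟨j, -, rfl⟩
    rw [mul_pow, ← pow_mul, mul_comm j 3, pow_mul, om_cube, one_pow, one_mul]

/-- every non-zero cube is `m³` for exactly three `m` -/
theorem psi_zero_eq {s : ℂ} (hs : 2 < s.re) :
    psi rho 0 s = ∑' m : O, phi m * (nm m : ℂ) ^ (-(3 * s - 2)) := by
  classical
  have hw : 2 < (3 * s - 2).re := by simp; linarith
  have hs0 : -s ≠ 0 := fun e => by
    have := congrArg Complex.re e
    simp at this
    linarith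
  have hw0 : -(3 * s - 2) ≠ 0 := fun e => by
    have := congrArg Complex.re e
    rw [neg_re] at this
    simp only [zero_re] at this
    linarith
  have key : ∀ m : O, m ≠ 0 → SG rho (m ^ 3) 0 * (nm (m ^ 3) : ℂ) ^ (-s) =
      3 * (phi m * (nm m : ℂ) ^ (-(3 * s - 2))) := by
    intro m hm
    have h0 : (nm m : ℂ) ≠ 0 := by exact_mod_cast (nm_pos hm).ne'
    have e : (nm (m ^ 3) : ℂ) ^ (-s) = (nm m : ℂ) ^ (-(3 * s)) := by
      rw [nm_pow, ← Real.rpow_natCast, ← cpow_mul_ofReal_nonneg (nm_nonneg m)]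
      congr 1
      push_cast
      ring
    rw [SG_cube_zero hm, e, show -(3 * s - 2) = -(3 * s) + (2 : ℕ) by push_cast; ring,
      cpow_add _ _ h0, cpow_natCast]
    ring
  have h := ((zb_summable hw).of_norm.hasSum.tsum_fiberwise fun x : O => x ^ 3).tsum_eq
  rw [← h, psi, DD]
  refine tsum_congr fun c => ?_
  by_cases hc : ∃ m, c = m ^ 3
  · obtain ⟨m, rfl⟩ := hc
    rw [zb_fiber, Finset.tsum_subtype' _ fun x => phi x * (nm x : ℂ) ^ (-(3 * s - 2))]
    by_cases hm : m = 0
    · subst hm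
      rw [Finset.sum_eq_zero]
      · simp [SG]
      · intro x hx
        obtain ⟨j, -, rfl⟩ := Finset.mem_image.1 hx
        rw [mul_zero, nm_eq_zero.2 rfl, ofReal_zero, zero_cpow hw0, mul_zero]
    · rw [Finset.sum_image fun i hi j hj e => bsa_prim.pow_inj (Finset.mem_range.1 hi)
        (Finset.mem_range.1 hj) (mul_right_cancel₀ hm e)]
      have : ∀ j ∈ Finset.range 3, phi (om ^ j * m) * (nm (om ^ j * m) : ℂ) ^ (-(3 * s - 2)) =
          SG rho (m ^ 3) 0 * (nm (m ^ 3) : ℂ) ^ (-s) / 3 := by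
        intro j _
        have e : (om ^ j * m) ^ 3 = m ^ 3 := by
          rw [mul_pow, ← pow_mul, mul_comm j 3, pow_mul, om_cube, one_pow, one_mul]
        have := key _ (mul_ne_zero (pow_ne_zero j isUnit_om.ne_zero) hm)
        rw [e] at this
        rw [this]
        ring
      rw [Finset.sum_congr rfl this, Finset.sum_const, Finset.card_range, nsmul_eq_mul]
      push_cast
      ring
  · have : IsEmpty ((fun x : O => x ^ 3) ⁻¹' {c}) := ⟨fun x => hc ⟨x.1, x.2.symm⟩⟩
    rw [tsum_empty, SG_zero_of_not_cube hc, zero_mul]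

open Classical in
/-- factorisations of `k` -/
noncomputable def zbD (k : O) : Finset (O × O) :=
  (ball (nm k) ×ˢ ball (nm k)).filter fun p => p.1 * p.2 = k

theorem zb_mem {k : O} (hk : k ≠ 0) {p : O × O} : p ∈ zbD k ↔ p.1 * p.2 = k := by
  simp only [zbD, Finset.mem_filter, Finset.mem_product, mem_ball, and_iff_right_iff_imp]
  intro h
  exact ⟨nm_le_of_dvd ⟨_, h.symm⟩ hk, nm_le_of_dvd ⟨p.1, by rw [← h, mul_comm]⟩ hk⟩

open Classical in
theorem zb_count {k : O} (hk : k ≠ 0) (y : O) :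
    ((zbD k).filter fun p => ∃ z, y = p.2 * z ∧ IsCoprime z p.1).card = 6 := by
  letI := IsBezout.toGCDDomain O
  obtain ⟨y', k', hy, hk', hu⟩ := extract_gcd y k
  have hc : IsCoprime y' k' := (gcd_isUnit_iff _ _).1 hu
  generalize gcd y k = g at hy hk'
  have hg : g ≠ 0 := fun e => hk (by rw [hk', e, zero_mul])
  have hz : ∀ j : ℕ, zt ^ j * zt ^ (5 * j) = 1 := fun j => by
    rw [← pow_add, show j + 5 * j = 6 * j by ring, pow_mul, zt_pow_six, one_pow]
  have : ((zbD k).filter fun p => ∃ z, y = p.2 * z ∧ IsCoprime z p.1) =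
      (Finset.range 6).image fun j => (k' * zt ^ (5 * j), g * zt ^ j) := by
    ext ⟨m, n⟩
    simp only [Finset.mem_filter, zb_mem hk, Finset.mem_image, Finset.mem_range, Prod.mk.injEq]
    constructor
    · rintro ⟨h1, z, h2, h3⟩
      have d1 : n ∣ g := by
        obtain ⟨a, b, hab⟩ := hc
        exact ⟨a * z + b * m, by linear_combination (-g) * hab - a * hy + a * h2 - b * hk' - b * h1⟩
      have d2 : g ∣ n := by
        obtain ⟨a, b, hab⟩ := h3
        exact ⟨a * y' + b * k', by linear_combination (-n) * hab + a * hy - a * h2 + b * hk' + b * h1⟩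
      obtain ⟨u, hu⟩ := associated_of_dvd_dvd d2 d1
      obtain ⟨j, hj, e⟩ := isUnit_iff.1 u.isUnit
      rw [e] at hu
      refine ⟨j, hj, ?_, hu⟩
      refine mul_left_cancel₀ hg ?_
      have := hz j
      linear_combination (-zt ^ (5 * j)) * hk' - zt ^ (5 * j) * h1 - m * zt ^ (5 * j) * hu + g * m * this
    · rintro ⟨j, -, rfl, rfl⟩
      have := hz j
      refine ⟨by linear_combination -hk' + g * k' * this, y' * zt ^ (5 * j),
        by linear_combination hy - g * y' * this, ?_⟩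
      have hu : IsUnit (zt ^ (5 * j)) := isUnit_zt.pow _
      exact (isCoprime_mul_unit_right hu _ _).2 hc
  rw [this, Finset.card_image_of_injOn, Finset.card_range]
  intro i hi j hj e
  exact zt_pow_inj (Finset.mem_range.1 hi) (Finset.mem_range.1 hj)
    (mul_left_cancel₀ hg (Prod.mk.inj e).2)

theorem zb_sum_phi {k : O} (hk : k ≠ 0) : ∑ p ∈ zbD k, phi p.1 = 6 * nm k := by
  classical
  have h1 : ∀ p ∈ zbD k, phi p.1 =
      rsum k fun y => if ∃ z, y = p.2 * z ∧ IsCoprime z p.1 then 1 else 0 := by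
    rintro ⟨m, n⟩ hp
    have e : m * n = k := (zb_mem hk).1 hp
    have hm : m ≠ 0 := fun h => hk (by rw [← e, h, zero_mul])
    have hn : n ≠ 0 := fun h => hk (by rw [← e, h, mul_zero])
    have hper : Per (n * m) fun y => if ∃ z, y = n * z ∧ IsCoprime z m then (1 : ℂ) else 0 := by
      have aux : ∀ a b : O, n * m ∣ a - b → (∃ z, a = n * z ∧ IsCoprime z m) →
          ∃ z, b = n * z ∧ IsCoprime z m := by
        rintro a b ⟨t, ht⟩ ⟨z, h1, h2⟩
        refine ⟨z + m * -t, by linear_combination h1 - ht, h2.add_mul_left_left _⟩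
      intro a b hab
      exact if_congr ⟨aux a b hab, aux b a (by simpa using hab.neg_right)⟩ rfl rfl
    have := rsum_dvd hn hm hper
    rw [← e, mul_comm m n, phi]
    simp only
    have e1 : (fun y : O => if ∃ z, y = n * z ∧ IsCoprime z m then (1 : ℂ) else 0) =
        fun y => if n ∣ y then (if ∃ z, y = n * z ∧ IsCoprime z m then (1 : ℂ) else 0) else 0 := by
      funext y
      by_cases h : n ∣ y
      · rw [if_pos h]
      · rw [if_neg h, if_neg fun ⟨z, hz, _⟩ => h ⟨z, hz⟩]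
    rw [e1, this]
    congr 1
    funext z
    refine if_congr ⟨fun h => ⟨z, rfl, h⟩, fun ⟨z', h1, h2⟩ => ?_⟩ rfl rfl
    rwa [mul_left_cancel₀ hn h1]
  rw [Finset.sum_congr rfl h1, ← rsum_sum hk]
  have : (fun y : O => ∑ p ∈ zbD k, if ∃ z, y = p.2 * z ∧ IsCoprime z p.1 then (1 : ℂ) else 0) =
      fun _ => 6 := by
    funext y
    rw [Finset.sum_boole, zb_count hk y]
    norm_num
  rw [this, rsum_const hk, mul_comm]

/-- `∑_{m ∣ k} φ(m) = 6 N(k)` (six generators per ideal; classify `y mod k` by `gcd(y, k)`), then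
multiply the series.  Any other proof (Möbius, `tsum_decomp`) is fine. -/
theorem phi_mul_ZK {w : ℂ} (hw : 2 < w.re) :
    (∑' m : O, phi m * (nm m : ℂ) ^ (-w)) * ZK w = 6 * ZK (w - 1) := by
  have h1 := zb_summable hw
  have h2 := zb_summable_ZK (w := w) (by linarith)
  have hw0 : -w ≠ 0 := fun e => by
    have := congrArg Complex.re e
    simp at this
    linarith
  have hw1 : -(w - 1) ≠ 0 := fun e => by
    have := congrArg Complex.re e
    simp at this
    linarith
  have h3 : Summable fun p : O × O => phi p.1 * (nm p.1 : ℂ) ^ (-w) * (nm p.2 : ℂ) ^ (-w) :=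
    summable_mul_of_summable_norm (f := fun m : O => phi m * (nm m : ℂ) ^ (-w))
      (g := fun m : O => (nm m : ℂ) ^ (-w)) h1 h2
  have h := (h3.hasSum.tsum_fiberwise fun p : O × O => p.1 * p.2).tsum_eq
  rw [ZK, tsum_mul_tsum_of_summable_norm h1 h2, ← h, ZK, ← tsum_mul_left]
  refine tsum_congr fun k => ?_
  by_cases hk : k = 0
  · subst hk
    rw [nm_eq_zero.2 rfl, ofReal_zero, zero_cpow hw1, mul_zero]
    refine (tsum_congr fun p => ?_).trans tsum_zero
    rcases mul_eq_zero.1 (show p.1.1 * p.1.2 = 0 from p.2) with e | e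
    · rw [e, nm_eq_zero.2 rfl, ofReal_zero, zero_cpow hw0, mul_zero, zero_mul]
    · rw [e, nm_eq_zero.2 rfl, ofReal_zero, zero_cpow hw0, mul_zero]
  · have e : (fun p : O × O => p.1 * p.2) ⁻¹' {k} = (zbD k : Set (O × O)) := by
      ext p
      simp [zb_mem hk]
    have h0 : (nm k : ℂ) ≠ 0 := by exact_mod_cast (nm_pos hk).ne'
    rw [e, Finset.tsum_subtype' _
      fun p : O × O => phi p.1 * (nm p.1 : ℂ) ^ (-w) * (nm p.2 : ℂ) ^ (-w)]
    have : ∀ p ∈ zbD k, phi p.1 * (nm p.1 : ℂ) ^ (-w) * (nm p.2 : ℂ) ^ (-w) =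
        phi p.1 * (nm k : ℂ) ^ (-w) := by
      intro p hp
      rw [← (zb_mem hk).1 hp, nm_mul, ofReal_mul,
        mul_cpow_ofReal_nonneg (nm_nonneg _) (nm_nonneg _), mul_assoc]
    rw [Finset.sum_congr rfl this, ← Finset.sum_mul, zb_sum_phi hk,
      show -(w - 1) = 1 + -w by ring, cpow_add _ _ h0, cpow_one]
    ring

/-- `Γ(3s - 2) = (3s - 3) Γ(3s - 3)` -/
theorem xi_psi_zero {s : ℂ} (hs : 2 < s.re) :
    k0 * xi (3 * s - 2) * psi rho 0 s = 2 * (s - 1) * xi (3 * s - 3) := by
  have hw : 2 < (3 * s - 2).re := by simp; linarith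
  have h1 := phi_mul_ZK hw
  have h3 : 3 * s - 3 ≠ 0 := fun e => by
    have := congrArg Complex.re e
    simp at this
    linarith
  have hκ : ((2 * π / √3 : ℝ) : ℂ) ≠ 0 := by exact_mod_cast gc_XK_pos.ne'
  have h2 : gK (3 * s - 2) = ((2 * π / √3 : ℝ) : ℂ)⁻¹ * (3 * s - 3) * gK (3 * s - 3) := by
    rw [gK, gK, show 3 * s - 2 = 3 * s - 3 + 1 by ring, Gamma_add_one _ h3,
      show -(3 * s - 3 + 1) = -1 + -(3 * s - 3) by ring, cpow_add _ _ hκ, cpow_neg_one]
    ring
  have h4 : (k0 : ℂ) = ((2 * π / √3 : ℝ) : ℂ) / 9 := by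
    rw [k0]
    push_cast
    ring
  rw [← psi_zero_eq hs, show 3 * s - 2 - 1 = 3 * s - 3 by ring] at h1
  rw [xi, xi, h2, h4]
  calc _ = ((2 * π / √3 : ℝ) : ℂ) * ((2 * π / √3 : ℝ) : ℂ)⁻¹ / 9 * (3 * s - 3) * gK (3 * s - 3) *
        (psi rho 0 s * ZK (3 * s - 2)) := by ring
    _ = _ := by rw [h1, mul_inv_cancel₀ hκ]; ring

end Crest.Agent.R17.D
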