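import Crest.Agent.R17.D.Lat

/-! Row 17, block D (owner helper53): Poisson summation with polynomial weights. -/

set_option autoImplicit false

namespace Crest.Agent.R17.D

open Complex MeasureTheory Filter Set
open scoped Real Topology ComplexConjugate

/-- `poisson_shift` with `K = k0 v / T`, shift `z / 3` -/
theorem pois_zero {T v : ℝ} (hT : 0 < T) (hv : 0 < v) (z : ℂ) :
    ∑' m : O, (Real.exp (-(T * ‖z + 3 * sg m‖ ^ 2 / v)) : ℂ) =
      (k0 * v / T : ℝ) * ∑' h : O, eC (sg h * z / 3) * (Real.exp (-(v * (bt * nm h / T))) : ℂ) := by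
  have hk := k0_pos
  have h3 : (0 : ℝ) < √3 := by positivity
  have h3' : √3 * √3 = (3 : ℝ) := Real.mul_self_sqrt (by norm_num)
  have h := poisson_shift (K := k0 * v / T) (by positivity) (z / 3)
  convert h using 4 with m h
  · have e : z + 3 * sg m = 3 * (sg m + z / 3) := by ring
    rw [e, norm_mul, Complex.norm_ofNat, k0]
    congr 1
    field_simp
    ring
  · rw [mul_div_assoc, poa_gw_eq, k0, bt]
    congr 4
    field_simp
    rw [sq √3, h3']
    ring

theorem pa_summable {A : ℝ} (hA : 0 < A) : Summable fun m : O => Real.exp (-(A * nm m)) := by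
  refine (summable_gw (K := 2 * π / √3 / A) (by positivity)).congr fun m => ?_
  rw [poa_gw_eq]
  congr 3
  field_simp

theorem pa_bound (k : ℕ) {A : ℝ} (hA : 0 < A) (R : ℝ) : ∃ C : ℝ, ∀ (w : ℂ) (m : O), ‖w‖ ≤ R →
    ‖w + 3 * sg m‖ ^ k * Real.exp (-(A * ‖w + 3 * sg m‖ ^ 2)) ≤ C * Real.exp (-(A * nm m)) := by
  refine ⟨k.factorial * Real.exp (1 / (2 * A) + A * R ^ 2 / 2), fun w m hw => ?_⟩
  have h1 : 3 * ‖sg m‖ ≤ ‖w + 3 * sg m‖ + R := by
    have := norm_sub_le (w + 3 * sg m) w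
    rw [add_sub_cancel_left, norm_mul, Complex.norm_ofNat] at this
    linarith
  rw [nm_eq]
  generalize ‖w + 3 * sg m‖ = t, ‖sg m‖ = n, norm_nonneg (w + 3 * sg m) = ht, norm_nonneg (sg m) = hn at *
  have h2 : t ^ k ≤ k.factorial * Real.exp t := by
    have := Real.pow_div_factorial_le_exp t ht k
    rwa [div_le_iff₀' (by positivity)] at this
  have h3 : 9 * n ^ 2 ≤ 2 * t ^ 2 + 2 * R ^ 2 := by nlinarith [sq_nonneg (t - R)]
  have h4 : t ≤ A * t ^ 2 / 2 + 1 / (2 * A) := by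
    have : A * t ^ 2 / 2 + 1 / (2 * A) - t = (A * t - 1) ^ 2 / (2 * A) := by
      field_simp
      ring
    have h5 : 0 ≤ (A * t - 1) ^ 2 / (2 * A) := by positivity
    linarith
  calc t ^ k * Real.exp (-(A * t ^ 2)) ≤ k.factorial * Real.exp t * Real.exp (-(A * t ^ 2)) := by gcongr
    _ ≤ _ := by
      rw [mul_assoc, mul_assoc, ← Real.exp_add, ← Real.exp_add]
      refine mul_le_mul_of_nonneg_left (Real.exp_le_exp.2 ?_) (by positivity)
      nlinarith [mul_le_mul_of_nonneg_left h3 hA.le, mul_nonneg hA.le (sq_nonneg n)]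

theorem pois_summable (l : ℕ) {A : ℝ} (hA : 0 < A) (z : ℂ) :
    Summable fun m : O => ‖z + 3 * sg m‖ ^ l * Real.exp (-(A * ‖z + 3 * sg m‖ ^ 2)) := by
  obtain ⟨C, hC⟩ := pa_bound l hA ‖z‖
  exact Summable.of_nonneg_of_le (fun m => by positivity) (fun m => hC z m le_rfl)
    ((pa_summable hA).mul_left C)

theorem pa_norm_qw (b : Bool) (h : O) : ‖qw b h‖ = 3 * k0 * ‖sg h‖ := by
  have := k0_pos
  cases b <;> simp [qw, abs_of_pos this]

theorem qw_summable (b : Bool) (l : ℕ) {A : ℝ} (hA : 0 < A) :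
    Summable fun h : O => ‖qw b h‖ ^ l * Real.exp (-(A * nm h)) := by
  refine ((pois_summable l (A := A / 9) (by positivity) 0).mul_left (k0 ^ l)).congr fun h => ?_
  rw [pa_norm_qw, nm_eq, zero_add, norm_mul, Complex.norm_ofNat, ← mul_assoc, ← mul_pow,
    show k0 * (3 * ‖sg h‖) = 3 * k0 * ‖sg h‖ by ring,
    show A / 9 * (3 * ‖sg h‖) ^ 2 = A * ‖sg h‖ ^ 2 by ring]

theorem pa_norm_pw (b : Bool) (y : ℂ) : ‖pw b y‖ = ‖y‖ := by
  cases b <;> simp [pw]

theorem pa_pw_add (b : Bool) (y η : ℂ) (ε : ℝ) : pw b (y + ε * η) = pw b y + ε * pw b η := by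
  cases b <;> simp [pw]

theorem pa_exp (b : Bool) (a : ℝ) (y : ℂ) :
    (Real.exp (-(a * ‖y‖ ^ 2)) : ℂ) = cexp (-(a * (pw b y * pw (!b) y))) := by
  cases b <;> simp [pw, Complex.mul_conj', Complex.conj_mul']

theorem pa_eC (b : Bool) (h : O) (z : ℂ) :
    eC (sg h * z / 3) = cexp (-(qw b h * pw (!b) z + qw (!b) h * pw b z)) := by
  have h3 : ((√3 : ℝ) : ℂ) ≠ 0 := by
    rw [Complex.ofReal_ne_zero]
    positivity
  have e : ((2 * (sg h * z / 3).im / √3 : ℝ) : ℂ) * I = (sg h * z / 3 - conj (sg h * z / 3)) / (√3 : ℝ) := by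
    rw [Complex.sub_conj]
    push_cast
    ring
  rw [eC, mul_assoc (2 * (π : ℂ)), mul_comm I, e]
  congr 1
  cases b <;> simp only [qw, pw, k0, map_div₀, map_mul, Complex.conj_ofNat] <;> simp <;> field_simp <;> ring

/-- the term on the left -/
noncomputable def paT (b : Bool) (l : ℕ) (a : ℝ) (y : ℂ) : ℂ :=
  (a * pw b y) ^ l * (Real.exp (-(a * ‖y‖ ^ 2)) : ℂ)

/-- its derivative in the direction `η` -/
noncomputable def paD (b : Bool) (l : ℕ) (a : ℝ) (η y : ℂ) : ℂ :=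
  (pw b η * (l * a * (a * pw b y) ^ (l - 1) - a * pw (!b) y * (a * pw b y) ^ l) -
    pw (!b) η * (a * pw b y) ^ (l + 1)) * (Real.exp (-(a * ‖y‖ ^ 2)) : ℂ)

theorem paT_deriv (b : Bool) (l : ℕ) (a : ℝ) (η y : ℂ) (ε : ℝ) :
    HasDerivAt (fun ε : ℝ => paT b l a (y + ε * η)) (paD b l a η (y + ε * η)) ε := by
  simp only [paT, paD, pa_exp b, pa_pw_add]
  generalize pw b y = u, pw (!b) y = u', pw b η = α, pw (!b) η = α'
  have h1 : HasDerivAt (fun x : ℂ => u + x * α) α ε := by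
    simpa using ((hasDerivAt_id (ε : ℂ)).mul_const α).const_add u
  have h2 : HasDerivAt (fun x : ℂ => u' + x * α') α' ε := by
    simpa using ((hasDerivAt_id (ε : ℂ)).mul_const α').const_add u'
  have h3 := (((h1.const_mul (a : ℂ)).pow l).mul ((h1.mul h2).const_mul (a : ℂ)).neg.cexp).comp_ofReal
  refine HasDerivAt.congr_deriv h3 ?_
  simp only [Pi.mul_apply, Pi.pow_apply, Pi.neg_apply]
  ring

theorem paD_bound (b : Bool) (l : ℕ) {a : ℝ} (ha : 0 < a) {η : ℂ} (hη : ‖η‖ = 1) (y : ℂ) :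
    ‖paD b l a η y‖ ≤ l * a ^ l * (‖y‖ ^ (l - 1) * Real.exp (-(a * ‖y‖ ^ 2))) +
      2 * a ^ (l + 1) * (‖y‖ ^ (l + 1) * Real.exp (-(a * ‖y‖ ^ 2))) := by
  have h1 : ‖(l : ℂ) * a * (a * pw b y) ^ (l - 1)‖ = l * a ^ l * ‖y‖ ^ (l - 1) := by
    rw [norm_mul, norm_mul, norm_pow, norm_mul, pa_norm_pw, Complex.norm_natCast, Complex.norm_real,
      Real.norm_of_nonneg ha.le, mul_pow]
    cases l with
    | zero => simp
    | succ l => rw [Nat.add_sub_cancel]; ring
  have h2 : ‖a * pw (!b) y * (a * pw b y) ^ l‖ = a ^ (l + 1) * ‖y‖ ^ (l + 1) := by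
    rw [norm_mul, norm_mul, norm_pow, norm_mul, pa_norm_pw, pa_norm_pw, Complex.norm_real,
      Real.norm_of_nonneg ha.le]
    ring
  have h3 : ‖(a * pw b y) ^ (l + 1)‖ = a ^ (l + 1) * ‖y‖ ^ (l + 1) := by
    rw [norm_pow, norm_mul, pa_norm_pw, Complex.norm_real, Real.norm_of_nonneg ha.le, mul_pow]
  have h4 : ‖pw b η * (l * a * (a * pw b y) ^ (l - 1) - a * pw (!b) y * (a * pw b y) ^ l) -
      pw (!b) η * (a * pw b y) ^ (l + 1)‖ ≤ l * a ^ l * ‖y‖ ^ (l - 1) + 2 * a ^ (l + 1) * ‖y‖ ^ (l + 1) := by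
    refine (norm_sub_le _ _).trans ?_
    rw [norm_mul, norm_mul, pa_norm_pw, pa_norm_pw, hη, one_mul, one_mul, h3]
    have := norm_sub_le ((l : ℂ) * a * (a * pw b y) ^ (l - 1)) (a * pw (!b) y * (a * pw b y) ^ l)
    rw [h1, h2] at this
    linarith
  rw [paD, norm_mul, Complex.norm_real, Real.norm_of_nonneg (Real.exp_pos _).le]
  exact (mul_le_mul_of_nonneg_right h4 (Real.exp_pos _).le).trans_eq (by ring)

theorem pa_left (b : Bool) (l : ℕ) {a : ℝ} (ha : 0 < a) {η : ℂ} (hη : ‖η‖ = 1) (z : ℂ) :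
    Summable (fun m : O => paD b l a η (z + 3 * sg m)) ∧
      HasDerivAt (fun ε : ℝ => ∑' m : O, paT b l a (z + ε * η + 3 * sg m))
        (∑' m : O, paD b l a η (z + 3 * sg m)) 0 := by
  obtain ⟨C₁, hC₁⟩ := pa_bound (l - 1) ha (‖z‖ + 1)
  obtain ⟨C₂, hC₂⟩ := pa_bound (l + 1) ha (‖z‖ + 1)
  have hs := (pa_summable ha).mul_left (l * a ^ l * C₁ + 2 * a ^ (l + 1) * C₂)
  have hb : ∀ (m : O) (ε : ℝ), ε ∈ Ioo (-1 : ℝ) 1 → ‖paD b l a η (z + 3 * sg m + ε * η)‖ ≤
      (l * a ^ l * C₁ + 2 * a ^ (l + 1) * C₂) * Real.exp (-(a * nm m)) := by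
    intro m ε hε
    have hw : ‖z + ε * η‖ ≤ ‖z‖ + 1 := by
      refine (norm_add_le _ _).trans ?_
      rw [norm_mul, hη, mul_one, Complex.norm_real, Real.norm_eq_abs]
      linarith [abs_le.2 ⟨hε.1.le, hε.2.le⟩]
    rw [add_right_comm]
    refine (paD_bound b l ha hη _).trans ?_
    have h1 := hC₁ _ m hw
    have h2 := hC₂ _ m hw
    calc _ ≤ l * a ^ l * (C₁ * Real.exp (-(a * nm m))) + 2 * a ^ (l + 1) * (C₂ * Real.exp (-(a * nm m))) := by
          gcongr
      _ = _ := by ring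
  have h0 : (0 : ℝ) ∈ Ioo (-1 : ℝ) 1 := by norm_num
  have hT : Summable fun m : O => paT b l a (z + 3 * sg m + (0 : ℝ) * η) := by
    refine Summable.of_norm (((pois_summable l ha z).mul_left (a ^ l)).congr fun m => ?_)
    rw [Complex.ofReal_zero, zero_mul, add_zero, paT, norm_mul, norm_pow, norm_mul, pa_norm_pw,
      Complex.norm_real, Complex.norm_real, Real.norm_of_nonneg ha.le,
      Real.norm_of_nonneg (Real.exp_pos _).le, mul_pow, mul_assoc]
  refine ⟨Summable.of_norm_bounded hs fun m => by simpa using hb m 0 h0, ?_⟩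
  have := hasDerivAt_tsum_of_isPreconnected hs isOpen_Ioo isPreconnected_Ioo
    (fun m ε _ => paT_deriv b l a η (z + 3 * sg m) ε) hb h0 hT h0
  simpa only [Complex.ofReal_zero, zero_mul, add_zero, add_right_comm] using this

theorem pa_right (b : Bool) (l : ℕ) {A : ℝ} (hA : 0 < A) {η : ℂ} (hη : ‖η‖ = 1) (z : ℂ) :
    Summable (fun h : O => -(qw b h * pw (!b) η + qw (!b) h * pw b η) *
      (qw b h ^ l * eC (sg h * z / 3) * (Real.exp (-(A * nm h)) : ℂ))) ∧
      HasDerivAt (fun ε : ℝ => ∑' h : O, qw b h ^ l * eC (sg h * (z + ε * η) / 3) *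
          (Real.exp (-(A * nm h)) : ℂ))
        (∑' h : O, -(qw b h * pw (!b) η + qw (!b) h * pw b η) *
          (qw b h ^ l * eC (sg h * z / 3) * (Real.exp (-(A * nm h)) : ℂ))) 0 := by
  have hs := (qw_summable b (l + 1) hA).mul_left 2
  have hn : ∀ (h : O) (w : ℂ), ‖qw b h ^ l * eC w * (Real.exp (-(A * nm h)) : ℂ)‖ =
      ‖qw b h‖ ^ l * Real.exp (-(A * nm h)) := fun h w => by
    rw [norm_mul, norm_mul, norm_eC, mul_one, norm_pow, Complex.norm_real,
      Real.norm_of_nonneg (Real.exp_pos _).le]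
  have hb : ∀ (h : O) (w : ℂ), ‖-(qw b h * pw (!b) η + qw (!b) h * pw b η) *
      (qw b h ^ l * eC w * (Real.exp (-(A * nm h)) : ℂ))‖ ≤
        2 * (‖qw b h‖ ^ (l + 1) * Real.exp (-(A * nm h))) := fun h w => by
    have h1 := norm_add_le (qw b h * pw (!b) η) (qw (!b) h * pw b η)
    rw [norm_mul, norm_mul, pa_norm_pw, pa_norm_pw, hη, mul_one, mul_one, pa_norm_qw (!b),
      ← pa_norm_qw b] at h1
    rw [norm_mul, norm_neg, hn]
    exact (mul_le_mul_of_nonneg_right h1 (by positivity)).trans_eq (by ring)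
  have hd : ∀ (h : O) (ε : ℝ), HasDerivAt (fun ε : ℝ => qw b h ^ l * eC (sg h * (z + ε * η) / 3) *
      (Real.exp (-(A * nm h)) : ℂ)) (-(qw b h * pw (!b) η + qw (!b) h * pw b η) *
        (qw b h ^ l * eC (sg h * (z + ε * η) / 3) * (Real.exp (-(A * nm h)) : ℂ))) ε := by
    intro h ε
    simp only [pa_eC b, pa_pw_add]
    generalize pw b z = u, pw (!b) z = u', pw b η = α, pw (!b) η = α'
    have h1 : HasDerivAt (fun x : ℂ => u + x * α) α ε := by
      simpa using ((hasDerivAt_id (ε : ℂ)).mul_const α).const_add u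
    have h2 : HasDerivAt (fun x : ℂ => u' + x * α') α' ε := by
      simpa using ((hasDerivAt_id (ε : ℂ)).mul_const α').const_add u'
    have h3 := (((((h2.const_mul (qw b h)).add (h1.const_mul (qw (!b) h))).neg.cexp).const_mul
      (qw b h ^ l)).mul_const (Real.exp (-(A * nm h)) : ℂ)).comp_ofReal
    refine HasDerivAt.congr_deriv h3 ?_
    simp only [Pi.add_apply, Pi.neg_apply]
    ring
  refine ⟨Summable.of_norm_bounded hs fun h => hb h _, ?_⟩
  have := hasDerivAt_tsum (y₀ := 0) hs hd (fun h ε => hb h _)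
    (Summable.of_norm ((qw_summable b l hA).congr fun h => (hn h _).symm)) 0
  simpa only [Complex.ofReal_zero, zero_mul, add_zero] using this

theorem pa_step (b : Bool) (l : ℕ) {a A : ℝ} (ha : 0 < a) (hA : 0 < A) (K : ℂ)
    (ih : ∀ z : ℂ, ∑' m : O, paT b l a (z + 3 * sg m) =
      K * ∑' h : O, qw b h ^ l * eC (sg h * z / 3) * (Real.exp (-(A * nm h)) : ℂ)) (z : ℂ) :
    ∑' m : O, paT b (l + 1) a (z + 3 * sg m) =
      K * ∑' h : O, qw b h ^ (l + 1) * eC (sg h * z / 3) * (Real.exp (-(A * nm h)) : ℂ) := by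
  have key : ∀ η : ℂ, ‖η‖ = 1 → ∑' m : O, paD b l a η (z + 3 * sg m) =
      K * ∑' h : O, -(qw b h * pw (!b) η + qw (!b) h * pw b η) *
          (qw b h ^ l * eC (sg h * z / 3) * (Real.exp (-(A * nm h)) : ℂ)) := fun η hη => by
    have h1 := (pa_left b l ha hη z).2
    simp only [ih] at h1
    exact h1.unique ((pa_right b l hA hη z).2.const_mul K)
  have l1 := ((pa_left b l ha norm_one z).1.hasSum.add
    ((pa_left b l ha Complex.norm_I z).1.hasSum.mul_left (pw b I))).mul_left (-1 / 2)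
  have r1 := ((pa_right b l hA norm_one z).1.hasSum.add
    ((pa_right b l hA Complex.norm_I z).1.hasSum.mul_left (pw b I))).mul_left (-1 / 2)
  have p1 : ∀ b, pw b 1 = 1 := fun b => by cases b <;> simp [pw]
  have p2 : pw b I * pw b I = -1 := by cases b <;> simp [pw]
  have p3 : pw b I * pw (!b) I = 1 := by cases b <;> simp [pw]
  have e1 : ∀ y, -1 / 2 * (paD b l a 1 y + pw b I * paD b l a I y) = paT b (l + 1) a y := fun y => by
    rw [paD, paD, paT, p1, p1]
    linear_combination (-1 / 2 * (l * a * (a * pw b y) ^ (l - 1) - a * pw (!b) y * (a * pw b y) ^ l) *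
      (Real.exp (-(a * ‖y‖ ^ 2)) : ℂ)) * p2 + (1 / 2 * (a * pw b y) ^ (l + 1) *
      (Real.exp (-(a * ‖y‖ ^ 2)) : ℂ)) * p3
  have e2 : ∀ (h : O) (w E : ℂ), -1 / 2 * (-(qw b h * pw (!b) 1 + qw (!b) h * pw b 1) * (qw b h ^ l * w * E) +
      pw b I * (-(qw b h * pw (!b) I + qw (!b) h * pw b I) * (qw b h ^ l * w * E))) =
        qw b h ^ (l + 1) * w * E := fun h w E => by
    rw [p1, p1]
    linear_combination (1 / 2 * qw (!b) h * (qw b h ^ l * w * E)) * p2 +
      (1 / 2 * qw b h * (qw b h ^ l * w * E)) * p3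
  simp only [e1] at l1
  simp only [e2] at r1
  rw [l1.tsum_eq, r1.tsum_eq, key 1 norm_one, key I Complex.norm_I]
  ring

/-- Induction on `l` for `b = false`: differentiate both sides along `z + ε η` at `ε = 0`
(`hasDerivAt_tsum_of_isPreconnected` on `ε ∈ (-1, 1)`) for `η = 1` and `η = I` and form
`-(D₁ - I D_I)/2 = -∂_z`, which kills `conj y`; `eC w = exp (2π/√3 (w - conj w))`.
`b = true` follows by complex conjugation and `h ↦ -h`. -/
theorem pois (b : Bool) (l : ℕ) {T v : ℝ} (hT : 0 < T) (hv : 0 < v) (z : ℂ) :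
    ∑' m : O, ((T / v : ℝ) * pw b (z + 3 * sg m)) ^ l *
        (Real.exp (-(T * ‖z + 3 * sg m‖ ^ 2 / v)) : ℂ) =
      (k0 * v / T : ℝ) *
        ∑' h : O, qw b h ^ l * eC (sg h * z / 3) * (Real.exp (-(v * (bt * nm h / T))) : ℂ) := by
  have hb := bt_pos
  have e1 : ∀ x : ℝ, T * x / v = T / v * x := fun x => by ring
  have e2 : ∀ x : ℝ, v * (bt * x / T) = v * bt / T * x := fun x => by ring
  induction l generalizing z with
  | zero => simpa only [pow_zero, one_mul] using pois_zero hT hv z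
  | succ l ih =>
    simp only [e1, e2] at ih ⊢
    exact pa_step b l (by positivity) (by positivity) _ ih z

end Crest.Agent.R17.D
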