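import Crest.Agent.R17.D.Bessel

/-! Row 17, block D (owner helper53): Mellin transforms of Bessel series. -/

set_option autoImplicit false

namespace Crest.Agent.R17.D

open Complex MeasureTheory Filter Set
open scoped Real Topology ComplexConjugate

theorem fea_entBdd {f : ℝ → ℂ} (hf : ContinuousOn f (Ioi 0))
    (df : ∀ A : ℝ, f =O[atTop] fun v : ℝ => v ^ (-A))
    (df' : ∀ A : ℝ, f =O[𝓝[>] 0] fun v : ℝ => v ^ (-A)) : EntBdd fun s => mellin f (2 * s) := by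
  have hl : LocallyIntegrableOn f (Ioi 0) := hf.locallyIntegrableOn measurableSet_Ioi
  have hc : ∀ s : ℂ, MellinConvergent f s := fun s =>
    mellinConvergent_of_isBigO_rpow hl (df (s.re + 1)) (by linarith) (df' (s.re - 1)) (by linarith)
  refine ⟨fun s => ?_, fun σ₁ σ₂ => ?_⟩
  · exact DifferentiableAt.comp (g := mellin f) s
      (mellin_differentiableAt_of_isBigO_rpow hl (df ((2 * s).re + 1)) (by linarith)
        (df' ((2 * s).re - 1)) (by linarith)) (by fun_prop)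
  · refine ⟨∫ t in Ioi (0 : ℝ), (‖(t : ℂ) ^ ((2 * σ₁ : ℝ) - 1 : ℂ) • f t‖ +
      ‖(t : ℂ) ^ ((2 * σ₂ : ℝ) - 1 : ℂ) • f t‖), fun s h1 h2 => ?_⟩
    refine norm_integral_le_of_norm_le ((hc _).norm.add (hc _).norm) ?_
    filter_upwards [ae_restrict_mem measurableSet_Ioi] with t ht
    have ht' : (0 : ℝ) < t := ht
    simp only [norm_smul, norm_cpow_eq_rpow_re_of_pos ht', sub_re, ofReal_re, one_re, mul_re,
      re_ofNat, im_ofNat, zero_mul, sub_zero]
    rw [← add_mul]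
    refine mul_le_mul_of_nonneg_right ?_ (norm_nonneg _)
    rcases le_total t 1 with h | h
    · exact (Real.rpow_le_rpow_of_exponent_ge ht' h (by linarith)).trans
        (le_add_of_nonneg_right (Real.rpow_nonneg ht'.le _))
    · exact (Real.rpow_le_rpow_of_exponent_le h (by linarith)).trans
        (le_add_of_nonneg_left (Real.rpow_nonneg ht'.le _))

theorem fea_zero {f g : ℝ → ℂ} (dg : ∀ A : ℝ, g =O[atTop] fun v : ℝ => v ^ (-A)) {N : ℝ}
    (hN : 0 < N) (c : ℂ) (h : ∀ t : ℝ, 0 < t → f t = c * ((t : ℂ) ^ 2)⁻¹ * g (N * t)⁻¹) (A : ℝ) :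
    f =O[𝓝[>] 0] fun v : ℝ => v ^ (-A) := by
  have h1 : Tendsto (fun t : ℝ => (N * t)⁻¹) (𝓝[>] 0) atTop := by
    simp only [mul_inv]
    exact tendsto_inv_nhdsGT_zero.const_mul_atTop (inv_pos.2 hN)
  obtain ⟨C, hC⟩ := ((dg (2 - A)).comp_tendsto h1).bound
  refine Asymptotics.IsBigO.of_bound (‖c‖ * C * N ^ (2 - A)) ?_
  filter_upwards [hC, self_mem_nhdsWithin] with t h2 ht
  have ht' : (0 : ℝ) < t := ht
  simp only [Function.comp] at h2
  rw [Real.norm_of_nonneg (by positivity), Real.inv_rpow (by positivity), ← Real.rpow_neg (by positivity),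
    neg_neg, Real.mul_rpow hN.le ht'.le] at h2
  rw [h t ht', norm_mul, norm_mul, norm_inv, norm_pow, norm_real, Real.norm_of_nonneg ht'.le,
    Real.norm_of_nonneg (by positivity)]
  refine (mul_le_mul_of_nonneg_left h2 (by positivity)).trans (le_of_eq ?_)
  rw [sub_eq_add_neg 2 A, Real.rpow_add ht', Real.rpow_two]
  field_simp

/-- two functions with rapid decay at `∞` related by `v ↦ 1/(N v)`
(`mellin_differentiableAt_of_isBigO_rpow`, `mellin_comp_inv`, `mellin_comp_mul_left`; bounded in strips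
by `∫ ‖f‖ (t^{2σ₁-1} + t^{2σ₂-1})`) -/
theorem mellin_FE {f g : ℝ → ℂ} (hf : ContinuousOn f (Ioi 0)) (hg : ContinuousOn g (Ioi 0))
    (df : ∀ A : ℝ, f =O[atTop] fun v : ℝ => v ^ (-A)) (dg : ∀ A : ℝ, g =O[atTop] fun v : ℝ => v ^ (-A))
    {N : ℝ} (hN : 0 < N) {ε : ℂ} (hε : ε ≠ 0) (h : ∀ v : ℝ, 0 < v → f (N * v)⁻¹ = ε * v ^ 2 * g v) :
    EntBdd (fun s => mellin f (2 * s)) ∧ EntBdd (fun s => mellin g (2 * s)) ∧
      ∀ s : ℂ, mellin f (2 * s) = ε * (N : ℂ) ^ (-(2 * s)) * mellin g (2 * (1 - s)) := by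
  have hN' : (N : ℂ) ≠ 0 := ofReal_ne_zero.2 hN.ne'
  refine ⟨fea_entBdd hf df (fea_zero dg hN (ε * ((N : ℂ) ^ 2)⁻¹) fun t ht => ?_),
    fea_entBdd hg dg (fea_zero df hN ε⁻¹ fun t ht => ?_), fun s => ?_⟩
  · have h1 := h (N * t)⁻¹ (by positivity)
    have e : (N * (N * t)⁻¹)⁻¹ = t := by field_simp
    rw [e] at h1
    rw [h1]
    push_cast
    ring
  · have ht' : (t : ℂ) ≠ 0 := ofReal_ne_zero.2 ht.ne'
    rw [h t ht]
    field_simp
  · have h1 := mellin_comp_mul_left (fun t => f t⁻¹) (-(2 * s)) hN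
    rw [mellin_comp_inv, neg_neg] at h1
    have h2 : mellin (fun t => f (N * t)⁻¹) (-(2 * s)) =
        mellin (fun t : ℝ => ε • (t : ℂ) ^ (2 : ℂ) • g t) (-(2 * s)) := by
      refine setIntegral_congr_fun measurableSet_Ioi fun t ht => ?_
      simp only [h t ht, smul_eq_mul, cpow_two, mul_assoc]
    rw [h2, mellin_const_smul, mellin_cpow_smul] at h1
    have e : -(2 * s) + 2 = 2 * (1 - s) := by ring
    rw [e, smul_eq_mul, smul_eq_mul] at h1
    rw [mul_right_comm, h1, cpow_neg]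
    have h3 : (N : ℂ) ^ (2 * s) ≠ 0 := by simp [hN']
    field_simp

theorem mellin_JJ {h : O} (hh : h ≠ 0) {s : ℂ} (hs : 0 < s.re) :
    MellinConvergent (JJ h) (2 * s) ∧
      mellin (JJ h) (2 * s) = (2 * √bt * √(nm h) : ℝ)⁻¹ * gth s * (nm h : ℂ) ^ (-s) := by
  have hn := nm_pos hh
  have hb := bt_pos
  have hc : 0 < √(bt * nm h) := Real.sqrt_pos.2 (by positivity)
  have e : JJ h = fun t : ℝ => (t : ℂ) ^ (1 : ℂ) • KB (1 / 3) (√(bt * nm h) * t) := by
    funext t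
    rw [JJ, cpow_one, smul_eq_mul, mul_comm t]
  obtain ⟨h1, h2⟩ := mellin_KB (ν := 1 / 3) (a := 2 * s + 1) (by
    have : ((1 : ℂ) / 3).re = 1 / 3 := by norm_num
    rw [this, abs_of_pos (by norm_num)]
    simp
    linarith)
  rw [e]
  refine ⟨MellinConvergent.cpow_smul.2 ((MellinConvergent.comp_mul_left hc).2 h1), ?_⟩
  rw [mellin_cpow_smul, mellin_comp_mul_left _ _ hc, h2, smul_eq_mul, gth]
  have e1 : (2 * s + 1 + 1 / 3) / 2 = s + 2 / 3 := by ring
  have e2 : (2 * s + 1 - 1 / 3) / 2 = s + 1 / 3 := by ring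
  have e3 : ((√(bt * nm h) : ℝ) : ℂ) ^ (-(2 * s + 1)) = ((√(bt * nm h) : ℝ) : ℂ)⁻¹ *
      (((27 / (4 * π ^ 2) : ℝ) : ℂ) ^ s * (nm h : ℂ) ^ (-s)) := by
    have e4 : ((27 / (4 * π ^ 2) : ℝ) : ℂ) ^ s = (bt : ℂ) ^ (-s) := by
      have : (27 / (4 * π ^ 2) : ℝ) = bt⁻¹ := by rw [bt, inv_div]
      rw [this, ofReal_inv, inv_cpow _ _ (by rw [arg_ofReal_of_nonneg hb.le]; exact Real.pi_pos.ne),
        cpow_neg]
    have e5 : -(2 * s + 1) = -1 + ((2 : ℝ) : ℂ) * -s := by push_cast; ring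
    rw [e4, ← mul_cpow_ofReal_nonneg hb.le hn.le, e5, cpow_add _ _ (ofReal_ne_zero.2 hc.ne'),
      cpow_neg_one, cpow_mul_ofReal_nonneg hc.le, Real.rpow_two, Real.sq_sqrt (by positivity),
      ofReal_mul]
  rw [e1, e2, e3, Real.sqrt_mul hb.le]
  push_cast
  ring

theorem JJ_decay {A : ℝ} (hA : 1 ≤ A) : ∃ C : ℝ, ∀ (h : O) (v : ℝ), h ≠ 0 → 0 < v →
    ‖JJ h v‖ ≤ C * v ^ (1 - A) * nm h ^ (-(A / 2)) := by
  obtain ⟨C, hC⟩ := KB_decay (σ := 1 / 3) (A := A) (by rw [abs_of_pos (by norm_num)]; linarith)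
  refine ⟨C * bt ^ (-(A / 2)), fun h v hh hv => ?_⟩
  have hb := bt_pos
  have hn := nm_pos hh
  have h1 := hC (v * √(bt * nm h)) (by positivity)
  push_cast at h1
  rw [JJ, norm_mul, Complex.norm_of_nonneg hv.le]
  refine (mul_le_mul_of_nonneg_left h1 hv.le).trans (le_of_eq ?_)
  rw [Real.mul_rpow hv.le (Real.sqrt_nonneg _), Real.sqrt_eq_rpow, ← Real.rpow_mul (by positivity),
    Real.mul_rpow hb.le hn.le, sub_eq_add_neg, Real.rpow_add hv, Real.rpow_one,
    show 1 / 2 * -A = -(A / 2) by ring]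
  ring

variable {a : O → ℂ} {C : ℝ}

theorem feb_term (h0 : a 0 = 0) (ha : ∀ h, ‖a h‖ ≤ C * nm h) {A : ℝ} (hA : 1 ≤ A) :
    ∃ K : ℝ, 0 ≤ K ∧ ∀ (h : O) (v : ℝ), 0 < v →
      ‖a h * JJ h v‖ ≤ K * v ^ (1 - A) * nm h ^ (-(A / 2 - 1)) := by
  obtain ⟨C', hC'⟩ := JJ_decay hA
  refine ⟨|C| * |C'|, by positivity, fun h v hv => ?_⟩
  have hn0 := nm_nonneg h
  by_cases hh : h = 0
  · rw [hh, h0, zero_mul, norm_zero]
    have := nm_nonneg 0
    positivity
  have hn := nm_pos hh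
  have h1 : ‖a h‖ ≤ |C| * nm h := (ha h).trans (mul_le_mul_of_nonneg_right (le_abs_self C) hn0)
  have h2 : ‖JJ h v‖ ≤ |C'| * v ^ (1 - A) * nm h ^ (-(A / 2)) := (hC' h v hh hv).trans (by
    gcongr
    exact le_abs_self C')
  rw [norm_mul]
  refine (mul_le_mul h1 h2 (norm_nonneg _) (by positivity)).trans (le_of_eq ?_)
  rw [show -(A / 2 - 1) = -(A / 2) + 1 by ring, Real.rpow_add hn, Real.rpow_one]
  ring

theorem feb_cont {h : O} (hh : h ≠ 0) : ContinuousOn (JJ h) (Ioi 0) := by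
  have hb := bt_pos
  have hn := nm_pos hh
  refine continuous_ofReal.continuousOn.mul ((continuousOn_KB _).comp
    (continuous_id.mul continuous_const).continuousOn fun v hv => ?_)
  exact mul_pos (mem_Ioi.1 hv) (Real.sqrt_pos.2 (mul_pos hb hn))

theorem ser_continuousOn (h0 : a 0 = 0) (ha : ∀ h, ‖a h‖ ≤ C * nm h) :
    ContinuousOn (fun v => ∑' h : O, a h * JJ h v) (Ioi 0) := by
  obtain ⟨K, hK, h⟩ := feb_term h0 ha (A := 6) (by norm_num)
  intro v hv
  have hv' : (0 : ℝ) < v / 2 := half_pos hv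
  have key : ContinuousOn (fun v => ∑' h : O, a h * JJ h v) (Ioi (v / 2)) := by
    refine continuousOn_tsum (u := fun h : O => K * (v / 2) ^ (1 - 6 : ℝ) * nm h ^ (-(6 / 2 - 1 : ℝ)))
      (fun h => ?_) ((summable_nm_rpow (by norm_num)).mul_left _) fun n x hx => ?_
    · by_cases hh : h = 0
      · simp only [hh, h0, zero_mul]
        exact continuousOn_const
      · exact (continuousOn_const.mul (feb_cont hh)).mono fun x hx => hv'.trans hx
    · refine (h n x (hv'.trans hx)).trans (mul_le_mul_of_nonneg_right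
        (mul_le_mul_of_nonneg_left ?_ hK) (Real.rpow_nonneg (nm_nonneg n) _))
      exact Real.rpow_le_rpow_of_nonpos hv' (le_of_lt hx) (by norm_num)
  exact (key.continuousAt (Ioi_mem_nhds (half_lt_self hv))).continuousWithinAt

theorem ser_decay (h0 : a 0 = 0) (ha : ∀ h, ‖a h‖ ≤ C * nm h) (A : ℝ) :
    (fun v => ∑' h : O, a h * JJ h v) =O[atTop] fun v : ℝ => v ^ (-A) := by
  obtain ⟨K, hK, h⟩ := feb_term h0 ha (A := max (A + 1) 6) (le_max_of_le_right (by norm_num))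
  have hs := summable_nm_rpow (σ := max (A + 1) 6 / 2 - 1) (by linarith [le_max_right (A + 1) 6])
  refine Asymptotics.IsBigO.of_bound (K * ∑' n : O, nm n ^ (-(max (A + 1) 6 / 2 - 1))) ?_
  filter_upwards [eventually_ge_atTop 1] with v hv
  have hv0 : 0 < v := by linarith
  have h1 : v ^ (1 - max (A + 1) 6) ≤ v ^ (-A) :=
    Real.rpow_le_rpow_of_exponent_le hv (by linarith [le_max_left (A + 1) 6])
  rw [Real.norm_of_nonneg (by positivity), mul_right_comm, ← tsum_mul_left]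
  refine tsum_of_norm_bounded (hs.mul_left _).hasSum fun n => (h n v hv0).trans ?_
  exact mul_le_mul_of_nonneg_right (mul_le_mul_of_nonneg_left h1 hK)
    (Real.rpow_nonneg (nm_nonneg n) _)

theorem feb_scale {h : O} (hh : h ≠ 0) (s : ℂ) :
    ∫ t in Ioi (0 : ℝ), ‖(t : ℂ) ^ (2 * s - 1) • JJ h t‖ =
      nm h ^ (-s.re) * ((√(nm h))⁻¹ * ∫ t in Ioi (0 : ℝ), t ^ (2 * s.re - 1) * ‖JJ 1 t‖) := by
  have hn := nm_pos hh
  have hr : 0 < √(nm h) := Real.sqrt_pos.2 hn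
  have h1 := integral_comp_mul_right_Ioi (fun t : ℝ => t ^ (2 * s.re - 1) * ‖JJ 1 t‖) 0 hr
  rw [zero_mul, smul_eq_mul] at h1
  rw [← h1, ← integral_const_mul]
  refine setIntegral_congr_fun measurableSet_Ioi fun t ht => ?_
  have ht0 : 0 < t := ht
  have e1 : √(nm h) ^ (2 * s.re - 1) * √(nm h) = nm h ^ s.re := by
    rw [← Real.rpow_add_one hr.ne', Real.sqrt_eq_rpow, ← Real.rpow_mul hn.le]
    congr 1
    ring
  have e2 : nm h ^ (-s.re) * nm h ^ s.re = 1 := by rw [← Real.rpow_add hn]; simp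
  have e3 : t * √(nm h) * √(bt * nm 1) = t * √(bt * nm h) := by
    rw [nm_one, mul_one, Real.sqrt_mul bt_pos.le]
    ring
  simp only [JJ, e3, smul_eq_mul, norm_mul, norm_cpow_eq_rpow_re_of_pos ht0,
    Complex.norm_of_nonneg ht0.le, Complex.norm_of_nonneg (mul_pos ht0 hr).le,
    Real.mul_rpow ht0.le hr.le]
  have e4 : (2 * s - 1).re = 2 * s.re - 1 := by simp
  rw [e4]
  linear_combination (-(t ^ (2 * s.re - 1) * t * ‖KB (1 / 3) (t * √(bt * nm h))‖)) *
    (nm h ^ (-s.re) * e1 + e2)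

/-- `integral_tsum`; `∫ ‖JJ h v‖ v^{2σ-1} = c · nm h^{-σ-1/2}` by scaling -/
theorem ser_mellin (h0 : a 0 = 0) (ha : ∀ h, ‖a h‖ ≤ C * nm h) {s : ℂ} (hs : 2 < s.re) :
    mellin (fun v => ∑' h : O, a h * JJ h v) (2 * s) =
      (2 * √bt : ℝ)⁻¹ * gth s * ∑' h : O, a h * ((√(nm h) : ℝ) : ℂ)⁻¹ * (nm h : ℂ) ^ (-s) := by
  have hs0 : 0 < s.re := by linarith
  have : Countable O := crd.surjective.countable
  have hI : ∀ h : O, Integrable (fun t : ℝ => a h * ((t : ℂ) ^ (2 * s - 1) • JJ h t))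
      (volume.restrict (Ioi 0)) := fun h => by
    by_cases hh : h = 0
    · simp only [hh, h0, zero_mul]
      exact integrable_zero _ _ _
    · exact Integrable.const_mul (mellin_JJ hh hs0).1 _
  have hS : Summable fun h : O => ∫ t in Ioi (0 : ℝ), ‖a h * ((t : ℂ) ^ (2 * s - 1) • JJ h t)‖ := by
    set I₀ := ∫ t in Ioi (0 : ℝ), t ^ (2 * s.re - 1) * ‖JJ 1 t‖ with hI₀
    have hI0 : 0 ≤ I₀ := setIntegral_nonneg measurableSet_Ioi fun t ht => by
      have : 0 < t := ht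
      positivity
    refine Summable.of_nonneg_of_le (fun h => integral_nonneg fun t => norm_nonneg _) (fun h => ?_)
      ((summable_nm_rpow (σ := s.re - 1) (by linarith)).mul_left (|C| * I₀))
    have hn0 := nm_nonneg h
    by_cases hh : h = 0
    · simp only [hh, h0, zero_mul, norm_zero, integral_zero]
      have := nm_nonneg 0
      positivity
    have hn := nm_pos hh
    simp only [norm_mul]
    rw [integral_const_mul, feb_scale hh s, ← hI₀]
    have h1 : ‖a h‖ ≤ |C| * nm h := (ha h).trans (mul_le_mul_of_nonneg_right (le_abs_self C) hn0)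
    have h2 : (√(nm h))⁻¹ ≤ 1 := inv_le_one_of_one_le₀ (Real.one_le_sqrt.2 (one_le_nm hh))
    calc ‖a h‖ * (nm h ^ (-s.re) * ((√(nm h))⁻¹ * I₀))
        ≤ |C| * nm h * (nm h ^ (-s.re) * (1 * I₀)) := by gcongr
      _ = _ := by
        rw [show -(s.re - 1) = -s.re + 1 by ring, Real.rpow_add hn, Real.rpow_one]
        ring
  have h1 := hasSum_integral_of_summable_integral_norm hI hS
  have h2 : mellin (fun v => ∑' h : O, a h * JJ h v) (2 * s) =
      ∫ t in Ioi (0 : ℝ), ∑' h : O, a h * ((t : ℂ) ^ (2 * s - 1) • JJ h t) := by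
    unfold mellin
    congr 1
    funext t
    rw [smul_eq_mul, ← tsum_mul_left]
    exact tsum_congr fun h => by rw [smul_eq_mul]; ring
  rw [h2, ← h1.tsum_eq, ← tsum_mul_left]
  refine tsum_congr fun h => ?_
  by_cases hh : h = 0
  · simp [hh, h0]
  rw [integral_const_mul]
  have h3 := (mellin_JJ hh hs0).2
  unfold mellin at h3
  rw [h3]
  push_cast
  ring

end Crest.Agent.R17.D
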