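import Crest.Agent.R17.D.Defs

/-! Row 17, block D (owner helper53): the Bessel integrals `KB`, `ww`, `JJ`. -/

set_option autoImplicit false

namespace Crest.Agent.R17.D

open Complex MeasureTheory Filter Set
open scoped Real Topology ComplexConjugate

theorem kba_exp_le {A : ℝ} (hA : 0 ≤ A) :
    ∃ C : ℝ, 0 < C ∧ ∀ y : ℝ, 0 < y → Real.exp (-y) ≤ C * y ^ (-A) := by
  have hf : (1 : ℝ) ≤ (⌈A⌉₊.factorial : ℝ) := by exact_mod_cast Nat.factorial_pos _
  refine ⟨⌈A⌉₊.factorial, by linarith, fun y hy => ?_⟩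
  rcases le_total y 1 with h | h
  · have h1 : 1 ≤ y ^ (-A) := Real.one_le_rpow_of_pos_of_le_one_of_nonpos hy h (by linarith)
    have h2 : Real.exp (-y) ≤ 1 := Real.exp_le_one_iff.2 (by linarith)
    nlinarith
  · have h1 := Real.pow_div_factorial_le_exp y hy.le ⌈A⌉₊
    have h2 : y ^ A ≤ y ^ ⌈A⌉₊ := by
      rw [← Real.rpow_natCast]; exact Real.rpow_le_rpow_of_exponent_le h (Nat.le_ceil A)
    rw [Real.rpow_neg hy.le, Real.exp_neg, ← div_eq_mul_inv, inv_eq_one_div,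
      div_le_div_iff₀ (Real.exp_pos y) (Real.rpow_pos_of_pos hy A)]
    rw [div_le_iff₀ (by linarith)] at h1
    linarith

theorem kba_le {A : ℝ} (hA : 0 ≤ A) : ∃ C : ℝ, 0 < C ∧ ∀ x T : ℝ, 0 < x → 0 < T →
    Real.exp (-(x * (T + T⁻¹))) ≤ C * x ^ (-A) * (T + T⁻¹) ^ (-A) := by
  obtain ⟨C, hC, h⟩ := kba_exp_le hA
  refine ⟨C, hC, fun x T hx hT => ?_⟩
  rw [mul_assoc, ← Real.mul_rpow hx.le (by positivity)]
  exact h _ (by positivity)

theorem kba_O {A C : ℝ} (hA : 0 ≤ A) {f : ℝ → ℂ} (h : ∀ T : ℝ, 0 < T → ‖f T‖ ≤ C * (T + T⁻¹) ^ (-A))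
    (hC : 0 ≤ C) : f =O[atTop] (· ^ (-A)) ∧ f =O[𝓝[>] 0] (· ^ (-(-A))) := by
  constructor
  · refine Asymptotics.IsBigO.of_bound C ((eventually_gt_atTop 0).mono fun T hT => (h T hT).trans ?_)
    rw [Real.norm_of_nonneg (by positivity)]
    exact mul_le_mul_of_nonneg_left (Real.rpow_le_rpow_of_nonpos hT
      (le_add_of_nonneg_right (by positivity)) (by linarith)) hC
  · refine Asymptotics.IsBigO.of_bound C
      (eventually_mem_nhdsWithin.mono fun T (hT : 0 < T) => (h T hT).trans ?_)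
    rw [Real.norm_of_nonneg (by positivity), Real.rpow_neg hT.le (-A), ← Real.inv_rpow hT.le]
    exact mul_le_mul_of_nonneg_left (Real.rpow_le_rpow_of_nonpos (by positivity)
      (le_add_of_nonneg_left hT.le) (by linarith)) hC

theorem kba_cont (x : ℝ) :
    ContinuousOn (fun T : ℝ => (Real.exp (-(x * (T + T⁻¹))) : ℂ)) (Ioi 0) :=
  continuous_ofReal.comp_continuousOn (Real.continuous_exp.comp_continuousOn
    (continuousOn_const.mul (continuousOn_id.add (continuousOn_id.inv₀ fun _ h => ne_of_gt h))).neg)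

theorem kba_O' {x A : ℝ} (hx : 0 < x) (hA : 0 ≤ A) :
    (fun T : ℝ => (Real.exp (-(x * (T + T⁻¹))) : ℂ)) =O[atTop] (· ^ (-A)) ∧
      (fun T : ℝ => (Real.exp (-(x * (T + T⁻¹))) : ℂ)) =O[𝓝[>] 0] (· ^ (-(-A))) := by
  obtain ⟨C, hC, h⟩ := kba_le hA
  refine kba_O (C := C * x ^ (-A)) hA (fun T hT => ?_) (by positivity)
  rw [norm_real, Real.norm_of_nonneg (Real.exp_pos _).le]
  exact h x T hx hT

theorem KB_conv (ν : ℂ) {x : ℝ} (hx : 0 < x) :
    MellinConvergent (fun T : ℝ => (Real.exp (-(x * (T + T⁻¹))) : ℂ)) ν := by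
  have h := kba_O' hx (A := |ν.re| + 1) (by positivity)
  exact mellinConvergent_of_isBigO_rpow ((kba_cont x).locallyIntegrableOn measurableSet_Ioi) h.1
    (by linarith [le_abs_self ν.re]) h.2 (by linarith [neg_abs_le ν.re])

theorem kba_norm (ν : ℂ) (x : ℝ) {T : ℝ} (hT : 0 < T) :
    ‖(T : ℂ) ^ (ν - 1) • (Real.exp (-(x * (T + T⁻¹))) : ℂ)‖ =
      T ^ (ν.re - 1) * Real.exp (-(x * (T + T⁻¹))) := by
  rw [norm_smul, norm_cpow_eq_rpow_re_of_pos hT, norm_real, Real.norm_of_nonneg (Real.exp_pos _).le,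
    sub_re, one_re]

theorem kba_real (σ x : ℝ) :
    ‖KB σ x‖ = ∫ T in Ioi (0 : ℝ), T ^ (σ - 1) * Real.exp (-(x * (T + T⁻¹))) := by
  have : KB σ x = ((∫ T in Ioi (0 : ℝ), T ^ (σ - 1) * Real.exp (-(x * (T + T⁻¹))) : ℝ) : ℂ) := by
    rw [← integral_complex_ofReal]
    refine setIntegral_congr_fun measurableSet_Ioi fun T (hT : 0 < T) => ?_
    simp only [smul_eq_mul]
    rw [ofReal_mul, ofReal_cpow hT.le, ofReal_sub, ofReal_one]
  rw [this, norm_real, Real.norm_of_nonneg]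
  exact setIntegral_nonneg measurableSet_Ioi fun T (hT : 0 < T) => by positivity

theorem kba_int (σ : ℝ) {x : ℝ} (hx : 0 < x) :
    IntegrableOn (fun T : ℝ => T ^ (σ - 1) * Real.exp (-(x * (T + T⁻¹)))) (Ioi 0) :=
  IntegrableOn.congr_fun (KB_conv σ hx).norm (fun T hT => by simpa using kba_norm σ x hT)
    measurableSet_Ioi

/-- `mellin_comp_inv` -/
theorem KB_neg (ν : ℂ) (x : ℝ) : KB (-ν) x = KB ν x := by
  rw [KB, ← mellin_comp_inv, KB]
  simp only [inv_inv, add_comm]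

theorem norm_KB_le (ν : ℂ) (x : ℝ) : ‖KB ν x‖ ≤ ‖KB ν.re x‖ := by
  rw [kba_real]
  exact (norm_integral_le_integral_norm _).trans_eq
    (setIntegral_congr_fun measurableSet_Ioi fun T hT => kba_norm ν x hT)

/-- `mellin_differentiableAt_of_isBigO_rpow`; bounded on strips -/
theorem mod_KB {x : ℝ} (hx : 0 < x) : Mod fun s => KB (s - 1) x := by
  refine ⟨fun s => ?_, fun σ₁ σ₂ => ?_⟩
  · have h := kba_O' hx (A := |(s - 1).re| + 1) (by positivity)
    exact (mellin_differentiableAt_of_isBigO_rpow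
      ((kba_cont x).locallyIntegrableOn measurableSet_Ioi) h.1 (by linarith [le_abs_self (s - 1).re])
      h.2 (by linarith [neg_abs_le (s - 1).re])).comp s (f := fun s : ℂ => s - 1) (by fun_prop)
  · refine ⟨‖KB (σ₁ - 1 : ℝ) x‖ + ‖KB (σ₂ - 1 : ℝ) x‖, 0, fun s hs => ?_⟩
    rw [zero_mul, Real.exp_zero, mul_one]
    refine (norm_KB_le _ x).trans ?_
    rw [kba_real, kba_real, kba_real, ← integral_add (kba_int _ hx) (kba_int _ hx)]
    refine setIntegral_mono_on (kba_int _ hx) ((kba_int _ hx).add (kba_int _ hx)) measurableSet_Ioi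
      fun T (hT : 0 < T) => ?_
    rw [← add_mul, sub_re, one_re]
    refine mul_le_mul_of_nonneg_right ?_ (Real.exp_pos _).le
    rcases le_total T 1 with h | h
    · exact le_add_of_le_of_nonneg (Real.rpow_le_rpow_of_exponent_ge hT h (by linarith [hs.1]))
        (by positivity)
    · exact le_add_of_nonneg_of_le (by positivity)
        (Real.rpow_le_rpow_of_exponent_le h (by linarith [hs.2]))

/-- `exp (-y) ≤ C y^{-A}`, `∫ T^{σ-1} (T + T⁻¹)^{-A} < ∞` -/
theorem KB_decay {σ A : ℝ} (h : |σ| < A) :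
    ∃ C : ℝ, ∀ x : ℝ, 0 < x → ‖KB σ x‖ ≤ C * x ^ (-A) := by
  have hA : 0 ≤ A := (abs_nonneg σ).trans h.le
  obtain ⟨C, hC, hle⟩ := kba_le hA
  have hc : ContinuousOn (fun T : ℝ => (((T + T⁻¹) ^ (-A) : ℝ) : ℂ)) (Ioi 0) :=
    continuous_ofReal.comp_continuousOn
      ((continuousOn_id.add (continuousOn_id.inv₀ fun _ h => ne_of_gt h)).rpow_const
        fun T (hT : 0 < T) => Or.inl (show T + T⁻¹ ≠ 0 by positivity))
  have hO := kba_O (C := 1) (f := fun T : ℝ => (((T + T⁻¹) ^ (-A) : ℝ) : ℂ)) hA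
    (fun T hT => by rw [norm_real, Real.norm_of_nonneg (by positivity), one_mul]) zero_le_one
  have hm : MellinConvergent _ (σ : ℂ) := mellinConvergent_of_isBigO_rpow
    (hc.locallyIntegrableOn measurableSet_Ioi) hO.1 (by simpa using (abs_lt.1 h).2) hO.2
    (by simpa using (abs_lt.1 h).1)
  have hi : IntegrableOn (fun T : ℝ => T ^ (σ - 1) * (T + T⁻¹) ^ (-A)) (Ioi 0) :=
    IntegrableOn.congr_fun hm.norm (fun T (hT : 0 < T) => by
      simp only []
      rw [norm_smul, norm_cpow_eq_rpow_re_of_pos hT, norm_real, Real.norm_of_nonneg (by positivity)]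
      simp) measurableSet_Ioi
  refine ⟨C * ∫ T in Ioi (0 : ℝ), T ^ (σ - 1) * (T + T⁻¹) ^ (-A), fun x hx => ?_⟩
  rw [kba_real, mul_right_comm, ← integral_const_mul]
  refine setIntegral_mono_on (kba_int σ hx) (hi.const_mul _) measurableSet_Ioi fun T (hT : 0 < T) => ?_
  rw [mul_left_comm]
  exact mul_le_mul_of_nonneg_left (hle x T hx hT) (by positivity)

theorem continuousOn_KB (ν : ℂ) : ContinuousOn (KB ν) (Ioi 0) := by
  intro x₀ (hx₀ : 0 < x₀)
  refine (continuousAt_of_dominated (bound := fun T : ℝ =>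
    T ^ (ν.re - 1) * Real.exp (-(x₀ / 2 * (T + T⁻¹)))) ?_ ?_ (kba_int ν.re (half_pos hx₀))
    (ae_of_all _ fun T => by fun_prop)).continuousWithinAt
  · exact (eventually_gt_nhds hx₀).mono fun x hx => (KB_conv ν hx).aestronglyMeasurable
  · refine (eventually_gt_nhds (half_lt_self hx₀)).mono fun x hx =>
      (ae_restrict_mem measurableSet_Ioi).mono fun T (hT : 0 < T) => ?_
    rw [kba_norm ν x hT]
    have : 0 < T + T⁻¹ := by positivity
    gcongr

/-- joint measurability on a vertical line -/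
theorem measurable_KB (σ : ℝ) : Measurable fun p : ℝ × ℝ => KB (σ + p.1 * I) p.2 := by
  have : Measurable fun q : (ℝ × ℝ) × ℝ => (q.2 : ℂ) ^ (σ + q.1.1 * I - 1) •
      (Real.exp (-(q.1.2 * (q.2 + q.2⁻¹))) : ℂ) := by fun_prop
  exact (this.stronglyMeasurable.integral_prod_right' (ν := volume.restrict (Ioi 0))).measurable

theorem bsb_gam {s : ℂ} (hs : 0 < s.re) :
    HasMellin (fun t : ℝ => (Real.exp (-t) : ℂ)) s (Gamma s) := by
  refine ⟨?_, by rw [← GammaIntegral_eq_mellin, Gamma_eq_integral hs]⟩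
  simpa only [MellinConvergent, smul_eq_mul, mul_comm] using Complex.GammaIntegral_convergent hs

theorem bsb_gauss {b : ℂ} (hb : 0 < b.re) {α : ℝ} (hα : 0 < α) :
    HasMellin (fun x : ℝ => (Real.exp (-(α⁻¹ * x ^ (2 : ℝ))) : ℂ)) b
      (1 / 2 * Gamma (b / 2) * (α : ℂ) ^ (b / 2)) := by
  have h0 := bsb_gam (s := b / 2) (by simp only [div_ofNat_re]; linarith)
  have e : ((2 : ℝ) : ℂ) = 2 := by norm_num
  constructor
  · refine (MellinConvergent.comp_rpow (f := fun t : ℝ => (Real.exp (-(α⁻¹ * t)) : ℂ))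
      two_ne_zero).2 ?_
    rw [e]
    exact (MellinConvergent.comp_mul_left (f := fun t : ℝ => (Real.exp (-t) : ℂ)) (inv_pos.2 hα)).2 h0.1
  · rw [mellin_comp_rpow (fun t : ℝ => (Real.exp (-(α⁻¹ * t)) : ℂ)), e,
      mellin_comp_mul_left (fun t : ℝ => (Real.exp (-t) : ℂ)) _ (inv_pos.2 hα), h0.2, ofReal_inv,
      inv_cpow _ _ (by rw [arg_ofReal_of_nonneg hα.le]; exact Real.pi_pos.ne), cpow_neg, inv_inv,
      abs_two, smul_eq_mul, real_smul]
    push_cast
    ring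

theorem bsb_norm (f : ℝ → ℝ) (hf : ∀ x, 0 ≤ f x) (b : ℂ) :
    ∫ x in Ioi (0 : ℝ), ‖(x : ℂ) ^ (b - 1) • (f x : ℂ)‖ = ‖mellin (fun x => (f x : ℂ)) b.re‖ := by
  have h : mellin (fun x => (f x : ℂ)) b.re =
      ((∫ x in Ioi (0 : ℝ), ‖(x : ℂ) ^ (b - 1) • (f x : ℂ)‖ : ℝ) : ℂ) := by
    rw [← integral_complex_ofReal]
    refine setIntegral_congr_fun measurableSet_Ioi fun x hx => ?_
    simp only [smul_eq_mul]
    rw [norm_mul, norm_cpow_eq_rpow_re_of_pos hx, Complex.norm_of_nonneg (hf x), ofReal_mul,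
      ofReal_cpow (le_of_lt hx)]
    simp
  rw [h, Complex.norm_of_nonneg (integral_nonneg fun _ => norm_nonneg _)]

theorem bsb_sub (ν a : ℂ) {x : ℝ} (hx : 0 < x) : (x : ℂ) ^ (a - 1) • KB ν x =
    ∫ α in Ioi (0 : ℝ), ((α : ℂ) ^ (ν - 1) • (Real.exp (-α) : ℂ)) *
      ((x : ℂ) ^ (a - ν - 1) • (Real.exp (-(α⁻¹ * x ^ (2 : ℝ))) : ℂ)) := by
  have h1 := mellin_comp_mul_left
    (fun α : ℝ => (Real.exp (-α) : ℂ) * (Real.exp (-(α⁻¹ * x ^ (2 : ℝ))) : ℂ)) ν hx
  have h2 : (fun T : ℝ => (Real.exp (-(x * (T + T⁻¹))) : ℂ)) = fun T : ℝ =>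
      (Real.exp (-(x * T)) : ℂ) * (Real.exp (-((x * T)⁻¹ * x ^ (2 : ℝ))) : ℂ) := by
    funext T
    rw [← ofReal_mul, ← Real.exp_add, Real.rpow_two, mul_inv]
    congr 2
    field_simp
    ring
  rw [KB, h2, h1, smul_smul, ← cpow_add _ _ (ofReal_ne_zero.2 hx.ne'), mellin, ← integral_smul]
  refine integral_congr_ae (Eventually.of_forall fun α => ?_)
  simp only [smul_eq_mul]
  rw [show a - 1 + -ν = a - ν - 1 by ring]
  ring

/-- Fubini: `∫ x^{a-1} exp(-x (T + 1/T)) dx = Γ(a) (T + 1/T)^{-a}` and a Beta integral; or substitute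
`T = α / x` for fixed `x`, swap, and use `∫ x^{a-ν-1} exp(-x²/α) dx = ½ Γ((a-ν)/2) α^{(a-ν)/2}`. -/
theorem mellin_KB {ν a : ℂ} (h : |ν.re| < a.re) :
    MellinConvergent (KB ν) a ∧
      mellin (KB ν) a = 1 / 2 * Gamma ((a + ν) / 2) * Gamma ((a - ν) / 2) := by
  obtain ⟨h1, h2⟩ := abs_lt.1 h
  have hb : 0 < (a - ν).re := by rw [sub_re]; linarith
  have hb' : 0 < (((a - ν).re : ℝ) : ℂ).re := by rwa [ofReal_re]
  have key : ∀ (b : ℂ) (α : ℝ), 0 < α → ((α : ℂ) ^ (ν - 1) • (Real.exp (-α) : ℂ)) *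
      (1 / 2 * Gamma (b / 2) * (α : ℂ) ^ (b / 2)) =
      1 / 2 * Gamma (b / 2) * ((α : ℂ) ^ (ν + b / 2 - 1) • (Real.exp (-α) : ℂ)) := fun b α hα => by
    rw [show ν + b / 2 - 1 = ν - 1 + b / 2 by ring, cpow_add _ _ (ofReal_ne_zero.2 hα.ne')]
    simp only [smul_eq_mul]
    ring
  have hF : Integrable (Function.uncurry fun α x : ℝ => ((α : ℂ) ^ (ν - 1) • (Real.exp (-α) : ℂ)) *
      ((x : ℂ) ^ (a - ν - 1) • (Real.exp (-(α⁻¹ * x ^ (2 : ℝ))) : ℂ)))
      ((volume.restrict (Ioi 0)).prod (volume.restrict (Ioi 0))) := by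
    refine (integrable_prod_iff (Measurable.aestronglyMeasurable ?_)).2 ⟨?_, ?_⟩
    · unfold Function.uncurry
      simp only [smul_eq_mul]
      fun_prop
    · filter_upwards [ae_restrict_mem measurableSet_Ioi] with α hα
      exact (bsb_gauss hb hα).1.const_mul ((α : ℂ) ^ (ν - 1) • (Real.exp (-α) : ℂ))
    · have h3 := (bsb_gam (s := ν + ((a - ν).re : ℝ) / 2) (by
        simp only [add_re, div_ofNat_re, ofReal_re, sub_re]; linarith)).1
      refine ((h3.const_mul (1 / 2 * Gamma (((a - ν).re : ℝ) / 2))).norm).congr ?_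
      filter_upwards [ae_restrict_mem measurableSet_Ioi] with α hα
      simp only [Function.uncurry_apply_pair]
      rw [← key _ α hα, ← (bsb_gauss hb' hα).2, norm_mul,
        ← bsb_norm _ (fun _ => (Real.exp_pos _).le), ← integral_const_mul]
      simp only [norm_mul]
  constructor
  · refine hF.integral_prod_right.congr ?_
    filter_upwards [ae_restrict_mem measurableSet_Ioi] with x hx
    exact (bsb_sub ν a hx).symm
  · rw [mellin, setIntegral_congr_fun measurableSet_Ioi fun x hx => bsb_sub ν a hx,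
      ← integral_integral_swap hF, setIntegral_congr_fun measurableSet_Ioi (g := fun α : ℝ =>
        1 / 2 * Gamma ((a - ν) / 2) * ((α : ℂ) ^ (ν + (a - ν) / 2 - 1) • (Real.exp (-α) : ℂ)))
        fun α hα => by
          simp only
          rw [integral_const_mul, ← key _ α hα, ← (bsb_gauss hb hα).2, mellin],
      integral_const_mul, ← mellin, (bsb_gam (by
        simp only [add_re, div_ofNat_re, sub_re]; linarith)).2,
      show ν + (a - ν) / 2 = (a + ν) / 2 by ring]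
    ring

/-- `mellin_comp_mul_left` with `T = √B T'` -/
theorem ww_eq {h : O} (hh : h ≠ 0) (s : ℂ) {v : ℝ} (hv : 0 < v) :
    ww s h v = ((bt * nm h : ℝ) : ℂ) ^ ((s - 1) / 2) * KB (s - 1) (v * √(bt * nm h)) := by
  have hB : 0 < bt * nm h := mul_pos bt_pos (nm_pos hh)
  have hr := Real.sqrt_pos.2 hB
  have h1 := mellin_comp_mul_left
    (fun T : ℝ => (Real.exp (-(v * (T + bt * nm h / T))) : ℂ)) (s - 1) hr
  have h2 : ((bt * nm h : ℝ) : ℂ) ^ ((s - 1) / 2) = ((√(bt * nm h) : ℝ) : ℂ) ^ (s - 1) := by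
    rw [Real.sqrt_eq_rpow, ← cpow_mul_ofReal_nonneg hB.le]
    congr 1
    push_cast
    ring
  have h3 : KB (s - 1) (v * √(bt * nm h)) = ((√(bt * nm h) : ℝ) : ℂ) ^ (-(s - 1)) • ww s h v := by
    rw [ww, ← h1, KB]
    congr 1
    funext T
    congr 3
    rw [← div_div, Real.div_sqrt]
    ring
  rw [h2, h3, smul_eq_mul, ← mul_assoc, ← cpow_add _ _ (ofReal_ne_zero.2 hr.ne'), add_neg_cancel,
    cpow_zero, one_mul]

theorem ww_zero {s : ℂ} (hs : 1 < s.re) {v : ℝ} (hv : 0 < v) :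
    ww s 0 v = Gamma (s - 1) * (v : ℂ) ^ (1 - s) := by
  have h1 := mellin_comp_mul_left (fun T : ℝ => (Real.exp (-T) : ℂ)) (s - 1) hv
  rw [Gamma_eq_integral (by rw [sub_re, one_re]; linarith), GammaIntegral_eq_mellin, mul_comm,
    ← smul_eq_mul, ← neg_sub, ← h1, ww]
  simp only [nm_zero, mul_zero, zero_div, add_zero]

theorem besc_aux (h : O) {v : ℝ} (hv : 0 < v) :
    LocallyIntegrableOn (fun T : ℝ => (Real.exp (-(v * (T + bt * nm h / T))) : ℂ)) (Ioi 0) ∧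
    ((fun T : ℝ => (Real.exp (-(v * (T + bt * nm h / T))) : ℂ)) =O[atTop]
      fun t => Real.exp (-v * t)) ∧
    (fun T : ℝ => (Real.exp (-(v * (T + bt * nm h / T))) : ℂ)) =O[𝓝[>] 0] (· ^ (-(0 : ℝ))) := by
  have hB : 0 ≤ bt * nm h := mul_nonneg bt_pos.le (nm_nonneg h)
  refine ⟨ContinuousOn.locallyIntegrableOn ?_ measurableSet_Ioi, ?_, ?_⟩
  · refine continuous_ofReal.comp_continuousOn (ContinuousOn.rexp (ContinuousOn.neg ?_))
    exact continuousOn_const.mul (continuousOn_id.add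
      (continuousOn_const.div continuousOn_id fun x hx => ne_of_gt hx))
  · refine Asymptotics.IsBigO.of_bound' ?_
    filter_upwards [eventually_gt_atTop 0] with t ht
    rw [norm_real, Real.norm_of_nonneg (Real.exp_pos _).le, Real.norm_of_nonneg (Real.exp_pos _).le,
      Real.exp_le_exp]
    have : 0 ≤ v * (bt * nm h / t) := by positivity
    linarith
  · refine Asymptotics.IsBigO.of_bound' ?_
    filter_upwards [self_mem_nhdsWithin] with t (ht : 0 < t)
    rw [norm_real, Real.norm_of_nonneg (Real.exp_pos _).le, neg_zero, Real.rpow_zero, norm_one,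
      Real.exp_le_one_iff, neg_nonpos]
    positivity

theorem ww_conv {s : ℂ} (hs : 1 < s.re) (h : O) {v : ℝ} (hv : 0 < v) :
    MellinConvergent (fun T : ℝ => (Real.exp (-(v * (T + bt * nm h / T))) : ℂ)) (s - 1) := by
  obtain ⟨h1, h2, h3⟩ := besc_aux h hv
  exact mellinConvergent_of_isBigO_rpow_exp hv h1 h2 h3 (by rw [sub_re, one_re]; linarith)

theorem norm_ww_le (s : ℂ) (h : O) (v : ℝ) : ‖ww s h v‖ ≤ ‖ww s.re h v‖ := by
  have e : ww s.re h v = ((∫ t in Ioi (0 : ℝ),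
      t ^ (s.re - 1 - 1) * Real.exp (-(v * (t + bt * nm h / t))) : ℝ) : ℂ) := by
    rw [ww, mellin, ← integral_complex_ofReal]
    refine setIntegral_congr_fun measurableSet_Ioi fun t ht => ?_
    simp only [smul_eq_mul, ofReal_mul, ofReal_cpow (le_of_lt ht), ofReal_sub,
      ofReal_one]
  rw [e, norm_real, ww, mellin]
  refine (norm_integral_le_integral_norm _).trans (le_trans (le_of_eq ?_) (le_abs_self _))
  refine setIntegral_congr_fun measurableSet_Ioi fun t ht => ?_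
  simp only [norm_smul, norm_cpow_eq_rpow_re_of_pos ht, norm_real,
    Real.norm_of_nonneg (Real.exp_pos _).le, sub_re, one_re]

theorem continuous_ww {σ : ℝ} (hσ : 1 < σ) (h : O) {v : ℝ} (hv : 0 < v) :
    Continuous fun y : ℝ => ww (σ + y * I) h v := by
  obtain ⟨h1, h2, h3⟩ := besc_aux h hv
  refine continuous_iff_continuousAt.2 fun y => ?_
  exact ContinuousAt.comp (f := fun y : ℝ => (σ + y * I - 1 : ℂ))
    (mellin_differentiableAt_of_isBigO_rpow_exp hv h1 h2 h3 (by simpa using hσ)).continuousAt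
    (by fun_prop)

/-- `ww_eq`, `KB_decay`, `summable_nm_rpow` -/
theorem ww_summable (b : Bool) (l : ℕ) (σ : ℝ) {v : ℝ} (hv : 0 < v) :
    Summable fun h : O => ‖qw b h‖ ^ l * ‖ww σ h v‖ := by
  obtain ⟨C, hC⟩ := KB_decay (σ := σ - 1) (A := |σ - 1| + l + 4) (by
    have : (0 : ℝ) ≤ l := Nat.cast_nonneg l
    linarith)
  have a0 := le_abs_self (σ - 1)
  generalize hA : |σ - 1| + l + 4 = A at hC
  have hb := bt_pos
  have hk := k0_pos
  refine Summable.of_norm_bounded_eventually ((summable_nm_rpow one_lt_two).mul_left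
    ((3 * k0) ^ l * bt ^ ((σ - 1) / 2) * |C| * v ^ (-A) * bt ^ (-A / 2))) ?_
  filter_upwards [eventually_cofinite_ne 0] with h hh
  have hN := one_le_nm hh
  have hN0 := nm_pos hh
  have e1 : ‖qw b h‖ = 3 * k0 * nm h ^ (1 / 2 : ℝ) := by
    cases b <;> simp [qw, norm_sg, abs_of_pos hk, Real.sqrt_eq_rpow]
  have e2 : ‖((bt * nm h : ℝ) : ℂ) ^ (((σ : ℂ) - 1) / 2)‖ =
      bt ^ ((σ - 1) / 2) * nm h ^ ((σ - 1) / 2) := by
    rw [norm_cpow_eq_rpow_re_of_pos (by positivity), Real.mul_rpow hb.le hN0.le]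
    simp
  have e3 : (v * √(bt * nm h)) ^ (-A) = v ^ (-A) * (bt ^ (-A / 2) * nm h ^ (-A / 2)) := by
    rw [Real.mul_rpow hv.le (Real.sqrt_nonneg _), Real.sqrt_eq_rpow,
      ← Real.rpow_mul (by positivity), Real.mul_rpow hb.le hN0.le,
      show 1 / 2 * -A = -A / 2 by ring]
  have h1 := (hC (v * √(bt * nm h)) (by positivity)).trans
    (mul_le_mul_of_nonneg_right (le_abs_self C) (by positivity))
  rw [ofReal_sub, ofReal_one, e3] at h1
  have h2 : (nm h ^ (1 / 2 : ℝ)) ^ l * nm h ^ ((σ - 1) / 2) * nm h ^ (-A / 2) ≤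
      nm h ^ (-2 : ℝ) := by
    rw [← Real.rpow_natCast, ← Real.rpow_mul hN0.le, ← Real.rpow_add hN0, ← Real.rpow_add hN0]
    exact Real.rpow_le_rpow_of_exponent_le hN (by linarith)
  rw [Real.norm_of_nonneg (by positivity), ww_eq hh σ hv, norm_mul, e1, e2]
  calc _ ≤ (3 * k0 * nm h ^ (1 / 2 : ℝ)) ^ l * (bt ^ ((σ - 1) / 2) * nm h ^ ((σ - 1) / 2) *
        (|C| * (v ^ (-A) * (bt ^ (-A / 2) * nm h ^ (-A / 2))))) := by gcongr
    _ = (3 * k0) ^ l * bt ^ ((σ - 1) / 2) * |C| * v ^ (-A) * bt ^ (-A / 2) *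
        ((nm h ^ (1 / 2 : ℝ)) ^ l * nm h ^ ((σ - 1) / 2) * nm h ^ (-A / 2)) := by ring
    _ ≤ _ := mul_le_mul_of_nonneg_left h2 (by positivity)

/-- `mellin_KB` with `ν = s - 1`, `a = 7`, Fubini (`measurable_KB`, `norm_KB_le`) -/
theorem kill {D : ℂ → ℂ} (hD : VInt 6 D) {B : ℝ} (hB : 0 < B)
    (h : ∀ᵐ v ∂(volume.restrict (Ioi (0 : ℝ))), VI 6 (fun s => D s * KB (s - 1) (v * B)) = 0) :
    VI 6 (fun s => D s * (Gamma ((6 + s) / 2) * Gamma ((8 - s) / 2))) = 0 := by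
  have e : ∀ y : ℝ, ((6 : ℝ) : ℂ) + y * I - 1 = ((5 : ℝ) : ℂ) + y * I := fun y => by
    push_cast; ring
  have hm : ∀ y : ℝ, |(((5 : ℝ) : ℂ) + y * I).re| < (7 : ℂ).re := fun y => by simp; norm_num
  have h5 : MellinConvergent (fun v : ℝ => KB ((5 : ℝ) : ℂ) (B * v)) 7 :=
    (MellinConvergent.comp_mul_left hB).2 (mellin_KB (by simp; norm_num)).1
  have hF : Integrable (Function.uncurry fun y v : ℝ => D (((6 : ℝ) : ℂ) + y * I) *
      ((v : ℂ) ^ ((7 : ℂ) - 1) • KB (((5 : ℝ) : ℂ) + y * I) (B * v)))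
      (volume.prod (volume.restrict (Ioi 0))) := by
    refine (Integrable.mul_prod hD h5).mono ?_ (Eventually.of_forall fun p => ?_)
    · refine AEStronglyMeasurable.mul hD.aestronglyMeasurable.comp_fst
        (Measurable.aestronglyMeasurable ?_)
      have h1 : Measurable fun p : ℝ × ℝ => KB (((5 : ℝ) : ℂ) + p.1 * I) (B * p.2) :=
        (measurable_KB 5).comp (f := fun p : ℝ × ℝ => (p.1, B * p.2)) (by fun_prop)
      simp only [smul_eq_mul]
      exact Measurable.mul (by fun_prop) h1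
    · have h1 := norm_KB_le (((5 : ℝ) : ℂ) + p.1 * I) (B * p.2)
      rw [show (((5 : ℝ) : ℂ) + p.1 * I).re = 5 by simp] at h1
      simp only [Function.uncurry, norm_mul, norm_smul]
      gcongr
  have h1 := integral_integral_swap hF
  have h2 : ∫ v in Ioi (0 : ℝ), ∫ y : ℝ, D (((6 : ℝ) : ℂ) + y * I) *
      ((v : ℂ) ^ ((7 : ℂ) - 1) • KB (((5 : ℝ) : ℂ) + y * I) (B * v)) = 0 := by
    refine integral_eq_zero_of_ae ?_
    filter_upwards [h] with v hv
    rw [VI, mul_eq_zero] at hv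
    have h3 := hv.resolve_left (ofReal_ne_zero.2 (by positivity))
    simp only [e, mul_comm v] at h3
    simp only [smul_eq_mul, mul_left_comm (D _) ((v : ℂ) ^ ((7 : ℂ) - 1))]
    rw [integral_const_mul, h3, mul_zero]
    rfl
  have h3 : ∀ y : ℝ, ∫ v in Ioi (0 : ℝ), D (((6 : ℝ) : ℂ) + y * I) *
      ((v : ℂ) ^ ((7 : ℂ) - 1) • KB (((5 : ℝ) : ℂ) + y * I) (B * v)) =
      (B : ℂ) ^ (-(7 : ℂ)) / 2 * (D (((6 : ℝ) : ℂ) + y * I) *
        (Gamma ((6 + (((6 : ℝ) : ℂ) + y * I)) / 2) * Gamma ((8 - (((6 : ℝ) : ℂ) + y * I)) / 2))) := by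
    intro y
    rw [integral_const_mul, ← mellin, mellin_comp_mul_left _ _ hB, (mellin_KB (hm y)).2,
      show (7 : ℂ) + (((5 : ℝ) : ℂ) + y * I) = 6 + (((6 : ℝ) : ℂ) + y * I) by push_cast; ring,
      show (7 : ℂ) - (((5 : ℝ) : ℂ) + y * I) = 8 - (((6 : ℝ) : ℂ) + y * I) by push_cast; ring,
      smul_eq_mul]
    ring
  simp only [h3] at h1
  rw [h2, integral_const_mul, mul_eq_zero] at h1
  rw [VI, h1.resolve_left (div_ne_zero (cpow_ne_zero_iff.2 (Or.inl (ofReal_ne_zero.2 hB.ne')))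
    two_ne_zero), mul_zero]

end Crest.Agent.R17.D
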