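import Crest.Agent.R17.D.Rho

/-! Row 17, block D (owner helper53): Kubota's cocycle relation. -/

set_option autoImplicit false

namespace Crest.Agent.R17.D

open Complex MeasureTheory Filter Set
open scoped Real Topology ComplexConjugate

/-- Core case `γ ≡ 1 mod 3`, `y ≡ 1 mod 3`, `gcd(d, x) = 1`.  With `C = x a + y c`, `D = x b + y d`
(primary): `C d ≡ x mod D`, so `(C/D) (d/D) = (x/D)`; `(d/D) = (D/d) = (x b/d)`; `b c ≡ -1 mod d`;
`rho x D = rho x (y d)` by `rho_add` (`3 ∣ b`). -/
theorem coc_core {a b c d x y : O} (hb : (3 : O) ∣ b) (hc : (3 : O) ∣ c) (hd : Prim d)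
    (h : a * d - b * c = 1) (hx : Rt x) (hy : Prim y) (hxd : IsCoprime x d) :
    rho (x * a + y * c) (x * b + y * d) = rho x y * rho c d := by
  have ha : Prim a := hd.of_mul (by
    show (3 : O) ∣ d * a - 1
    rw [show d * a - 1 = b * c by linear_combination h]
    exact hb.mul_right c)
  have hD : Prim (x * b + y * d) := (hy.mul hd).congr (by
    rw [show y * d - (x * b + y * d) = b * (-x) by ring]
    exact hb.mul_right _)
  have hC : Rt (x * a + y * c) := (hx.mul (rt_of_prim ha)).add (rt_of_dvd (hc.mul_left y))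
  have e1 : cb (x * a + y * c) (x * b + y * d) * cb d (x * b + y * d) = cb x (x * b + y * d) := by
    rw [← cb_mul_left]
    exact cb_congr ⟨c, by linear_combination x * h⟩
  have e2 : cb d (x * b + y * d) = cb x d * cb b d := by
    rw [cb_recip hd hD, ← cb_mul_left]
    exact cb_congr ⟨y, by ring⟩
  have e3 : cb x (x * b + y * d) = cb x y * cb x d := by
    rw [← rho_eq_cb hx hD, show x * b + y * d = y * d + b * x by ring, rho_add (rt_of_dvd hb),
      rho_eq_cb hx (hy.mul hd), cb_mul_right]
  have e4 : cb b d * cb c d = 1 := by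
    rw [← cb_mul_left, cb_congr (v := -1) ⟨a, by linear_combination -h⟩, cb_neg_left, cub_one hd]
  have e5 : cb x d ≠ 0 := cb_ne_zero.2 ⟨hd.coprime_three, hxd⟩
  rw [rho_eq_cb hC hD, rho_eq_cb hx hy, rho_eq_cb (rt_of_dvd hc) hd]
  rw [e2, e3] at e1
  refine mul_right_cancel₀ e5 ?_
  linear_combination cb c d * e1 - cb (x * a + y * c) (x * b + y * d) * cb x d * e4

theorem coca_stable {d e x : O} (h : IsCoprime d e) (hx : x ≠ 0) :
    ∃ t, IsCoprime x (d + t * e) := by
  induction x using UniqueFactorizationMonoid.induction_on_prime with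
  | h₁ => exact absurd rfl hx
  | h₂ x hu => exact ⟨0, (isUnit_iff_exists_inv'.1 hu).elim fun u hu' => ⟨u, 0, by simpa using hu'⟩⟩
  | h₃ x p hx0 hp ih =>
    obtain ⟨t, ht⟩ := ih hx0
    by_cases h1 : p ∣ d + t * e
    · refine ⟨t + x, IsCoprime.mul_left (hp.irreducible.coprime_iff_not_dvd.2 fun h2 => ?_) ?_⟩
      · have h3 : p ∣ x * e := by
          have := dvd_sub h2 h1
          rwa [show d + (t + x) * e - (d + t * e) = x * e by ring] at this
        rcases hp.dvd_or_dvd h3 with h4 | h4
        · exact hp.not_isUnit (ht.isUnit_of_dvd' h4 h1)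
        · exact hp.not_isUnit ((h.add_mul_right_left t).isUnit_of_dvd' h1 h4)
      · rw [show d + (t + x) * e = d + t * e + x * e by ring]
        exact ht.add_mul_left_right e
    · exact ⟨t, IsCoprime.mul_left (hp.irreducible.coprime_iff_not_dvd.2 h1) ht⟩

/-- Remove the coprimality: if `x ≠ 0` replace `γ` by `γ T_{3 t}` with `d + 3 t c` coprime to `x`
(`t` = product of the primes of `x` not dividing `d`; or Chinese remainders), use `rho_add`;
`x = 0` is direct. -/
theorem coc_three {a b c d x y : O} (hb : (3 : O) ∣ b) (hc : (3 : O) ∣ c) (hd : Prim d)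
    (h : a * d - b * c = 1) (hx : Rt x) (hy : Prim y) :
    rho (x * a + y * c) (x * b + y * d) = rho x y * rho c d := by
  rcases eq_or_ne x 0 with rfl | hx0
  · rw [zero_mul, zero_mul, zero_add, zero_add, rho_mul_left hy, rho_mul_right hy, ← mul_assoc,
      ← cb_mul_left, rho_eq_cb hx hy, cb_congr (v := 0) ⟨d * c, by ring⟩]
  have hdc : IsCoprime d (3 * c) :=
    hd.coprime_three.mul_right ⟨a, -b, by linear_combination h⟩
  obtain ⟨t, ht⟩ := coca_stable hdc hx0
  have h3 : (3 : O) ∣ 3 * t := dvd_mul_right 3 t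
  have := coc_core (a := a) (b := b + 3 * t * a) (c := c) (d := d + 3 * t * c) (x := x) (y := y)
    (dvd_add hb (h3.mul_right a)) hc (hd.congr ⟨-(t * c), by ring⟩) (by linear_combination h) hx hy
    (by rwa [show d + 3 * t * c = d + t * (3 * c) by ring])
  rwa [show x * (b + 3 * t * a) + y * (d + 3 * t * c) =
    x * b + y * d + 3 * t * (x * a + y * c) by ring, rho_add (rt_of_dvd h3),
    rho_add (rt_of_dvd h3)] at this

theorem coca_not_three : ¬ (3 : O) ∣ 1 := fun h =>
  Prim.ne_zero (a := 0) (by simpa [Prim] using h) rfl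

theorem coca_pm {a b c d x y : O} (hb : (3 : O) ∣ b) (hc : (3 : O) ∣ c) (hd : Prim d)
    (h : a * d - b * c = 1) (hx : Rt x) (hy : Prim y ∨ Prim (-y)) :
    rho (x * a + y * c) (x * b + y * d) = rho x y * rho c d := by
  rcases hy with hy | hy
  · exact coc_three hb hc hd h hx hy
  · have := coc_three hb hc hd h hx.neg hy
    rwa [show -x * a + -y * c = -(x * a + y * c) by ring,
      show -x * b + -y * d = -(x * b + y * d) by ring, rho_neg_left, rho_neg_right, rho_neg_left,
      rho_neg_right] at this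

theorem coca_row {a b c d x y : O} (hb : (3 : O) ∣ b) (hc : (3 : O) ∣ c) (hd : Prim d)
    (h : a * d - b * c = 1) (hx : Rt x) (hy : Rt y) (hxy : IsCoprime x y) :
    rho (x * a + y * c) (x * b + y * d) = rho x y * rho c d := by
  rcases hy.cases with h3 | h3
  swap
  · exact coca_pm hb hc hd h hx h3
  have ha : Prim a := hd.of_mul (by
    show (3 : O) ∣ d * a - 1
    rw [show d * a - 1 = b * c by linear_combination h]
    exact hb.mul_right c)
  have hy' : Prim (y + 1 * x) ∨ Prim (-(y + 1 * x)) := by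
    rcases hx.cases with h1 | h1 | h1
    · exact absurd (isUnit_iff_dvd_one.1 (hxy.isUnit_of_dvd' h1 h3)) coca_not_three
    · exact .inl (h1.congr (by simpa using h3))
    · exact .inr (h1.congr (by simpa using h3))
  have := coca_pm (a := a - c) (b := a - c + b - d) (c := c) (d := d + 1 * c) (x := x)
    (y := y + 1 * x) (by
      rw [show a - c + b - d = (a - 1) - c + b - (d - 1) by ring]
      exact dvd_sub (dvd_add (dvd_sub ha hc) hb) hd) hc (hd.congr (by simpa using hc))
    (by linear_combination h) hx hy'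
  rwa [show x * (a - c) + (y + 1 * x) * c = x * a + y * c by ring,
    show x * (a - c + b - d) + (y + 1 * x) * (d + 1 * c) =
      x * b + y * d + 1 * (x * a + y * c) by ring, rho_add rt_one, rho_add rt_one,
    rho_add rt_one] at this

theorem coca_b {a b c d x y : O} (hb : Rt b) (hc : (3 : O) ∣ c) (hd : Prim d)
    (h : a * d - b * c = 1) (hx : Rt x) (hy : Rt y) (hxy : IsCoprime x y) :
    rho (x * a + y * c) (x * b + y * d) = rho x y * rho c d := by
  have := coca_row (a := a - b * c) (b := b - b * d) (c := c) (d := d) (x := x) (y := y + b * x)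
    (by
      rw [show b - b * d = (d - 1) * -b by ring]
      exact Dvd.dvd.mul_right hd _) hc hd (by linear_combination h) hx (hy.add (hb.mul hx))
    (hxy.add_mul_right_right b)
  rwa [show x * (a - b * c) + (y + b * x) * c = x * a + y * c by ring,
    show x * (b - b * d) + (y + b * x) * d = x * b + y * d by ring, rho_add hb] at this

theorem coca_c {a b c d x y : O} (hb : Rt b) (hc : (3 : O) ∣ c) (hd : Rt d)
    (h : a * d - b * c = 1) (hx : Rt x) (hy : Rt y) (hxy : IsCoprime x y) :
    rho (x * a + y * c) (x * b + y * d) = rho x y * rho c d := by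
  rcases hd.cases with h1 | h1 | h1
  · exact absurd (h ▸ dvd_sub (h1.mul_left a) (hc.mul_left b)) coca_not_three
  · exact coca_b hb hc h1 h hx hy hxy
  · have := coca_b (a := -a) (b := -b) (c := -c) hb.neg hc.neg_right h1 (by linear_combination h)
      hx hy hxy
    rwa [show x * -a + y * -c = -(x * a + y * c) by ring,
      show x * -b + y * -d = -(x * b + y * d) by ring, rho_neg_left, rho_neg_right, rho_neg_left,
      rho_neg_right] at this

/-- THE COCYCLE.  Non-rows go to non-rows (invert the matrix; `rho_ne_zero`).  For rows: `rho` is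
invariant under right multiplication by `S`, `T^k`, `-1` (`rho_symm`, `rho_neg_*`, `rho_add`), so
normalise `(c, d) ≡ (0, 1)`, then `b ≡ 0` by moving `T^k` into the row `(x, y)`, then `y ≡ ±1` by
conjugating with `T` (`(x, y) γ = ((x, y) T) (T⁻¹ γ T) T⁻¹`). -/
theorem rho_cocycle {a b c d : O} (ha : Rt a) (hb : Rt b) (hc : Rt c) (hd : Rt d)
    (h : a * d - b * c = 1) (x y : O) :
    rho (x * a + y * c) (x * b + y * d) = rho x y * rho c d := by
  by_cases h0 : rho x y = 0
  · rw [h0, zero_mul]
    by_contra h1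
    obtain ⟨h2, h3, u, v, h4⟩ := rho_ne_zero.1 h1
    refine rho_ne_zero.2 ⟨?_, ?_, u * a + v * b, u * c + v * d, by linear_combination h4⟩ h0
    · rw [show x = (x * a + y * c) * d - (x * b + y * d) * c by linear_combination -x * h]
      exact (h2.mul hd).sub (h3.mul hc)
    · rw [show y = (x * b + y * d) * a - (x * a + y * c) * b by linear_combination -y * h]
      exact (h3.mul ha).sub (h2.mul hb)
  obtain ⟨hx, hy, hxy⟩ := rho_ne_zero.1 h0
  by_cases h3 : (3 : O) ∣ c
  · exact coca_c hb h3 hd h hx hy hxy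
  have hcc : (3 : O) ∣ 1 - c * c := by
    rcases hc.cases with h1 | h1 | h1
    · exact absurd h1 h3
    · exact (dvd_sub_comm).1 (h1.mul h1)
    · have := (dvd_sub_comm).1 (h1.mul h1)
      rwa [neg_mul_neg] at this
  have hk : Rt (-(d * c)) := (hd.mul hc).neg
  have := coca_c (a := b + -(d * c) * a) (b := -a) (c := d + -(d * c) * c) (d := -c) ha.neg
    (by
      rw [show d + -(d * c) * c = d * (1 - c * c) by ring]
      exact hcc.mul_left d) hc.neg (by linear_combination h) hx hy hxy
  rwa [show x * -a + y * -c = -(x * a + y * c) by ring, rho_neg_right, rho_neg_right,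
    rho_symm _ c, rho_symm _ (x * a + y * c),
    show x * (b + -(d * c) * a) + y * (d + -(d * c) * c) =
      x * b + y * d + -(d * c) * (x * a + y * c) by ring, rho_add hk, rho_add hk] at this

/-- the right action of a unimodular matrix on pairs -/
noncomputable def rowEquiv (a b c d : O) (h : a * d - b * c = 1) : O × O ≃ O × O where
  toFun r := (r.1 * a + r.2 * c, r.1 * b + r.2 * d)
  invFun r := (r.1 * d - r.2 * c, -r.1 * b + r.2 * a)
  left_inv r := Prod.ext (by dsimp only; linear_combination r.1 * h)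
    (by dsimp only; linear_combination r.2 * h)
  right_inv r := Prod.ext (by dsimp only; linear_combination r.1 * h)
    (by dsimp only; linear_combination r.2 * h)

theorem cocb_sum {a b c d : O} (ha : Rt a) (hb : Rt b) (hc : Rt c) (hd : Rt d)
    (h : a * d - b * c = 1) (G : ℂ → ℂ → ℂ) :
    ∑' r : O × O, rho r.1 r.2 * G (sg r.1 * sg a + sg r.2 * sg c) (sg r.1 * sg b + sg r.2 * sg d) =
      conj (rho c d) * ∑' r : O × O, rho r.1 r.2 * G (sg r.1) (sg r.2) := by
  have hcd : IsCoprime c d := ⟨-b, a, by linear_combination h⟩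
  rw [← (rowEquiv a b c d h).tsum_eq fun r : O × O => rho r.1 r.2 * G (sg r.1) (sg r.2),
    ← tsum_mul_left]
  refine tsum_congr fun r => ?_
  change _ = conj (rho c d) * (rho (r.1 * a + r.2 * c) (r.1 * b + r.2 * d) *
    G (sg (r.1 * a + r.2 * c)) (sg (r.1 * b + r.2 * d)))
  rw [rho_cocycle ha hb hc hd h, map_add, map_add, map_mul, map_mul, map_mul, map_mul]
  linear_combination (-(rho r.1 r.2 * G (sg r.1 * sg a + sg r.2 * sg c)
    (sg r.1 * sg b + sg r.2 * sg d))) * rho_mul_conj hc hd hcd

/-- AUTOMORPHY (re-index by `rowEquiv`; no summability needed). -/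
theorem EE_aut {a b c d : O} (ha : Rt a) (hb : Rt b) (hc : Rt c) (hd : Rt d)
    (h : a * d - b * c = 1) (F : ℝ → ℂ) (Q : ℂ → ℂ → ℝ) :
    EE rho F (fun x y => Q (x * sg a + y * sg c) (x * sg b + y * sg d)) =
      conj (rho c d) * EE rho F Q :=
  cocb_sum ha hb hc hd h fun x y => F (Q x y)

theorem cocb_pt {a b c d : ℂ} (h : a * d - b * c = 1) (hc0 : c ≠ 0) {v : ℝ} (hv : 0 < v)
    (x y : ℂ) :
    Qf (a / c) (‖c‖ ^ 2 * v)⁻¹ x y = Qf (-(d / c)) v (x * a + y * c) (x * b + y * d) ∧
      pr false (a / c) (‖c‖ ^ 2 * v)⁻¹ x y =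
        -(c ^ 2 * v ^ 2) * pr true (-(d / c)) v (x * a + y * c) (x * b + y * d) := by
  have e1 : x * (a / c) + y = (x * a + y * c) / c := by field_simp
  have e2 : (x * a + y * c) * -(d / c) + (x * b + y * d) = -x / c := by
    field_simp
    linear_combination (-x) * h
  have hn : ‖c‖ ≠ 0 := norm_ne_zero_iff.2 hc0
  have hv' : (v : ℂ) ≠ 0 := ofReal_ne_zero.2 hv.ne'
  have hcc : conj c ≠ 0 := (map_ne_zero _).2 hc0
  constructor
  · rw [Qf, Qf, e1, e2, norm_div, norm_div, norm_neg]
    field_simp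
    ring
  · have e3 : (((‖c‖ ^ 2 * v)⁻¹ : ℝ) : ℂ) = (c * conj c * v)⁻¹ := by
      rw [mul_conj']
      push_cast
      rfl
    simp only [pr, pw, e1, e2, e3, Bool.not_false, Bool.not_true, if_true, Bool.false_eq_true,
      if_false, map_div₀]
    field_simp

/-- REFLECTION.  For `(x', y') = (x, y) γ`: `Qf (a/c) (1/(N c v)) x y = Qf (-d/c) v x' y'` and
`pr false (a/c) (1/(N c v)) x y = -c² v² · pr true (-d/c) v x' y'`
(`x a/c + y = x'/c`, `x' (-d/c) + y' = -x/c`). -/
theorem EG_reflect {a b c d : O} (ha : Rt a) (hb : Rt b) (hc : Rt c) (hd : Rt d)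
    (h : a * d - b * c = 1) (hc0 : c ≠ 0) (M : ℂ → ℂ) (l : ℕ) {v : ℝ} (hv : 0 < v) :
    EG rho M false l (sg a / sg c) (nm c * v)⁻¹ =
      conj (rho c d) * (-(sg c ^ 2 * v ^ 2)) ^ l * EG rho M true l (-(sg d / sg c)) v := by
  have h' : sg a * sg d - sg b * sg c = 1 := by
    rw [← map_mul, ← map_mul, ← map_sub, h, map_one]
  have hc' : sg c ≠ 0 := fun h0 => hc0 (sg_eq_zero.1 h0)
  rw [mul_right_comm, EG, EG, ← cocb_sum ha hb hc hd h fun x y =>
    pr true (-(sg d / sg c)) v x y ^ l * FQ l M (Qf (-(sg d / sg c)) v x y), ← tsum_mul_right]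
  refine tsum_congr fun r => ?_
  obtain ⟨e1, e2⟩ := cocb_pt h' hc' hv (sg r.1) (sg r.2)
  rw [nm_eq, e1, e2, mul_pow]
  ring

end Crest.Agent.R17.D
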