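import Crest.Agent.R17.D.Rho

/-! Row 17, block D (owner helper53): the sums `SG` and the series `psi`. -/

set_option autoImplicit false

namespace Crest.Agent.R17.D

open Complex MeasureTheory Filter Set
open scoped Real Topology ComplexConjugate

variable {χ : O → O → ℂ} {m : ℂ}

theorem norm_SG_le {M : ℝ} (h : ∀ c d, ‖χ c d‖ ≤ M) (c k : O) : ‖SG χ c k‖ ≤ 9 * M * nm c := by
  unfold SG
  split_ifs with hc
  · subst hc
    simp [nm_eq_zero.2 rfl]
  · have h3 : (3 : O) * c ≠ 0 := mul_ne_zero (by norm_num) hc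
    have h9 : nm (3 : O) = 9 := by
      have := nm_natCast 3
      norm_num at this ⊢
      exact this
    calc ‖FT (3 * c) (χ c) k‖ ≤ nm (3 * c) * M := norm_FT_le h3 (h c) k
      _ = 9 * M * nm c := by rw [nm_mul, h9]; ring

theorem Wt.adm (h : Wt χ m) (k : O) {σ : ℝ} (hσ : 2 < σ) : Adm (fun c => SG χ c k) nm σ := by
  obtain ⟨M, hM⟩ := h.bdd
  have hM0 : 0 ≤ M := (norm_nonneg _).trans (hM 0 0)
  obtain ⟨C, -, hC⟩ := adm_O (θ := 1) (σ := σ) (by linarith)
  refine (hC (fun c : O => c) (fun c => SG χ c k) (9 * M) Function.injective_id ?_ ?_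
    (by positivity)).1
  · intro c hc
    simp only [SG, if_pos hc]
  · intro c _
    rw [Real.rpow_one]
    exact norm_SG_le hM c k

theorem Wt.summable (h : Wt χ m) (k : O) {s : ℂ} (hs : 2 < s.re) :
    Summable fun c => SG χ c k * (nm c : ℂ) ^ (-s) := by
  exact ((h.adm k hs).summable_DD rfl).of_norm

theorem Wt.norm_psi_le (h : Wt χ m) {σ : ℝ} (hσ : 2 < σ) :
    ∃ C : ℝ, ∀ (k : O) (s : ℂ), s.re = σ → ‖psi χ k s‖ ≤ C := by
  obtain ⟨M, hM⟩ := h.bdd
  have hM0 : 0 ≤ M := (norm_nonneg _).trans (hM 0 0)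
  obtain ⟨C, -, hC⟩ := adm_O (θ := 1) (σ := σ) (by linarith)
  refine ⟨C * (9 * M), fun k s hs => ?_⟩
  have H := hC (fun c : O => c) (fun c => SG χ c k) (9 * M) Function.injective_id
    (fun c hc => by simp only [SG, if_pos hc])
    (fun c _ => by rw [Real.rpow_one]; exact norm_SG_le hM c k) (by positivity)
  exact (H.1.norm_DD_le hs).trans H.2

theorem Wt.continuous_psi (h : Wt χ m) (k : O) {σ : ℝ} (hσ : 2 < σ) :
    Continuous fun y : ℝ => psi χ k (σ + y * I) := by
  exact (h.adm k hσ).continuous_DD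

/-- `d ↦ d + c` multiplies the sum by `e(k / 3)` -/
theorem Wt.SG_eq_zero (h : Wt χ m) (c : O) {k : O} (hk : ¬ Rt k) : SG χ c k = 0 := by
  unfold SG
  split_ifs with hc
  · rfl
  · have h3 : (3 : O) * c ≠ 0 := mul_ne_zero (by norm_num) hc
    have he : eQ k 3 ≠ 1 := fun he => hk (eQ_three_eq_one.1 he)
    have hs := rsum_shift h3 ((h.per c).mul (per_eQ k (3 * c))) c
    have hfun : (fun y => χ c (y + c) * eQ (k * (y + c)) (3 * c)) =
        fun y => χ c y * eQ (k * y) (3 * c) * eQ k 3 := by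
      funext y
      have h1 : χ c (y + c) = χ c y := by simpa using h.inv 1 c y rt_one
      have h2 : eQ (k * c) (3 * c) = eQ k 3 := by
        rw [mul_comm k c, mul_comm 3 c, eQ_mul_cancel hc]
      rw [h1, mul_add, eQ_add, h2, mul_assoc]
    rw [hfun, rsum_mul_right] at hs
    have hz : FT (3 * c) (χ c) k * (eQ k 3 - 1) = 0 := by
      unfold FT
      rw [mul_sub, hs, mul_one, sub_self]
    exact (mul_eq_zero.1 hz).resolve_right (sub_ne_zero.2 he)

theorem Wt.psi_eq_zero (h : Wt χ m) {k : O} (hk : ¬ Rt k) (s : ℂ) : psi χ k s = 0 := by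
  simp only [psi, DD, h.SG_eq_zero _ hk, zero_mul, tsum_zero]

theorem SG_rho_neg (c k : O) : SG rho c (-k) = SG rho c k := by
  unfold SG
  split_ifs with hc
  · rfl
  · have h3 : (3 : O) * c ≠ 0 := mul_ne_zero (by norm_num) hc
    unfold FT
    rw [← rsum_neg_arg h3 ((wt_rho.per c).mul (per_eQ k (3 * c)))]
    congr 1
    funext y
    rw [rho_neg_right, neg_mul, mul_neg]

theorem psi_rho_neg (k : O) (s : ℂ) : psi rho (-k) s = psi rho k s := by
  simp only [psi, SG_rho_neg]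

open Classical in
theorem SG_rnd (p c k : O) : SG (rnd p) c k = if p ∣ c then 0 else SG rho c k := by
  by_cases hp : p ∣ c
  · have : rnd p c = fun _ => 0 := by
      funext d
      simp only [rnd, if_pos hp]
    simp [SG, hp, this, FT]
  · have : rnd p c = rho c := by
      funext d
      simp only [rnd, if_neg hp]
    simp only [SG, if_neg hp, this]

theorem psi_rhp (p k : O) {s : ℂ} (hs : 2 < s.re) :
    psi (rhp p) k s = nm p * psi rho k s - (nm p + 1) * psi (rnd p) k s := by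
  have hS : ∀ c, SG (rhp p) c k = nm p * SG rho c k - (nm p + 1) * SG (rnd p) c k := by
    intro c
    unfold SG
    split_ifs with hc
    · simp
    · have h3 : (3 : O) * c ≠ 0 := mul_ne_zero (by norm_num) hc
      unfold FT
      rw [← rsum_mul_left, ← rsum_mul_left, ← rsum_sub h3]
      congr 1
      funext y
      unfold rhp
      ring
  unfold psi DD
  rw [← tsum_mul_left, ← tsum_mul_left,
    ← ((wt_rho.summable k hs).mul_left _).tsum_sub (((wt_rnd (p := p)).summable k hs).mul_left _)]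
  refine tsum_congr fun c => ?_
  simp only [hS]
  ring

theorem SG_congr {c k k' : O} (h : 3 * c ∣ k - k') : SG χ c k = SG χ c k' := by
  unfold SG
  rw [per_FT (3 * c) (χ c) k k' h]

/-- `FT_mul_arg`, `rho_mul_right` -/
theorem SG_mul_arg {a c : O} (ha : Prim a) (h : IsCoprime a c) (k : O) :
    SG rho c (a * k) = conj (cb c a) * SG rho c k := by
  unfold SG
  split_ifs with hc
  · simp
  · have h3 : (3 : O) * c ≠ 0 := mul_ne_zero (by norm_num) hc
    have hco : IsCoprime a (3 * c) := ha.coprime_three.mul_right h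
    have h1 := FT_mul_arg h3 hco (wt_rho.per c) k
    have h2 : FT (3 * c) (fun y => rho c (a * y)) (a * k) =
        cb c a * FT (3 * c) (rho c) (a * k) := by
      unfold FT
      rw [← rsum_mul_left]
      congr 1
      funext y
      simp only [rho_mul_right ha, mul_assoc]
    have h4 : cb c a * conj (cb c a) = 1 := by
      rw [cb_mul_conj, if_pos ⟨ha.coprime_three, h.symm⟩]
    rw [← h1, h2, ← mul_assoc, mul_comm (conj (cb c a)), h4, one_mul]

theorem SG_mul_cube {a c : O} (ha : Prim a) (h : IsCoprime a c) (k : O) :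
    SG rho c (k * a ^ 3) = SG rho c k := by
  rw [mul_comm k, SG_mul_arg (ha.pow 3) h.pow_left k, cb_pow_right, cb_pow_three,
    if_pos ⟨ha.coprime_three, h.symm⟩, map_one, one_mul]

theorem sumsb_ne {c : O} (hc : c ≠ 0) : 3 * c ≠ 0 := mul_ne_zero (by norm_num) hc

theorem sumsb_SG {c : O} (hc : c ≠ 0) (k : O) : FT (3 * c) (rho c) k = SG rho c k := by
  rw [SG, if_neg hc]

/-- twisted multiplicativity: `rho_mul_left`, `FT_crt` for the moduli `a` and `3 c` -/
theorem SG_crt {a c : O} (ha : Prim a) (h : IsCoprime a c) (k : O) :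
    SG rho (a * c) k = cb 3 a * cb c a ^ 2 * gc 1 k a * SG rho c k := by
  by_cases hc : c = 0
  · simp [SG, hc]
  have ha0 := ha.ne_zero
  have e1 : rho (a * c) = fun y => cb y a * rho c y := funext fun y => rho_mul_left ha c y
  have h2 := FT_crt ha0 (sumsb_ne hc) (ha.coprime_three.mul_right h) (per_cb a) (wt_rho.per c) k
  rw [SG, SG, if_neg (mul_ne_zero ha0 hc), if_neg hc, mul_left_comm, e1, h2]
  simp only [cb_mul_left, rho_mul_right ha, gsb_FT_const, gc, pow_one]
  ring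

/-- `rho (p c) ·` is periodic modulo `3 c` when `p ∣ c` (`FT_lift_zero`) -/
theorem SG_eq_zero_of_dvd {p c k : O} (hp : Prim p) (hc : p ∣ c) (hk : ¬ p ∣ k) :
    SG rho (p * c) k = 0 := by
  by_cases hc0 : c = 0
  · simp [SG, hc0]
  have e1 : rho (p * c) = fun y => cb y p * rho c y := funext fun y => rho_mul_left hp c y
  have e2 : 3 * (p * c) = 3 * c * p := by ring
  rw [SG, if_neg (mul_ne_zero hp.ne_zero hc0), e1, e2]
  exact FT_lift_zero (sumsb_ne hc0) hp.ne_zero
    (((per_cb p).mono (hc.mul_left 3)).mul (wt_rho.per c)) hk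

theorem sumsb_split {p c : O} (hp : Prime p) (h : Prim p) (hc : c ≠ 0) (k : O) :
    SG rho (p ^ 3 * c) k =
      FT (3 * c * p ^ 3) (rho c) k - cb c p * FT (3 * c * p ^ 2) (rho c) k := by
  classical
  have hp0 := hp.ne_zero
  have h2 : 3 * c * p ^ 2 ≠ 0 := mul_ne_zero (sumsb_ne hc) (pow_ne_zero 2 hp0)
  have e1 : ∀ y, rho (p ^ 3 * c) y * eQ (k * y) (p * (3 * c * p ^ 2)) =
      rho c y * eQ (k * y) (p * (3 * c * p ^ 2)) -
        if p ∣ y then rho c y * eQ (k * y) (p * (3 * c * p ^ 2)) else 0 := by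
    intro y
    rw [rho_mul_left (h.pow 3), cb_pow_right, cb_pow_three]
    by_cases hy : p ∣ y
    · rw [if_pos hy, if_neg fun h' => (Prime.coprime_iff_not_dvd hp).1 h'.2.symm hy]
      ring
    · rw [if_neg hy, if_pos ⟨h.coprime_three, ((Prime.coprime_iff_not_dvd hp).2 hy).symm⟩]
      ring
  have e2 : 3 * (p ^ 3 * c) = p * (3 * c * p ^ 2) := by ring
  have e3 : 3 * c * p ^ 3 = p * (3 * c * p ^ 2) := by ring
  have hper : Per (p * (3 * c * p ^ 2)) fun y => rho c y * eQ (k * y) (p * (3 * c * p ^ 2)) :=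
    ((wt_rho.per c).mono ⟨p ^ 3, by ring⟩).mul (per_eQ k _)
  rw [SG, if_neg (mul_ne_zero (pow_ne_zero 3 hp0) hc), e2, e3, FT, FT, FT]
  simp only [e1]
  rw [rsum_sub (mul_ne_zero hp0 h2), rsum_dvd hp0 h2 hper, ← rsum_mul_left]
  congr 2
  funext z
  rw [rho_mul_right h, mul_left_comm k, eQ_mul_cancel hp0, mul_assoc]

open Classical in
/-- `rho (p³ c) d = 1[p ∤ d] rho c d`; `FT_lift`, `rsum_dvd`, `FT_mul_arg` -/
theorem SG_cube {p : O} (hp : Prime p) (h : Prim p) (c k : O) :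
    SG rho (p ^ 3 * c) (k * p ^ 3) =
      ((nm p : ℂ) ^ 3 - if p ∣ c then 0 else (nm p : ℂ) ^ 2) * SG rho c k := by
  by_cases hc : c = 0
  · simp [SG, hc]
  have hp0 := hp.ne_zero
  have e : k * p ^ 3 = p ^ 2 * (p * k) := by ring
  rw [sumsb_split hp h hc]
  conv_lhs => rw [mul_comm k, FT_lift (sumsb_ne hc) (pow_ne_zero 3 hp0) (wt_rho.per c), mul_comm _ k,
    e, FT_lift (sumsb_ne hc) (pow_ne_zero 2 hp0) (wt_rho.per c)]
  rw [sumsb_SG hc, sumsb_SG hc, nm_pow, nm_pow]
  push_cast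
  split_ifs with hd
  · rw [(cb_prime_eq_zero hp h.coprime_three).2 hd]
    ring
  · have hco := (Prime.coprime_iff_not_dvd hp).2 hd
    have h1 := cb_mul_conj c p
    rw [if_pos ⟨h.coprime_three, hco.symm⟩] at h1
    rw [SG_mul_arg h hco]
    linear_combination (-(nm p : ℂ) ^ 2 * SG rho c k) * h1

open Classical in
theorem SG_cube_sq {p k : O} (hp : Prime p) (h : Prim p) (hk : ¬ p ∣ k) (c : O) :
    SG rho (p ^ 3 * c) (k * p ^ 2) =
      if p ∣ c then 0 else -(nm p : ℂ) ^ 2 * SG rho c (k * p ^ 2) := by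
  by_cases hc : c = 0
  · simp [SG, hc]
  have hp0 := hp.ne_zero
  have hnd : ¬ p ^ 3 ∣ k * p ^ 2 := by
    intro hd
    rw [pow_succ', mul_dvd_mul_iff_right (pow_ne_zero 2 hp0)] at hd
    exact hk hd
  rw [sumsb_split hp h hc, FT_lift_zero (sumsb_ne hc) (pow_ne_zero 3 hp0) (wt_rho.per c) hnd,
    mul_comm k, FT_lift (sumsb_ne hc) (pow_ne_zero 2 hp0) (wt_rho.per c), sumsb_SG hc, nm_pow]
  push_cast
  split_ifs with hd
  · rw [(cb_prime_eq_zero hp h.coprime_three).2 hd]
    ring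
  · have hco := (Prime.coprime_iff_not_dvd hp).2 hd
    have h1 := cb_pow_add_three c p one_ne_zero
    rw [SG_mul_arg (h.pow 2) hco.pow_left, cb_pow_right, map_pow, conj_cb]
    linear_combination ((nm p : ℂ) ^ 2 * SG rho c k) * h1

/-- `rho (λ³ c) = rho c` for `3 ∣ c`, `c ≠ 0` -/
theorem SG_lam_cube {c : O} (hc : (3 : O) ∣ c) (k : O) :
    SG rho (lam ^ 3 * c) (k * lam ^ 3) = 27 * SG rho c k := by
  classical
  by_cases hc0 : c = 0
  · simp [SG, hc0]
  have hl : lam ^ 3 ≠ 0 := pow_ne_zero 3 lam_ne_zero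
  have e1 : rho (lam ^ 3 * c) = rho c := by
    funext d
    have h3 : (3 : O) ∣ lam ^ 3 * c := hc.mul_left _
    simp only [rho, rt_of_dvd h3, rt_of_dvd hc, if_pos h3, if_pos hc]
    congr 1
    by_cases hd : IsCoprime d 3
    · rw [cb_mul_left, cb_pow_left _ _ three_ne_zero, cb_pow_three,
        if_pos ⟨hd, (hd.of_isCoprime_of_dvd_right lam_dvd_three).symm⟩, one_mul]
    · rw [cb_eq_zero_of_not_three hd, cb_eq_zero_of_not_three hd]
  have e2 : 3 * (lam ^ 3 * c) = 3 * c * lam ^ 3 := by ring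
  rw [SG, if_neg (mul_ne_zero hl hc0), e1, e2, mul_comm k, FT_lift (sumsb_ne hc0) hl (wt_rho.per c),
    sumsb_SG hc0, nm_pow, nm_lam]
  norm_num

/-- choose a primary `a ≡ λ mod c`; then `k λ³ ≡ k a³ mod 3 λ^j c` -/
theorem SG_lam_inv {c k : O} {j : ℕ} (hc : ¬ lam ∣ c) (hk : lam ^ (j + 2) ∣ k) :
    SG rho (lam ^ j * c) (k * lam ^ 3) = SG rho (lam ^ j * c) k := by
  obtain ⟨u, v, huv⟩ := coprime_three_iff.2 hc
  have ha : Prim (u * c + lam * (v * 3)) := ⟨(lam - 1) * v, by linear_combination huv⟩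
  have hac : c ∣ lam - (u * c + lam * (v * 3)) := ⟨(lam - 1) * u, by linear_combination -lam * huv⟩
  set a := u * c + lam * (v * 3)
  have h1 : IsCoprime a c := by
    obtain ⟨t, ht⟩ := hac
    have : a = lam + c * (-t) := by linear_combination -ht
    rw [this]
    exact ((Prime.coprime_iff_not_dvd prime_lam).2 hc).add_mul_left_left _
  have h2 : IsCoprime a (lam ^ j) :=
    (ha.coprime_three.of_isCoprime_of_dvd_right lam_dvd_three).pow_right
  rw [← SG_mul_cube ha (h2.mul_right h1) k]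
  apply SG_congr
  obtain ⟨t, ht⟩ := hac.trans (sub_dvd_pow_sub_pow lam a 3)
  obtain ⟨s, rfl⟩ := hk
  exact ⟨-(s * t), by linear_combination (lam ^ (j + 2) * s) * ht + lam ^ j * c * s * t * lam_sq⟩

end Crest.Agent.R17.D
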