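import Crest.Agent.R17.D.Lip
import Crest.Agent.R17.D.Sums

/-! Row 17, block D (owner helper53): the Fourier expansion. -/

set_option autoImplicit false

namespace Crest.Agent.R17.D

open Complex MeasureTheory Filter Set
open scoped Real Topology ComplexConjugate

variable {χ : O → O → ℂ} {m : ℂ} {M : ℂ → ℂ}

theorem exa_norm (b : Bool) (l : ℕ) {v : ℝ} (hv : 0 < v) (s z : ℂ) {c : O} (hc : c ≠ 0) (d : O) :
    ‖pr b z v (sg c) (sg d) ^ l * (Qf z v (sg c) (sg d) : ℂ) ^ (-s - l)‖ =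
      ‖pr b z v (sg c) (sg d)‖ ^ l * Qf z v (sg c) (sg d) ^ (-s.re - l) := by
  have hQ : 0 < Qf z v (sg c) (sg d) := Qf_pos z hv (Or.inl fun h => hc (sg_eq_zero.1 h))
  have h2 : (-s - l).re = -s.re - l := by simp
  rw [norm_mul, norm_pow, norm_cpow_eq_rpow_re_of_pos hQ, h2]

open Classical in
theorem exa_summable (b : Bool) (l : ℕ) {v σ : ℝ} (hv : 0 < v) (hσ : 2 < σ) (z : ℂ) :
    Summable fun r : O × O => if r.1 = 0 then 0 else
      ‖pr b z v (sg r.1) (sg r.2)‖ ^ l * Qf z v (sg r.1) (sg r.2) ^ (-σ - l) := by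
  obtain ⟨C, hC⟩ := kk_row_bound b l hv (σ := σ) (by linarith)
  have key : ∀ c : O, c ≠ 0 → ∀ d : O,
      ‖pr b z v (sg c) (sg d)‖ ^ l * Qf z v (sg c) (sg d) ^ (-σ - l) =
        nm c ^ (-σ) * ‖kk b l v σ (z + sg d / sg c)‖ := by
    intro c hc d
    have h1 := exa_norm b l hv (σ : ℂ) z hc d
    rw [pr_mul_Qf b l z hv hc d, norm_mul, norm_cpow_eq_rpow_re_of_pos (nm_pos hc)] at h1
    simpa using h1.symm
  rw [summable_prod_of_nonneg]
  · refine ⟨fun c => ?_, ?_⟩
    · by_cases hc : c = 0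
      · simp only [hc, if_true]
        exact summable_zero
      · simp only [hc, if_false, key c hc]
        exact (hC z σ c (by simp) hc).1.mul_left _
    · refine Summable.of_nonneg_of_le (fun c => tsum_nonneg fun d => ?_) (fun c => ?_)
        ((summable_nm_rpow (σ := σ - 1) (by linarith)).mul_left |C|)
      · split_ifs
        · exact le_rfl
        · exact mul_nonneg (by positivity) (Real.rpow_nonneg (Qf_nonneg z hv _ _) _)
      · by_cases hc : c = 0
        · simp only [hc, if_true, tsum_zero]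
          exact mul_nonneg (abs_nonneg _) (Real.rpow_nonneg (nm_nonneg _) _)
        · simp only [hc, if_false, key c hc]
          rw [tsum_mul_left]
          have h1 := (hC z σ c (by simp) hc).2
          have h2 := nm_pos hc
          have h3 : nm c ^ (-(σ - 1)) = nm c ^ (-σ) * nm c := by
            rw [← Real.rpow_add_one h2.ne']
            congr 1
            ring
          rw [h3]
          calc _ ≤ nm c ^ (-σ) * (|C| * nm c) := by
                refine mul_le_mul_of_nonneg_left (h1.trans ?_) (Real.rpow_nonneg h2.le _)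
                exact mul_le_mul_of_nonneg_right (le_abs_self C) h2.le
            _ = _ := by ring
  · intro r
    dsimp only
    split_ifs
    · exact le_rfl
    · exact mul_nonneg (by positivity) (Real.rpow_nonneg (Qf_nonneg z hv _ _) _)

theorem exa_G (hχ : Wt χ m) (b : Bool) (l : ℕ) {v : ℝ} (hv : 0 < v) {s : ℂ} (hs : 2 < s.re)
    (z : ℂ) : Summable fun r : O × O => qw b r.2 ^ l * eC (sg r.2 * z / 3) *
      (SG χ r.1 r.2 * (nm r.1 : ℂ) ^ (-s) * (k0 * v) * ww s r.2 v) := by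
  obtain ⟨B, hB⟩ := hχ.bdd
  have hB0 : 0 ≤ B := (norm_nonneg _).trans (hB 0 0)
  have h4 := k0_pos
  have h1 := (summable_nm_rpow (σ := s.re - 1) (by linarith)).mul_left (9 * B * (k0 * v))
  have h2 := ww_summable b l s.re hv
  refine Summable.of_norm_bounded (h1.mul_of_nonneg h2 (fun c => ?_) fun h => by positivity)
    fun r => ?_
  · exact mul_nonneg (by positivity) (Real.rpow_nonneg (nm_nonneg _) _)
  · obtain ⟨c, h⟩ := r
    dsimp only
    by_cases hc : c = 0
    · have : SG χ c h = 0 := by simp [SG, hc]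
      rw [this]
      simp only [zero_mul, mul_zero, norm_zero]
      exact mul_nonneg (mul_nonneg (by positivity) (Real.rpow_nonneg (nm_nonneg _) _))
        (by positivity)
    · have h5 := nm_pos hc
      have h3 : nm c ^ (-(s.re - 1)) = nm c * nm c ^ (-s.re) := by
        rw [mul_comm, ← Real.rpow_add_one h5.ne']
        congr 1
        ring
      have h6 := norm_SG_le hB c h
      have h7 := norm_ww_le s h v
      have h8 : 0 ≤ nm c ^ (-s.re) := Real.rpow_nonneg h5.le _
      rw [norm_mul, norm_mul, norm_mul, norm_mul, norm_mul, norm_mul, norm_eC, norm_pow,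
        norm_cpow_eq_rpow_re_of_pos h5, neg_re, norm_real, norm_real, Real.norm_of_nonneg h4.le,
        Real.norm_of_nonneg hv.le, h3]
      calc _ ≤ ‖qw b h‖ ^ l * 1 * (9 * B * nm c * nm c ^ (-s.re) * (k0 * v) * ‖ww s.re h v‖) := by
            gcongr
        _ = _ := by ring

open Classical in
/-- the Eisenstein series on `Re s > 2`: sum `lip_row` over `c ≠ 0` and swap the sums over `c`, `h`
(`norm_SG_le`, `ww_summable`). -/
theorem eis (hχ : Wt χ m) (b : Bool) (l : ℕ) {v : ℝ} (hv : 0 < v) {s : ℂ} (hs : 2 < s.re) (z : ℂ) :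
    ∑' r : O × O, (if r.1 = 0 then 0 else χ r.1 r.2 * (pr b z v (sg r.1) (sg r.2) ^ l *
        (Gamma (s + l) * (Qf z v (sg r.1) (sg r.2) : ℂ) ^ (-s - l)))) =
      ∑' h : O, qw b h ^ l * eC (sg h * z / 3) * (psi χ h s * (k0 * v) * ww s h v) := by
  obtain ⟨B, hB⟩ := hχ.bdd
  have hB0 : 0 ≤ B := (norm_nonneg _).trans (hB 0 0)
  have hS : Summable fun r : O × O => (if r.1 = 0 then 0 else χ r.1 r.2 *
      (pr b z v (sg r.1) (sg r.2) ^ l *
        (Gamma (s + l) * (Qf z v (sg r.1) (sg r.2) : ℂ) ^ (-s - l)))) := by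
    refine Summable.of_norm_bounded ((exa_summable b l hv hs z).mul_left (B * ‖Gamma (s + l)‖))
      fun r => ?_
    by_cases hc : r.1 = 0
    · simp [hc]
    · simp only [hc, if_false]
      rw [← exa_norm b l hv s z hc, mul_left_comm (pr b z v _ _ ^ l), norm_mul, norm_mul,
        ← mul_assoc]
      gcongr
      exact hB _ _
  have hG := exa_G hχ b l hv hs z
  rw [hS.tsum_prod]
  have h1 : ∀ c : O, ∑' d : O, (if c = 0 then 0 else χ c d * (pr b z v (sg c) (sg d) ^ l *
        (Gamma (s + l) * (Qf z v (sg c) (sg d) : ℂ) ^ (-s - l)))) =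
      ∑' h : O, qw b h ^ l * eC (sg h * z / 3) *
        (SG χ c h * (nm c : ℂ) ^ (-s) * (k0 * v) * ww s h v) := by
    intro c
    by_cases hc : c = 0
    · have : ∀ h, SG χ c h = 0 := fun h => by simp [SG, hc]
      simp only [this, if_pos hc, zero_mul, mul_zero, tsum_zero]
    · simp only [hc, if_false]
      have h2 : ∀ d : O, χ c d * (pr b z v (sg c) (sg d) ^ l *
          (Gamma (s + l) * (Qf z v (sg c) (sg d) : ℂ) ^ (-s - l))) =
          (nm c : ℂ) ^ (-s) * Gamma (s + l) * (χ c d * kk b l v s (z + sg d / sg c)) := by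
        intro d
        rw [mul_left_comm (pr b z v _ _ ^ l), pr_mul_Qf b l z hv hc d]
        ring
      simp only [h2]
      rw [tsum_mul_left, mul_assoc, lip_row hχ b l hv (by linarith) z hc, ← tsum_mul_left,
        ← tsum_mul_left]
      exact tsum_congr fun h => by ring
  simp only [h1]
  rw [← Summable.tsum_comm (f := fun c h : O => qw b h ^ l * eC (sg h * z / 3) *
        (SG χ c h * (nm c : ℂ) ^ (-s) * (k0 * v) * ww s h v)) hG]
  refine tsum_congr fun h => ?_
  rw [tsum_mul_left, tsum_mul_right, tsum_mul_right]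
  rfl

open Classical in
/-- absolute convergence, uniform on the line (`pr_mul_Qf`, `kk_row_bound`) -/
theorem eis_summable (b : Bool) (l : ℕ) {v σ : ℝ} (hv : 0 < v) (hσ : 2 < σ) (z : ℂ) :
    Summable fun r : O × O => if r.1 = 0 then 0 else
      ‖pr b z v (sg r.1) (sg r.2)‖ ^ l * Qf z v (sg r.1) (sg r.2) ^ (-σ - l) := by
  exact exa_summable b l hv hσ z

theorem exb_re (y : ℝ) : (((6 : ℝ) : ℂ) + y * I).re = 6 := by simp

theorem exb_norm (M : ℂ → ℂ) (l : ℕ) {Q : ℝ} (hQ : 0 < Q) {s : ℂ} (hs : s.re = 6) :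
    ‖M s * Gamma (s + l) * (Q : ℂ) ^ (-s - l)‖ ≤
      ‖M s‖ * (Real.Gamma (6 + l) * Q ^ (-6 - l : ℝ)) := by
  have h1 : (s + l).re = 6 + l := by simp [hs]
  have h2 : (-s - l).re = -6 - l := by simp [hs]
  have h3 := norm_Gamma_le (s := s + l) (by rw [h1]; positivity)
  rw [norm_mul, norm_mul, norm_cpow_eq_rpow_re_of_pos hQ, h2, mul_assoc]
  rw [h1] at h3
  gcongr

theorem vInt_FQ (hM : VInt 6 M) (l : ℕ) {Q : ℝ} (hQ : 0 < Q) :
    VInt 6 fun s => M s * Gamma (s + l) * (Q : ℂ) ^ (-s - l) := by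
  have h1 : Continuous fun y : ℝ => Gamma (((6 : ℝ) : ℂ) + y * I + l) := by
    refine (gA_continuous_line (σ := 6 + l) (by positivity)).congr fun y => ?_
    congr 1
    push_cast
    ring
  have h2 : Continuous fun y : ℝ => (Q : ℂ) ^ (-(((6 : ℝ) : ℂ) + y * I) - l) :=
    Continuous.const_cpow (by fun_prop) (Or.inl (ofReal_ne_zero.2 hQ.ne'))
  exact Integrable.mono' (hM.norm.mul_const _)
    ((hM.aestronglyMeasurable.mul h1.aestronglyMeasurable).mul h2.aestronglyMeasurable)
    (ae_of_all _ fun y => exb_norm M l hQ (exb_re y))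

theorem norm_FQ_le (hM : VInt 6 M) (l : ℕ) :
    ∃ C : ℝ, ∀ Q : ℝ, 0 < Q → ‖FQ l M Q‖ ≤ C * Q ^ (-6 - l : ℝ) := by
  refine ⟨1 / (2 * π) * (∫ y : ℝ, ‖M ((6 : ℝ) + y * I)‖) * Real.Gamma (6 + l), fun Q hQ => ?_⟩
  refine (norm_VI_le (hM.norm.mul_const _) fun y => exb_norm M l hQ (exb_re y)).trans
    (le_of_eq ?_)
  rw [integral_mul_const]
  ring

theorem continuousOn_FQ (hM : VInt 6 M) (l : ℕ) : ContinuousOn (FQ l M) (Ioi 0) := by
  intro Q hQ
  have hQ0 : 0 < Q := hQ
  have hn : ∀ᶠ x in 𝓝 Q, Q / 2 < x := lt_mem_nhds (half_lt_self hQ0)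
  refine ContinuousAt.continuousWithinAt (ContinuousAt.mul continuousAt_const ?_)
  refine continuousAt_of_dominated
    (bound := fun y : ℝ => ‖M ((6 : ℝ) + y * I)‖ * (Real.Gamma (6 + l) * (Q / 2) ^ (-6 - l : ℝ)))
    (hn.mono fun x hx => (vInt_FQ hM l (by linarith)).aestronglyMeasurable)
    (hn.mono fun x hx => ae_of_all _ fun y => ?_) (hM.norm.mul_const _) (ae_of_all _ fun y => ?_)
  · refine (exb_norm M l (by linarith) (exb_re y)).trans ?_
    have h1 : x ^ (-6 - l : ℝ) ≤ (Q / 2) ^ (-6 - l : ℝ) :=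
      Real.rpow_le_rpow_of_nonpos (half_pos hQ0) hx.le (by linarith [(Nat.cast_nonneg l : (0 : ℝ) ≤ l)])
    have h2 : 0 < Real.Gamma (6 + l) := Real.Gamma_pos_of_pos (by positivity)
    gcongr
  · exact continuousAt_const.mul (continuousAt_ofReal_cpow_const _ _ (Or.inr hQ0.ne'))

theorem exb_norm_AA {C : ℝ} (hC : ∀ (k : O) (s : ℂ), s.re = 6 → ‖psi χ k s‖ ≤ C) (M : ℂ → ℂ) (h : O)
    {v : ℝ} (hv : 0 < v) {s : ℂ} (hs : s.re = 6) :
    ‖M s * (psi χ h s * (k0 * v) * ww s h v)‖ ≤ ‖M s‖ * (C * (k0 * v) * ‖ww (6 : ℝ) h v‖) := by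
  have h1 := norm_ww_le s h v
  have h2 := hC h s hs
  have h3 : 0 ≤ C := (norm_nonneg _).trans h2
  have h4 := k0_pos
  rw [hs] at h1
  rw [norm_mul, norm_mul, norm_mul, norm_mul, norm_real, norm_real, Real.norm_of_nonneg h4.le,
    Real.norm_of_nonneg hv.le]
  gcongr

theorem vInt_AA (hχ : Wt χ m) (hM : VInt 6 M) (h : O) {v : ℝ} (hv : 0 < v) :
    VInt 6 fun s => M s * (psi χ h s * (k0 * v) * ww s h v) := by
  obtain ⟨C, hC⟩ := hχ.norm_psi_le (σ := 6) (by norm_num)
  exact Integrable.mono' (hM.norm.mul_const _)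
    (hM.aestronglyMeasurable.mul (((hχ.continuous_psi h (σ := 6) (by norm_num)).mul
      continuous_const).mul (continuous_ww (σ := 6) (by norm_num) h hv)).aestronglyMeasurable)
    (ae_of_all _ fun y => exb_norm_AA hC M h hv (exb_re y))

theorem AA_summable (hχ : Wt χ m) (hM : VInt 6 M) (b : Bool) (l : ℕ) {v : ℝ} (hv : 0 < v) :
    Summable fun h : O => ‖qw b h ^ l * AA χ M h v‖ := by
  obtain ⟨C, hC⟩ := hχ.norm_psi_le (σ := 6) (by norm_num)
  refine Summable.of_nonneg_of_le (fun _ => norm_nonneg _) (fun h => ?_)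
    ((ww_summable b l 6 hv).mul_left
      (1 / (2 * π) * (∫ y : ℝ, ‖M ((6 : ℝ) + y * I)‖) * (C * (k0 * v))))
  have h1 : ‖AA χ M h v‖ ≤ _ :=
    norm_VI_le (hM.norm.mul_const _) fun y => exb_norm_AA hC M h hv (exb_re y)
  rw [norm_mul, norm_pow]
  refine (mul_le_mul_of_nonneg_left h1 (by positivity)).trans (le_of_eq ?_)
  rw [integral_mul_const]
  ring

theorem AA_eq_zero (hχ : Wt χ m) (M : ℂ → ℂ) {h : O} (hh : ¬ Rt h) (v : ℝ) : AA χ M h v = 0 := by
  simp only [AA, VI, hχ.psi_eq_zero hh, zero_mul, mul_zero, integral_zero]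

open Classical in
theorem exa_zero (hχ : Wt χ m) (M : ℂ → ℂ) (b : Bool) (l : ℕ) (v : ℝ) (z : ℂ) :
    HasSum (fun r : O × O => if r.1 = 0 then
      χ r.1 r.2 * (pr b z v (sg r.1) (sg r.2) ^ l * FQ l M (Qf z v (sg r.1) (sg r.2))) else 0)
      (if l = 0 then 2 * m * FQ 0 M v⁻¹ else 0) := by
  have hne : ((0 : O), (1 : O)) ≠ (0, -1) := by
    intro h
    have h1 : (1 : O) = -1 := congrArg Prod.snd h
    have h2 := congrArg sg h1
    rw [map_neg, map_one] at h2
    norm_num at h2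
  have hp : ∀ y : ℂ, pr b z v 0 y = 0 := by
    intro y
    cases b <;> simp [pr, pw]
  have h := hasSum_sum_of_ne_finset_zero (L := SummationFilter.unconditional _)
    (f := fun r : O × O => if r.1 = 0 then
      χ r.1 r.2 * (pr b z v (sg r.1) (sg r.2) ^ l * FQ l M (Qf z v (sg r.1) (sg r.2))) else 0)
    (s := {(0, 1), (0, -1)}) (fun r hr => by
      obtain ⟨c, d⟩ := r
      by_cases hc : c = 0
      · subst hc
        have hd : ¬ (d = 1 ∨ d = -1) := by
          rintro (rfl | rfl) <;> simp at hr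
        simp only [if_true, hχ.zero, if_neg hd, zero_mul]
      · simp only [if_neg hc])
  rw [Finset.sum_pair hne] at h
  convert h using 1
  simp only [if_true, hχ.zero, true_or, or_true, map_zero, map_neg, map_one, hp, Qf_zero_left,
    norm_neg, norm_one, one_pow, one_div]
  by_cases hl : l = 0
  · subst hl
    simp only [if_true, pow_zero, one_mul]
    ring
  · simp only [if_neg hl, zero_pow hl, zero_mul, mul_zero, add_zero]

/-- FOURIER EXPANSION: `VI_tsum` twice and `eis`; the rows `(0, ±1)` give the first term. -/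
theorem expand (hχ : Wt χ m) (hM : VInt 6 M) (b : Bool) (l : ℕ) {v : ℝ} (hv : 0 < v) (z : ℂ) :
    EG χ M b l z v = (if l = 0 then 2 * m * FQ 0 M v⁻¹ else 0) +
      ∑' h : O, qw b h ^ l * AA χ M h v * eC (sg h * z / 3) := by
  classical
  have : Countable O := crd.surjective.countable
  obtain ⟨B, hB⟩ := hχ.bdd
  have hB0 : 0 ≤ B := (norm_nonneg _).trans (hB 0 0)
  obtain ⟨C, hC⟩ := hχ.norm_psi_le (σ := 6) (by norm_num)
  have hQ : ∀ r : O × O, r.1 ≠ 0 → 0 < Qf z v (sg r.1) (sg r.2) := fun r hc =>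
    Qf_pos z hv (Or.inl fun h => hc (sg_eq_zero.1 h))
  obtain ⟨F, hF⟩ : ∃ F : O × O → ℂ → ℂ, ∀ r s, F r s = (if r.1 = 0 then 0 else
      χ r.1 r.2 * pr b z v (sg r.1) (sg r.2) ^ l) *
        (M s * Gamma (s + l) * (Qf z v (sg r.1) (sg r.2) : ℂ) ^ (-s - l)) := ⟨_, fun _ _ => rfl⟩
  obtain ⟨G, hG⟩ : ∃ G : O → ℂ → ℂ, ∀ h s, G h s = (qw b h ^ l * eC (sg h * z / 3)) *
      (M s * (psi χ h s * (k0 * v) * ww s h v)) := ⟨_, fun _ _ => rfl⟩
  have hF1 : ∀ r, VInt 6 (F r) := by
    intro r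
    by_cases hc : r.1 = 0
    · have : F r = fun _ => 0 := funext fun s => by rw [hF, if_pos hc, zero_mul]
      rw [this]
      exact integrable_zero _ _ _
    · exact VInt.congr (F := fun s => (χ r.1 r.2 * pr b z v (sg r.1) (sg r.2) ^ l) *
        (M s * Gamma (s + l) * (Qf z v (sg r.1) (sg r.2) : ℂ) ^ (-s - l)))
        ((vInt_FQ hM l (hQ r hc)).const_mul _) fun s _ => by rw [hF, if_neg hc]
  have hF2 : Summable fun r => ∫ y : ℝ, ‖F r ((6 : ℝ) + y * I)‖ := by
    refine Summable.of_nonneg_of_le (fun r => integral_nonneg fun y => norm_nonneg _) (fun r => ?_)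
      ((eis_summable b l hv (σ := 6) (by norm_num) z).mul_left
        ((∫ y : ℝ, ‖M ((6 : ℝ) + y * I)‖) * (B * Real.Gamma (6 + l))))
    by_cases hc : r.1 = 0
    · simp only [hF, if_pos hc, zero_mul, norm_zero, integral_zero, mul_zero, le_refl]
    · rw [if_neg hc, mul_assoc, ← integral_mul_const]
      refine integral_mono (hF1 r).norm (hM.norm.mul_const _) fun y => ?_
      have h1 := exb_norm M l (hQ r hc) (exb_re y)
      have h2 := hB r.1 r.2
      beta_reduce
      rw [hF, if_neg hc, norm_mul, norm_mul, norm_pow]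
      refine (mul_le_mul (mul_le_mul_of_nonneg_right h2 (by positivity)) h1 (norm_nonneg _)
        (by positivity)).trans (le_of_eq ?_)
      ring
  have hG1 : ∀ h, VInt 6 (G h) := fun h =>
    VInt.congr (F := fun s => (qw b h ^ l * eC (sg h * z / 3)) *
      (M s * (psi χ h s * (k0 * v) * ww s h v))) ((vInt_AA hχ hM h hv).const_mul _)
      fun s _ => (hG h s).symm
  have hG2 : Summable fun h => ∫ y : ℝ, ‖G h ((6 : ℝ) + y * I)‖ := by
    refine Summable.of_nonneg_of_le (fun r => integral_nonneg fun y => norm_nonneg _) (fun h => ?_)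
      ((ww_summable b l 6 hv).mul_left ((∫ y : ℝ, ‖M ((6 : ℝ) + y * I)‖) * (C * (k0 * v))))
    rw [mul_assoc, ← integral_mul_const]
    refine integral_mono (hG1 h).norm (hM.norm.mul_const _) fun y => ?_
    have h1 := exb_norm_AA hC M h hv (exb_re y)
    beta_reduce
    rw [hG, norm_mul, norm_mul, norm_pow, norm_eC, mul_one]
    refine (mul_le_mul_of_nonneg_left h1 (by positivity)).trans (le_of_eq ?_)
    push_cast
    ring
  have h1 := (VI_tsum hF1 hF2).2
  have h2 := (VI_tsum hG1 hG2).2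
  have h3 : (VI 6 fun s => ∑' r, F r s) = VI 6 fun s => ∑' h, G h s := by
    refine VI_congr fun s hs => ?_
    have h4 := congrArg (M s * ·) (eis hχ b l hv (s := s) (by rw [hs]; norm_num) z)
    simp only [← tsum_mul_left] at h4
    refine ((tsum_congr fun r => ?_).trans h4).trans (tsum_congr fun h => ?_)
    · rw [hF]
      split_ifs <;> ring
    · rw [hG]
      ring
  have h5 : ∀ r, VI 6 (F r) = if r.1 = 0 then 0 else
      χ r.1 r.2 * (pr b z v (sg r.1) (sg r.2) ^ l * FQ l M (Qf z v (sg r.1) (sg r.2))) := by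
    intro r
    rw [funext (hF r), VI_const_mul]
    split_ifs
    · exact zero_mul _
    · exact mul_assoc _ _ _
  have h6 : ∀ h, VI 6 (G h) = qw b h ^ l * AA χ M h v * eC (sg h * z / 3) := by
    intro h
    rw [funext (hG h), VI_const_mul, AA]
    ring
  simp only [h5, h3] at h1
  simp only [h6] at h2
  rw [h2.tsum_eq, EG]
  refine HasSum.tsum_eq ?_
  convert (exa_zero hχ M b l v z).add h1 using 2 with r
  split_ifs
  · exact (add_zero _).symm
  · exact (zero_add _).symm

end Crest.Agent.R17.D
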