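import Crest.Agent.R17.D.Rap
import Crest.Agent.R17.D.Expand
import Crest.Agent.R17.D.Zero

/-! Row 17, block D (owner helper53): the constant term. -/

set_option autoImplicit false

namespace Crest.Agent.R17.D

open Complex MeasureTheory Filter Set
open scoped Real Topology ComplexConjugate

variable {Φ : ℂ → ℂ}

theorem FQ_zero_eq (Φ : ℂ → ℂ) (Q : ℝ) :
    FQ 0 (MM Φ) Q = VI 6 fun s => Φ s * (Q : ℂ) ^ (-s) * xi (3 * s - 2) := by
  refine VI_congr fun s hs => ?_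
  have h1 : Gamma s ≠ 0 := Gamma_ne_zero_of_re_pos (by rw [hs]; norm_num)
  simp only [MM, Nat.cast_zero, add_zero, sub_zero]
  field_simp

theorem cst_rap (h : Rap Φ) {X : ℝ} (hX : 0 < X) (α : ℝ) : Rap fun s => Φ s * (X : ℂ) ^ (α * s) := by
  simpa only [ofReal_zero, add_zero] using h.mul (mod_cpow hX α 0)

/-- `contour` for `H s = Φ s Q^{-s}` gives `‖FQ 0‖ ≤ C Q⁴`; with `norm_FQ_le` it is bounded -/
theorem FQ_bdd (h : Rap Φ) (h1 : Φ 1 = 0) (h2 : Φ (2 / 3) = 0) :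
    ∃ C : ℝ, ∀ Q : ℝ, 0 < Q → ‖FQ 0 (MM Φ) Q‖ ≤ C := by
  obtain ⟨C, hC⟩ := norm_FQ_le h.vInt_MM 0
  obtain ⟨-, D, hD⟩ := xi_line (σ := 15) (by norm_num)
  refine ⟨max |C| (1 / (2 * π) * ∫ y : ℝ, ‖Φ (2 - ((6 : ℝ) + y * I))‖ * D), fun Q hQ => ?_⟩
  rcases le_total 1 Q with hQ1 | hQ1
  · refine (hC Q hQ).trans (le_trans ?_ (le_max_left _ _))
    have h3 : Q ^ (-6 - (0 : ℕ) : ℝ) ≤ 1 :=
      Real.rpow_le_one_of_one_le_of_nonpos hQ1 (by norm_num)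
    exact (mul_le_mul_of_nonneg_right (le_abs_self C) (by positivity)).trans
      (mul_le_of_le_one_right (abs_nonneg C) h3)
  · have h3 := contour (cst_rap h hQ (-1)) (by simp only [h1, zero_mul])
    simp only [h2, zero_mul, zero_div, neg_zero, sub_eq_zero, ofReal_neg, ofReal_one, neg_mul,
      one_mul] at h3
    rw [FQ_zero_eq, h3]
    refine (norm_VI_le ((h.refl.vInt 6).norm.mul_const D) fun y => ?_).trans (le_max_right _ _)
    have h4 := hD (3 * ((6 : ℝ) + y * I) - 3) (by simp; norm_num)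
    have h5 : ‖(Q : ℂ) ^ (-(2 - (((6 : ℝ) : ℂ) + y * I)))‖ ≤ 1 := by
      rw [norm_cpow_eq_rpow_re_of_pos hQ]
      exact Real.rpow_le_one hQ.le hQ1 (by simp; norm_num)
    rw [norm_mul, norm_mul]
    exact mul_le_mul (mul_le_of_le_one_right (norm_nonneg _) h5) h4 (norm_nonneg _)
      (norm_nonneg _)

/-- `ww_zero`, `xi_psi_zero`, `contour` for `H s = Φ s v^s` -/
theorem const_term {χ : O → O → ℂ} {m : ℂ} (h : Rap Φ) (h1 : Φ 1 = 0)
    (hc : ∀ s : ℂ, s.re = 6 → Φ s * psi χ 0 s = -m * Φ (2 - s) * psi rho 0 s) {v : ℝ} (hv : 0 < v) :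
    2 * m * FQ 0 (MM Φ) v⁻¹ + AA χ (MM Φ) 0 v = -(2 * m / 3) * Φ (2 / 3) * (v ^ (2 / 3 : ℝ) : ℝ) := by
  have h3 := contour (cst_rap h hv 1) (by simp only [h1, zero_mul])
  simp only [ofReal_one, one_mul] at h3
  have hv0 : (v : ℂ) ≠ 0 := ofReal_ne_zero.2 hv.ne'
  have e1 : FQ 0 (MM Φ) v⁻¹ = VI 6 fun s => Φ s * (v : ℂ) ^ s * xi (3 * s - 2) := by
    rw [FQ_zero_eq]
    refine VI_congr fun s _ => ?_
    rw [ofReal_inv, inv_cpow _ _ (by rw [arg_ofReal_of_nonneg hv.le]; exact Real.pi_ne_zero.symm),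
      cpow_neg, inv_inv]
  have e2 : AA χ (MM Φ) 0 v =
      -(2 * m) * VI 6 fun s => Φ (2 - s) * (v : ℂ) ^ (2 - s) * xi (3 * s - 3) := by
    rw [← VI_const_mul]
    refine VI_congr fun s hs => ?_
    have s1 : s - 1 ≠ 0 := fun h0 => by
      have := congrArg re h0
      simp [hs] at this
      norm_num at this
    have s2 : Gamma (s - 1) ≠ 0 := Gamma_ne_zero_of_re_pos (by simp [hs])
    have s3 : Gamma s = (s - 1) * Gamma (s - 1) := by
      rw [← Gamma_add_one _ s1, sub_add_cancel]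
    have s4 : (v : ℂ) ^ (2 - s) = v * (v : ℂ) ^ (1 - s) := by
      rw [show 2 - s = 1 + (1 - s) by ring, cpow_add _ _ hv0, cpow_one]
    have s5 := xi_psi_zero (s := s) (by rw [hs]; norm_num)
    have s6 := hc s hs
    rw [ww_zero (by rw [hs]; norm_num) hv, MM, s3, s4]
    generalize xi (3 * s - 3) = x₃ at s5 ⊢
    generalize xi (3 * s - 2) = x₂ at s5 ⊢
    field_simp
    linear_combination (x₂ * k0 * (v : ℂ) ^ (1 - s)) * s6 - m * Φ (2 - s) * (v : ℂ) ^ (1 - s) * s5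
  have e3 : ((v ^ (2 / 3 : ℝ) : ℝ) : ℂ) = (v : ℂ) ^ (2 / 3 : ℂ) := by
    rw [ofReal_cpow hv.le]
    push_cast
    rfl
  rw [e1, e2, e3]
  linear_combination 2 * m * h3

theorem bb_line {χ : O → O → ℂ} {m : ℂ} (hχ : Wt χ m) (h : O) :
    (Continuous fun y : ℝ => bb χ h ((6 : ℝ) + y * I)) ∧
      ∃ C : ℝ, ∀ s : ℂ, s.re = 6 → ‖bb χ h s‖ ≤ C := by
  have h1 : ∀ s : ℂ, s.re = 6 → ((s - 1) / 2).re = 5 / 2 := fun s hs => by
    simp [hs]
    norm_num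
  refine ⟨(continuous_const.mul (hχ.continuous_psi h (σ := 6) (by norm_num))).mul
    (Continuous.const_cpow (by fun_prop) (Or.inr fun y h0 => ?_)), ?_⟩
  · have := h1 _ (exb_re y)
    rw [h0] at this
    norm_num at this
  · obtain ⟨C, hC⟩ := hχ.norm_psi_le (σ := 6) (by norm_num)
    refine ⟨‖(k0 : ℂ)‖ * C * (bt * nm h) ^ (5 / 2 : ℝ), fun s hs => ?_⟩
    have h2 : 0 ≤ bt * nm h := mul_nonneg bt_pos.le (nm_nonneg h)
    have h3 := hC h s hs
    rw [bb, norm_mul, norm_mul, norm_cpow_eq_rpow_re_of_nonneg h2 (by rw [h1 s hs]; norm_num),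
      h1 s hs]
    gcongr

theorem vInt_LL {χ : O → O → ℂ} {m : ℂ} (hχ : Wt χ m) (h : O) (hΦ : Rap Φ) :
    VInt 6 fun s => MM Φ s * bb χ h s := by
  obtain ⟨h1, C, hC⟩ := bb_line hχ h
  exact hΦ.vInt_MM_mul h1 (C := C) (A := 0) fun s hs => by
    rw [zero_mul, Real.exp_zero, mul_one]
    exact hC s hs

/-- `ww_eq` -/
theorem AA_eq_LL (χ : O → O → ℂ) {h : O} (hh : h ≠ 0) (Φ : ℂ → ℂ) {v : ℝ} (hv : 0 < v) :
    AA χ (MM Φ) h v = v * LL χ h fun s => Φ s * KB (s - 1) (v * √(bt * nm h)) := by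
  rw [LL, ← VI_const_mul]
  refine VI_congr fun s _ => ?_
  simp only [ww_eq hh s hv, MM, bb]
  ring

end Crest.Agent.R17.D
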