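import Crest.Agent.R17.A.All
import Crest.Agent.R17.B.All

/-!
# Row 17, block D (cubic theta function; owner helper53): definitions and overview

`Λ = ℤ + 3 O` (`Rt`), `Γ₂ = SL₂(Λ)`, `rho c d` = conjugate Kubota character of the bottom row `(c, d)`.
A point `(z, v)` of `H³` is the Hermitian form `Qf z v x y = (‖x z + y‖² + ‖x‖² v²) / v`; a matrix acts
on forms through `(x, y) ↦ (x a + y c, x b + y d)`.  Pseudo-Eisenstein series
`EE χ F Q = ∑_{(c,d)} χ(c,d) F(Q(c,d))`, `F = FQ 0 (MM Φ) = (1/2πi) ∫_{Re s = 6} Φ(s) ξ(3s-2) Q^{-s}`.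
* `Rho`, `Sums`, `HeckeS`, `Zero`: arithmetic of `rho`, `SG`, `psi`.
* `Lat`, `Pois`, `Lip`, `Expand`: Fourier expansion of `EG` (`l`-th `z` or `z̄` derivative of `EE`).
* `Bessel`, `Rap`, `Const`: `KB`, test functions, the constant term.
* `Space`, `Unfold`, `Four`, `Van`: constant term zero ⇒ the series vanishes (unfolding).
* `Kill`, `Hecke`: `LL rho h Φ = tau h * Φ (2/3)`, Hecke relations, shape and size of `tau`.
* `Theta`, `NonVan`, `FE`, `Main`: theta function, non-vanishing, functional equation, `stD`.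
-/

set_option autoImplicit false

namespace Crest.Agent.R17.D

open Complex MeasureTheory Filter Set
open scoped Real Topology ComplexConjugate

/-- rational modulo `3`: the order `Λ = ℤ + 3 O` -/
def Rt (x : O) : Prop := ∃ k : ℤ, (3 : O) ∣ x - k

open Classical in
/-- conjugate Kubota character of a bottom row (zero on non-rows) -/
noncomputable def rho (c d : O) : ℂ :=
  if Rt c ∧ Rt d then (if (3 : O) ∣ c then cb c d else cb d c) else 0

open Classical in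
/-- rows with `p ∤ c` -/
noncomputable def rnd (p c d : O) : ℂ := if p ∣ c then 0 else rho c d

/-- the weight `((q + 1) 1[p ∣ c] - 1) rho`; for `p = 1` it is `rho` -/
noncomputable def rhp (p c d : O) : ℂ := nm p * rho c d - (nm p + 1) * rnd p c d

open Classical in
/-- admissible row weights -/
structure Wt (χ : O → O → ℂ) (m : ℂ) : Prop where
  bdd : ∃ M : ℝ, ∀ c d, ‖χ c d‖ ≤ M
  inv : ∀ b c d, Rt b → χ c (d + b * c) = χ c d
  zero : ∀ d, χ 0 d = if d = 1 ∨ d = -1 then m else 0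

open Classical in
/-- `S(c, h) = ∑_{d mod 3c} χ(c, d) e(h d / 3c)` -/
noncomputable def SG (χ : O → O → ℂ) (c h : O) : ℂ := if c = 0 then 0 else FT (3 * c) (χ c) h

/-- `ψ(h, s) = ∑_c S(c, h) N(c)^{-s}` -/
noncomputable def psi (χ : O → O → ℂ) (h : O) (s : ℂ) : ℂ := DD (fun c => SG χ c h) nm s

/-- `X = q^{3 - 3 s}` -/
noncomputable def XX (p : O) (s : ℂ) : ℂ := (nm p : ℂ) ^ (3 - 3 * s)

/-- `6 ζ_K(s)`, `Re s > 1` -/
noncomputable def ZK (s : ℂ) : ℂ := ∑' n : O, (nm n : ℂ) ^ (-s)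

/-- completed zeta function (only used on `Re s > 1`) -/
noncomputable def xi (s : ℂ) : ℂ := gK s * ZK s

/-- `β = 4π²/27` -/
noncomputable def bt : ℝ := 4 * π ^ 2 / 27

/-- `κ₀ = 2π/(9√3)` -/
noncomputable def k0 : ℝ := 2 * π / (9 * √3)

/-- the Hermitian form of the point `(z, v)` -/
noncomputable def Qf (z : ℂ) (v : ℝ) (x y : ℂ) : ℝ := (‖x * z + y‖ ^ 2 + ‖x‖ ^ 2 * v ^ 2) / v

/-- pseudo-Eisenstein series as a function of the form -/
noncomputable def EE (χ : O → O → ℂ) (F : ℝ → ℂ) (Q : ℂ → ℂ → ℝ) : ℂ :=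
  ∑' r : O × O, χ r.1 r.2 * F (Q (sg r.1) (sg r.2))

/-- `y` or `conj y` -/
noncomputable def pw (b : Bool) (y : ℂ) : ℂ := if b then y else conj y

/-- `-∂ e(h z / 3) = qw b h · e(h z / 3)`, `∂ = ∂_{z̄}` for `b = true` and `∂_z` for `b = false` -/
noncomputable def qw (b : Bool) (h : O) : ℂ :=
  if b then 3 * k0 * conj (sg h) else -(3 * k0 * sg h)

/-- `∂ Qf` -/
noncomputable def pr (b : Bool) (z : ℂ) (v : ℝ) (x y : ℂ) : ℂ :=
  pw (!b) x * pw b (x * z + y) / v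

/-- the `c`-free kernel -/
noncomputable def kk (b : Bool) (l : ℕ) (v : ℝ) (s y : ℂ) : ℂ :=
  (pw b y / v) ^ l * (((‖y‖ ^ 2 + v ^ 2) / v : ℝ) : ℂ) ^ (-s - l)

/-- `w_s(h, v) = ∫ T^{s-2} exp(-v (T + β N(h) / T)) dT` -/
noncomputable def ww (s : ℂ) (h : O) (v : ℝ) : ℂ :=
  mellin (fun T : ℝ => (Real.exp (-(v * (T + bt * nm h / T))) : ℂ)) (s - 1)

/-- `KB ν x = 2 K_ν(2 x)` -/
noncomputable def KB (ν : ℂ) (x : ℝ) : ℂ :=
  mellin (fun T : ℝ => (Real.exp (-(x * (T + T⁻¹))) : ℂ)) ν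

/-- the profile (`l`-th derivative, up to sign, of `FQ 0 M`) -/
noncomputable def FQ (l : ℕ) (M : ℂ → ℂ) (Q : ℝ) : ℂ :=
  VI 6 fun s => M s * Gamma (s + l) * (Q : ℂ) ^ (-s - l)

/-- `(-∂)^l` of the pseudo-Eisenstein series at `(z, v)` -/
noncomputable def EG (χ : O → O → ℂ) (M : ℂ → ℂ) (b : Bool) (l : ℕ) (z : ℂ) (v : ℝ) : ℂ :=
  ∑' r : O × O, χ r.1 r.2 * (pr b z v (sg r.1) (sg r.2) ^ l * FQ l M (Qf z v (sg r.1) (sg r.2)))

/-- Fourier coefficients -/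
noncomputable def AA (χ : O → O → ℂ) (M : ℂ → ℂ) (h : O) (v : ℝ) : ℂ :=
  VI 6 fun s => M s * (psi χ h s * (k0 * v) * ww s h v)

/-- entire, faster than exponential decay in vertical strips -/
def Rap (Φ : ℂ → ℂ) : Prop :=
  Differentiable ℂ Φ ∧ ∀ A σ₁ σ₂ : ℝ, ∃ C : ℝ, ∀ s ∈ strip σ₁ σ₂, ‖Φ s‖ ≤ C * Real.exp (-A * |s.im|)

/-- entire, at most exponential growth in vertical strips -/
def Mod (G : ℂ → ℂ) : Prop := Differentiable ℂ G ∧ ∀ σ₁ σ₂ : ℝ, ExpOn σ₁ σ₂ G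

/-- odd about `1` -/
def Od (Φ : ℂ → ℂ) : Prop := ∀ s, Φ (2 - s) = -Φ s

/-- even about `1` -/
def Ev (G : ℂ → ℂ) : Prop := ∀ s, G (2 - s) = G s

/-- the reference test function, `Ph0 (2/3) = 1` -/
noncomputable def Ph0 (s : ℂ) : ℂ := -3 * (s - 1) * cexp ((s - 1) ^ 2 - 1 / 9)

/-- `Φ(s) ξ(3s - 2) / Γ(s)` -/
noncomputable def MM (Φ : ℂ → ℂ) (s : ℂ) : ℂ := Φ s * xi (3 * s - 2) * (Gamma s)⁻¹

/-- normalised Dirichlet series -/
noncomputable def bb (χ : O → O → ℂ) (h : O) (s : ℂ) : ℂ :=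
  k0 * psi χ h s * ((bt * nm h : ℝ) : ℂ) ^ ((s - 1) / 2)

/-- the linear functional of the `h`-th coefficient -/
noncomputable def LL (χ : O → O → ℂ) (h : O) (Φ : ℂ → ℂ) : ℂ := VI 6 fun s => MM Φ s * bb χ h s

/-- the theta coefficients -/
noncomputable def tau (h : O) : ℂ := LL rho h Ph0

/-- `2 v K_{1/3}(4π |ν| v)`, `h = λ³ ν` -/
noncomputable def JJ (h : O) (v : ℝ) : ℂ := v * KB (1 / 3) (v * √(bt * nm h))

/-- the theta function of a form -/
noncomputable def TH (Q : ℂ → ℂ → ℝ) : ℂ := EE rho (FQ 0 (MM Ph0)) Q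

/-- the cubic theta function -/
noncomputable def theta (z : ℂ) (v : ℝ) : ℂ := TH (Qf z v)

theorem bt_pos : 0 < bt := by unfold bt; positivity

theorem k0_pos : 0 < k0 := by unfold k0; positivity

theorem EG_zero (χ : O → O → ℂ) (M : ℂ → ℂ) (b : Bool) (z : ℂ) (v : ℝ) :
    EG χ M b 0 z v = EE χ (FQ 0 M) (Qf z v) := by
  simp only [EG, EE, pow_zero, one_mul]

theorem rhp_one : rhp 1 = rho := by
  funext c d
  simp [rhp, rnd, nm, nN]

end Crest.Agent.R17.D
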