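import Crest.Agent.R17.D.Rho

/-! Row 17, block D (owner helper53): a fundamental domain for `Λ` and Fourier coefficients. -/

set_option autoImplicit false

namespace Crest.Agent.R17.D

open Complex MeasureTheory Filter Set
open scoped Real Topology ComplexConjugate

theorem four_basis : ∃ b : Module.Basis (Fin 2) ℝ ℂ,
    ∀ z : ℂ, z ∈ Submodule.span ℤ (range b) ↔ ∃ r : O, Rt r ∧ sg r = z := by
  have hli : LinearIndependent ℝ ![(1 : ℂ), 3 * sg om] := by
    refine LinearIndependent.pair_iff.2 fun s t h => ?_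
    have h1 := congrArg Complex.im h
    have h2 := congrArg Complex.re h
    have h3 : √3 ≠ 0 := by positivity
    simp [sg_om', h3] at h1 h2
    subst h1
    simpa using h2
  refine ⟨basisOfLinearIndependentOfCardEqFinrank hli (by simp), fun z => ?_⟩
  rw [coe_basisOfLinearIndependentOfCardEqFinrank, Submodule.mem_span_range_iff_exists_fun]
  constructor
  · rintro ⟨c, rfl⟩
    refine ⟨(c 0 : O) + ((3 * c 1 : ℤ) : O) * om, rt_coord.2 (dvd_mul_right _ _), ?_⟩
    simp [Fin.sum_univ_two, map_ofNat]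
    ring
  · rintro ⟨r, hr, rfl⟩
    obtain ⟨x, y, rfl⟩ := exists_coord r
    obtain ⟨n, rfl⟩ := rt_coord.1 hr
    refine ⟨![x, n], ?_⟩
    simp [Fin.sum_univ_two, map_ofNat]
    ring

/-- `ZSpan.fundamentalDomain` of the real basis `1, 3 ω` of `ℂ`.  Orthogonality: translate by `z₀` with
`e(h z₀ / 3) ≠ 1` (two fundamental domains, `IsAddFundamentalDomain.setIntegral_eq`), or compute in
coordinates. -/
theorem exists_Fd : ∃ F : Set ℂ, MeasurableSet F ∧ volume F ≠ 0 ∧ volume F ≠ ⊤ ∧
    (∀ z : ℂ, ∃! b : O, Rt b ∧ z + sg b ∈ F) ∧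
    ∀ h : O, Rt h → h ≠ 0 → ∫ z in F, eC (sg h * z / 3) = 0 := by
  obtain ⟨b, hb⟩ := four_basis
  refine ⟨ZSpan.fundamentalDomain b, ZSpan.fundamentalDomain_measurableSet b,
    ZSpan.measure_fundamentalDomain_ne_zero b,
    (ZSpan.fundamentalDomain_isBounded b).measure_lt_top.ne, fun z => ?_, fun h hh h0 => ?_⟩
  · obtain ⟨v, hv, hu⟩ := ZSpan.exist_unique_vadd_mem_fundamentalDomain b z
    obtain ⟨r, hr, e⟩ := (hb v).1 v.2
    refine ⟨r, ⟨hr, by rw [e, add_comm]; exact hv⟩, fun r' hr' => sg_injective ?_⟩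
    have := hu ⟨sg r', (hb _).2 ⟨r', hr'.1, rfl⟩⟩ (by
      have := hr'.2
      rw [add_comm] at this
      exact this)
    rw [e, ← this]
  · have hF := ZSpan.isAddFundamentalDomain' b (volume : Measure ℂ)
    have : Countable (Submodule.span ℤ (range b)).toAddSubgroup :=
      inferInstanceAs (Countable (Submodule.span ℤ (range b)))
    have hs : sg h ≠ 0 := fun e => h0 (sg_eq_zero.1 e)
    set z₀ : ℂ := 3 * ((0 : ℝ) + (1 / 2 : ℝ) * sg om) / sg h with hz₀
    have h1 : eC (sg h * z₀ / 3) = -1 := by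
      rw [show sg h * z₀ / 3 = (0 : ℝ) + (1 / 2 : ℝ) * sg om by rw [hz₀]; field_simp, eC_coord,
        ← Complex.exp_pi_mul_I]
      congr 1
      push_cast
      ring
    have h2 := (hF.vadd_of_comm z₀).setIntegral_eq hF (f := fun z => eC (sg h * z / 3))
      fun g x => by
        obtain ⟨r, hr, e⟩ := (hb g).1 g.2
        have h3 : eC (sg h * sg r / 3) = 1 := by
          rw [← hh.eQ_mul hr, eQ, map_mul, map_ofNat]
        change eC (sg h * (g + x) / 3) = _
        rw [← e, mul_add, add_div, eC_add, h3, one_mul]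
    have h3 : ∫ z in (z₀ +ᵥ ·) '' ZSpan.fundamentalDomain b, eC (sg h * z / 3) =
        ∫ z in ZSpan.fundamentalDomain b, eC (sg h * (z₀ + z) / 3) :=
      (measurePreserving_vadd z₀ volume).setIntegral_image_emb (measurableEmbedding_const_vadd _) _ _
    simp only [mul_add, add_div, eC_add, h1, neg_one_mul, integral_neg] at h3
    linear_combination (1 / 2 : ℂ) * (h2.symm.trans h3)

/-- the fundamental domain -/
noncomputable def Fd : Set ℂ := exists_Fd.choose

theorem measurableSet_Fd : MeasurableSet Fd := exists_Fd.choose_spec.1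

theorem volume_Fd_ne_zero : volume Fd ≠ 0 := exists_Fd.choose_spec.2.1

theorem volume_Fd_ne_top : volume Fd ≠ ⊤ := exists_Fd.choose_spec.2.2.1

theorem exists_unique_Fd (z : ℂ) : ∃! b : O, Rt b ∧ z + sg b ∈ Fd := exists_Fd.choose_spec.2.2.2.1 z

theorem four_orth {h : O} (hh : Rt h) (h0 : h ≠ 0) : ∫ z in Fd, eC (sg h * z / 3) = 0 :=
  exists_Fd.choose_spec.2.2.2.2 h hh h0

theorem four_fin : IsFiniteMeasure (volume.restrict Fd) :=
  isFiniteMeasure_restrict.2 volume_Fd_ne_top

theorem four_cont (h : O) : Continuous fun z : ℂ => eC (sg h * z / 3) :=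
  continuous_eC.comp (by fun_prop)

theorem four_int {f : ℂ → ℂ} (hf : Continuous f) {M : ℝ} (hM : ∀ z, ‖f z‖ ≤ M) :
    Integrable f (volume.restrict Fd) :=
  haveI := four_fin
  Integrable.of_bound hf.aestronglyMeasurable M (Eventually.of_forall hM)

/-- `integral_tsum` and orthogonality -/
theorem four {a : O → ℂ} (ha : Summable fun h => ‖a h‖) (hs : ∀ h, ¬ Rt h → a h = 0) {k : O}
    (hk : Rt k) : ∫ z in Fd, (∑' h : O, a h * eC (sg h * z / 3)) * eC (-(sg k * z / 3)) =
      (volume.real Fd : ℝ) * a k := by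
  have : Countable O := Countable.of_equiv _ crd
  have e : ∀ z : ℂ, (∑' h : O, a h * eC (sg h * z / 3)) * eC (-(sg k * z / 3)) =
      ∑' h : O, a h * eC (sg (h - k) * z / 3) := fun z => by
    rw [← tsum_mul_right]
    refine tsum_congr fun h => ?_
    rw [mul_assoc, ← eC_add, map_sub]
    congr 2
    ring
  simp only [e]
  rw [← integral_tsum_of_summable_integral_norm (F := fun h z => a h * eC (sg (h - k) * z / 3))
    (fun h => four_int (continuous_const.mul (four_cont _)) (M := ‖a h‖) fun z => by simp)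
    (by simpa using ha.mul_left (volume.real Fd)), tsum_eq_single k]
  · simp
  · intro h hne
    by_cases hh : Rt h
    · rw [integral_const_mul, four_orth (hh.sub hk) (sub_ne_zero.2 hne), mul_zero]
    · simp [hs h hh]

theorem four_const {a : O → ℂ} (ha : Summable fun h => ‖a h‖) (hs : ∀ h, ¬ Rt h → a h = 0) (c : ℂ) :
    ∫ z in Fd, (c + ∑' h : O, a h * eC (sg h * z / 3)) = (volume.real Fd : ℝ) * (c + a 0) := by
  have h1 := four ha hs rt_zero
  simp only [map_zero, zero_mul, zero_div, neg_zero, eC_zero, mul_one] at h1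
  have hb : ∀ (h : O) (z : ℂ), ‖a h * eC (sg h * z / 3)‖ ≤ ‖a h‖ := fun h z => by simp
  rw [integral_add (four_int continuous_const fun _ => le_rfl)
    (four_int (continuous_tsum (f := fun h z => a h * eC (sg h * z / 3)) (fun h => continuous_const.mul (four_cont h)) ha hb)
      fun z => tsum_of_norm_bounded ha.hasSum fun h => hb h z), h1, mul_add]
  simp

theorem four_zero {a : O → ℂ} (ha : Summable fun h => ‖a h‖) (hs : ∀ h, ¬ Rt h → a h = 0) {c : ℂ}
    (h0 : ∀ᵐ z : ℂ, c + ∑' h : O, a h * eC (sg h * z / 3) = 0) :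
    c + a 0 = 0 ∧ ∀ h, h ≠ 0 → a h = 0 := by
  have hv : ((volume.real Fd : ℝ) : ℂ) ≠ 0 :=
    Complex.ofReal_ne_zero.2 (ENNReal.toReal_ne_zero.2 ⟨volume_Fd_ne_zero, volume_Fd_ne_top⟩)
  have h0' := ae_restrict_of_ae (s := Fd) h0
  refine ⟨?_, fun h hne => ?_⟩
  · have h1 := four_const ha hs c
    rw [integral_eq_zero_of_ae h0'] at h1
    exact (mul_eq_zero.1 h1.symm).resolve_left hv
  · by_cases hh : Rt h
    swap
    · exact hs h hh
    have h1 := four ha hs hh
    have h2 : ∫ z in Fd, (∑' h : O, a h * eC (sg h * z / 3)) * eC (-(sg h * z / 3)) =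
        ∫ z in Fd, -c * eC (sg (-h) * z / 3) := by
      refine integral_congr_ae ?_
      filter_upwards [h0'] with z hz
      rw [eq_neg_of_add_eq_zero_right hz, map_neg, neg_mul (sg h), neg_div]
    rw [h2, integral_const_mul, four_orth hh.neg (neg_ne_zero.2 hne), mul_zero] at h1
    exact (mul_eq_zero.1 h1.symm).resolve_left hv

end Crest.Agent.R17.D
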