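import Crest.Agent.R17.D.Kill

/-! Row 17, block D (owner helper53): Hecke relations, shape and size of `tau`.
Notation: `x = q^{(s-1)/2}`, `X = x^{-6}`, `bb (k p^j) = k0 · psi (k p^j) · B_k^{(s-1)/2} · x^j`. -/

set_option autoImplicit false

namespace Crest.Agent.R17.D

open Complex MeasureTheory Filter Set
open scoped Real Topology ComplexConjugate

variable {p : O}

/-- `x³ + x^{-3}` -/
noncomputable def EX (p : O) (s : ℂ) : ℂ :=
  (nm p : ℂ) ^ (3 * (s - 1) / 2) + (nm p : ℂ) ^ (-(3 * (s - 1) / 2))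

theorem hka_mod_pos (hp : p ≠ 0) : Mod fun s => (nm p : ℂ) ^ (3 * (s - 1) / 2) := by
  have := mod_cpow (nm_pos hp) (3 / 2) (-(3 / 2))
  convert this using 3 with s
  push_cast; ring

theorem hka_mod_neg (hp : p ≠ 0) : Mod fun s => (nm p : ℂ) ^ (-(3 * (s - 1) / 2)) := by
  have := mod_cpow (nm_pos hp) (-(3 / 2)) (3 / 2)
  convert this using 3 with s
  push_cast; ring

theorem mod_EX (hp : p ≠ 0) : Mod (EX p) := by
  exact (hka_mod_pos hp).add (hka_mod_neg hp)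

theorem ev_EX (p : O) : Ev (EX p) := by
  intro s
  unfold EX
  rw [add_comm]
  congr 2 <;> ring

theorem hka_sqrt (p : O) : (nm p : ℂ) ^ (1 / 2 : ℂ) = (√(nm p) : ℝ) := by
  rw [Real.sqrt_eq_rpow, Complex.ofReal_cpow (nm_nonneg p)]
  congr 1; push_cast; ring

theorem EX_two_thirds (hp : p ≠ 0) : EX p (2 / 3) = (√(nm p) : ℝ) + ((√(nm p) : ℝ) : ℂ)⁻¹ := by
  have _ := hp
  unfold EX
  rw [show (3 * (2 / 3 - 1) / 2 : ℂ) = -(1 / 2) by ring, neg_neg, cpow_neg, hka_sqrt, add_comm]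

theorem bb_mul (χ : O → O → ℂ) (k a : O) (s : ℂ) :
    bb χ (k * a) s = k0 * psi χ (k * a) s * ((bt * nm k : ℝ) : ℂ) ^ ((s - 1) / 2) *
      (nm a : ℂ) ^ ((s - 1) / 2) := by
  unfold bb
  rw [nm_mul, ← mul_assoc bt, Complex.ofReal_mul (bt * nm k),
    Complex.mul_cpow_ofReal_nonneg (mul_nonneg bt_pos.le (nm_nonneg k)) (nm_nonneg a)]
  ring

/-- all powers of `q` in terms of `x = q^{(s-1)/2}` -/
theorem hka_x (hp : p ≠ 0) (s : ℂ) : ∃ x : ℂ, x ≠ 0 ∧ (nm p : ℂ) ≠ 0 ∧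
    (∀ j : ℕ, (nm (p ^ j) : ℂ) ^ ((s - 1) / 2) = x ^ j) ∧ (nm p : ℂ) ^ ((s - 1) / 2) = x ∧
    (nm p : ℂ) ^ (3 * (s - 1) / 2) = x ^ 3 ∧ XX p s = (x ^ 6)⁻¹ ∧
    (nm p : ℂ) ^ (-s) = (x ^ 2)⁻¹ / nm p := by
  have q0 : (nm p : ℂ) ≠ 0 := Complex.ofReal_ne_zero.2 (nm_pos hp).ne'
  refine ⟨(nm p : ℂ) ^ ((s - 1) / 2), by simp [q0], q0, fun j => ?_, rfl, ?_, ?_, ?_⟩
  · induction j with
    | zero => simp
    | succ j ih =>
      rw [pow_succ, nm_mul, Complex.ofReal_mul,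
        Complex.mul_cpow_ofReal_nonneg (nm_nonneg _) (nm_nonneg _), ih, pow_succ]
  · rw [← cpow_nat_mul]; congr 1; push_cast; ring
  · rw [← cpow_nat_mul, ← cpow_neg, XX]; congr 1; push_cast; ring
  · rw [← cpow_nat_mul, ← cpow_neg, eq_div_iff q0]
    have := cpow_add (-s) 1 q0
    rw [cpow_one] at this
    rw [← this]; congr 1; push_cast; ring

theorem hka_rel {k₁ k₂ k₃ : O} {E₁ : ℂ → ℂ} {c₂ c₃ : ℂ} (m₁ : Mod E₁) (e₁ : Ev E₁)
    (h : ∀ s : ℂ, 2 < s.re → E₁ s * bb rho k₁ s + c₂ * bb rho k₂ s + c₃ * bb rho k₃ s = 0) :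
    E₁ (2 / 3) * tau k₁ + c₂ * tau k₂ + c₃ * tau k₃ = 0 := by
  refine tau_rel (E₂ := fun _ => c₂) (E₃ := fun _ => c₃) m₁ (mod_const _) (mod_const _) e₁
    (fun _ => rfl) (fun _ => rfl) ?_
  rw [VI_congr (G := fun _ => 0) fun s hs => by rw [h s (by rw [hs]; norm_num), mul_zero]]
  simp [VI]

theorem hka_sq (hp : p ≠ 0) : ((√(nm p) : ℝ) : ℂ) ≠ 0 ∧ (nm p : ℂ) = ((√(nm p) : ℝ) : ℂ) ^ 2 := by
  refine ⟨Complex.ofReal_ne_zero.2 (Real.sqrt_pos.2 (nm_pos hp)).ne', ?_⟩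
  rw [← Complex.ofReal_pow, Real.sq_sqrt (nm_nonneg p)]

/-- `LL_vanish` with `Φ = Ph0`, `P = (q - X) x³` (`hc` from `psi_rhp` and `psi_H3` at `k = 0`);
`P · bb (rhp p) k = q (q EX · bb k - (q + 1) bb (k p³))` by `psi_H3`; `tau_rel`. -/
theorem tau_cube (hp : Prime p) (h : Prim p) (k : O) : tau (k * p ^ 3) = (√(nm p) : ℝ) * tau k := by
  by_cases hk : k = 0
  · simp [hk, tau_zero]
  have p0 := hp.ne_zero
  obtain ⟨r0, hr⟩ := hka_sq p0
  set P : ℂ → ℂ := fun s => nm p * (nm p : ℂ) ^ (3 * (s - 1) / 2) - (nm p : ℂ) ^ (-(3 * (s - 1) / 2))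
    with hP
  have mP : Mod P := ((mod_const _).mul (hka_mod_pos p0)).sub (hka_mod_neg p0)
  have h2 : P (2 / 3) = 0 := by
    simp only [hP]
    rw [show (3 * (2 / 3 - 1) / 2 : ℂ) = -(1 / 2) by ring, neg_neg, cpow_neg, hka_sqrt, hr]
    field_simp
    ring
  have hv := LL_vanish (P := P) (Or.inr hp) rap_Ph0 od_Ph0 mP (by rw [h2, mul_zero]) (fun s hs => by
    have hs2 : 2 < s.re := by rw [hs]; norm_num
    obtain ⟨x, x0, q0, -, -, e3, e6, -⟩ := hka_x p0 s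
    have a1 := psi_H3 hp h 0 hs2
    rw [zero_mul, e6] at a1
    simp only [hP]
    rw [psi_rhp p 0 hs2, show (3 * (2 - s - 1) / 2 : ℂ) = -(3 * (s - 1) / 2) by ring, neg_neg,
      cpow_neg, e3]
    field_simp at a1 ⊢
    linear_combination (nm p + 1 : ℂ) * a1) hk
  have key := tau_rel (k₁ := k) (k₂ := k * p ^ 3) (k₃ := k)
    (E₁ := fun s => (nm p : ℂ) ^ 2 * EX p s) (E₂ := fun _ => -(nm p * (nm p + 1)))
    (E₃ := fun _ => 0) ((mod_const _).mul (mod_EX p0)) (mod_const _) (mod_const _)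
    (fun s => by simp only [ev_EX p s]) (fun _ => rfl) (fun _ => rfl) (by
      refine Eq.trans (VI_congr fun s hs => ?_) hv
      have hs2 : 2 < s.re := by rw [hs]; norm_num
      obtain ⟨x, x0, q0, ej, -, e3, e6, -⟩ := hka_x p0 s
      have a1 := psi_H3 hp h k hs2
      rw [e6] at a1
      rw [bb_mul, ej, a1]
      simp only [MM, bb, hP, EX]
      rw [psi_rhp p k hs2, cpow_neg, e3]
      field_simp
      ring)
  rw [EX_two_thirds p0, hr] at key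
  have q1 : ((√(nm p) : ℝ) : ℂ) ^ 2 + 1 ≠ 0 := by
    rw [← hr]
    exact_mod_cast (add_pos (nm_pos p0) one_pos).ne'
  field_simp at key
  apply mul_left_cancel₀ (mul_ne_zero (pow_ne_zero 2 r0) q1)
  linear_combination -key

/-- `psi_H3` at `r p²` and `psi_H2` give `bb (r p⁵) = EX · bb (r p²)` -/
theorem tau_sq (hp : Prime p) (h : Prim p) {r : O} (hr : ¬ p ∣ r) : tau (r * p ^ 2) = 0 := by
  have p0 := hp.ne_zero
  obtain ⟨r0, -⟩ := hka_sq p0
  have key := hka_rel (k₁ := r * p ^ 2) (k₂ := r * p ^ 2 * p ^ 3) (k₃ := r) (c₂ := -1) (c₃ := 0)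
    (mod_EX p0) (ev_EX p) fun s hs => by
      obtain ⟨x, x0, q0, ej, -, e3, e6, -⟩ := hka_x p0 s
      rw [bb_mul rho (r * p ^ 2) (p ^ 3), ej, psi_H3 hp h _ hs, ← psi_H2 hp h hr hs, e6, EX, cpow_neg,
        e3, bb]
      field_simp
      ring
  rw [EX_two_thirds p0, tau_cube hp h] at key
  apply mul_left_cancel₀ (inv_ne_zero r0)
  linear_combination key

/-- `psi_H3`, `psi_H1` give `bb (r p³) = EX · bb r - (g / q) bb (r p)`; `‖g‖² = q`,
`g = (3/p) conj (r/p) √q g3 p`, `conj (3/p) = (λ/p)` -/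
theorem tau_prime (hp : Prime p) (h : Prim p) {r : O} (hr : ¬ p ∣ r) :
    tau (r * p) = cb (lam * r) p * conj (g3 p) * tau r := by
  have p0 := hp.ne_zero
  obtain ⟨r0, hq⟩ := hka_sq p0
  have key := hka_rel (k₁ := r) (k₂ := r * p) (k₃ := r * p ^ 3)
    (c₂ := -(cb 3 p * gc 1 r p / nm p)) (c₃ := -1) (mod_EX p0) (ev_EX p) fun s hs => by
      obtain ⟨x, x0, q0, ej, e1, e3, e6, es⟩ := hka_x p0 s
      rw [bb_mul rho r (p ^ 3), bb_mul rho r p, ej, e1, psi_H3 hp h _ hs, ← psi_H1 hp h hr hs, e6, es,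
        EX, cpow_neg, e3, bb]
      field_simp
      ring
  have c3 : cb 3 p = conj (cb lam p) := by
    rw [conj_cb, ← cb_pow_left lam p two_ne_zero, lam_sq, cb_neg_left]
  have u1 : cb lam p * conj (cb lam p) = 1 := by
    rw [cb_mul_conj, if_pos ⟨h.coprime_three,
      (prime_lam.irreducible.coprime_iff_not_dvd).2 h.not_lam_dvd⟩]
  have u2 : cb r p * conj (cb r p) = 1 := by
    rw [cb_mul_conj, if_pos ⟨h.coprime_three, ((hp.irreducible.coprime_iff_not_dvd).2 hr).symm⟩]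
  have u3 : g3 p * conj (g3 p) = 1 := gsb_g3_conj hp.squarefree h.coprime_three
  rw [EX_two_thirds p0, tau_cube hp h, gc_sqfree hp.squarefree (by norm_num), gc_one p0, c3, hq,
    pow_one] at key
  have k2 : conj (cb lam p) * conj (cb r p) * g3 p * tau (r * p) = tau r := by
    field_simp at key
    linear_combination -key
  rw [cb_mul_left, ← k2]
  calc tau (r * p) = (cb lam p * conj (cb lam p)) * (cb r p * conj (cb r p)) *
        (g3 p * conj (g3 p)) * tau (r * p) := by rw [u1, u2, u3]; ring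
    _ = _ := by ring

/-- `psi_Hlam` -/
theorem tau_lam {k : O} (hk : lam ^ 3 ∣ k) :
    tau (k * lam ^ 6) = ((√3 : ℝ) + ((√3 : ℝ) : ℂ)⁻¹) * tau (k * lam ^ 3) - tau k := by
  have key := hka_rel (k₁ := k * lam ^ 3) (k₂ := k) (k₃ := k * lam ^ 6) (c₂ := -1) (c₃ := -1)
    (mod_EX lam_ne_zero) (ev_EX lam) fun s hs => by
      obtain ⟨x, x0, q0, ej, -, e3, e6, -⟩ := hka_x lam_ne_zero s
      rw [bb_mul rho k (lam ^ 3), bb_mul rho k (lam ^ 6), ej, ej, psi_Hlam hk hs, e6, EX, cpow_neg,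
        e3, bb]
      field_simp
      ring
  rw [EX_two_thirds lam_ne_zero, nm_lam] at key
  linear_combination -key

/-- `Prim.induction_coprime`; exponents modulo `3`; `tau0_mul`, `tau0_pow_three_mul…` -/
theorem tau_shape {ζ : O} (hζ : IsUnit ζ) (i : ℕ) {n : O} (hn : Prim n) :
    tau (ζ * lam ^ i * n) = tau (ζ * lam ^ i) * cb (ζ * lam ^ (i + 1)) n * tau0 n := by
  refine hn.induction_coprime
    (P := fun n => tau (ζ * lam ^ i * n) = tau (ζ * lam ^ i) * cb (ζ * lam ^ (i + 1)) n * tau0 n)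
    (by simp) fun p k m hp h hm hpm ih => ?_
  have hpl : ∀ j : ℕ, ¬ p ∣ ζ * lam ^ j := by
    intro j hd
    rcases hp.dvd_or_dvd hd with h1 | h1
    · exact hp.not_isUnit (isUnit_of_dvd_unit h1 hζ)
    · have h2 := hp.dvd_of_dvd_pow h1
      exact h.not_lam_dvd (cub_dvd_of_dvd hp prime_lam h2)
  have hr : ¬ p ∣ ζ * lam ^ i * m := fun hd => (hp.dvd_or_dvd hd).elim (hpl i) hpm
  have hcop : IsCoprime (ζ * lam ^ (i + 1)) p :=
    ((hp.irreducible.coprime_iff_not_dvd).2 (hpl (i + 1))).symm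
  have hpm' : IsCoprime p m := (hp.irreducible.coprime_iff_not_dvd).2 hpm
  have key : ∀ j : ℕ, tau (ζ * lam ^ i * (p ^ j * m)) =
      tau (ζ * lam ^ i) * cb (ζ * lam ^ (i + 1)) (p ^ j * m) * tau0 (p ^ j * m) := by
    intro j
    induction j using Nat.strong_induction_on with
    | _ j ihj =>
      rcases j with _ | _ | _ | j
      · simpa using ih
      · have e : ζ * lam ^ i * (p ^ (0 + 1) * m) = ζ * lam ^ i * m * p := by ring
        have e2 : lam * (ζ * lam ^ i * m) = ζ * lam ^ (i + 1) * m := by ring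
        rw [e, tau_prime hp h hr, ih, e2, zero_add, pow_one, cb_mul_left _ m p, cb_mul_right _ p m,
          tau0_mul h hm hpm', tau0_sqfree h hp.squarefree, cb_recip hm h]
        ring
      · have e : ζ * lam ^ i * (p ^ (0 + 1 + 1) * m) = ζ * lam ^ i * m * p ^ 2 := by ring
        have := tau0_prime_sq hp hpm 0
        rw [e, tau_sq hp h hr, show 0 + 1 + 1 = 3 * 0 + 2 by rfl, this, mul_zero]
      · have e : ζ * lam ^ i * (p ^ (j + 1 + 1 + 1) * m) = ζ * lam ^ i * (p ^ j * m) * p ^ 3 := by ring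
        have e2 : p ^ (j + 1 + 1 + 1) * m = p ^ j * m * p ^ 3 := by ring
        rw [e, tau_cube hp h, ihj j (by omega), e2, tau0_mul_cube _ h, cb_mul_right _ _ (p ^ 3),
          cb_pow_right _ p 3, cub_cube h hcop]
        ring
  exact key (k + 1)

/-- `u_{j+2} = (a + a⁻¹) u_{j+1} - u_j`, `a > 1` ⇒ `‖u_j‖ ≤ C a^j` -/
theorem rec_bound {a : ℝ} (ha : 1 < a) {u : ℕ → ℂ}
    (h : ∀ j, u (j + 2) = (a + (a : ℂ)⁻¹) * u (j + 1) - u j) : ∃ C : ℝ, ∀ j, ‖u j‖ ≤ C * a ^ j := by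
  have ha0 : (0 : ℝ) < a := by linarith
  have ha0' : (a : ℂ) ≠ 0 := by exact_mod_cast ha0.ne'
  have hv : ∀ j, u (j + 1) - (a : ℂ)⁻¹ * u j = (a : ℂ) ^ j * (u 1 - (a : ℂ)⁻¹ * u 0) := by
    intro j
    induction j with
    | zero => simp
    | succ j ih =>
      rw [pow_succ' (a : ℂ) j, mul_assoc, ← ih, h j]
      field_simp
      ring
  have hw : ∀ j, u (j + 1) - (a : ℂ) * u j = ((a : ℂ)⁻¹) ^ j * (u 1 - (a : ℂ) * u 0) := by
    intro j
    induction j with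
    | zero => simp
    | succ j ih =>
      rw [pow_succ' ((a : ℂ)⁻¹) j, mul_assoc, ← ih, h j]
      field_simp
      ring
  have hd : 0 < a - a⁻¹ := by
    have : a⁻¹ < 1 := inv_lt_one_of_one_lt₀ ha
    linarith
  refine ⟨(‖u 1 - (a : ℂ)⁻¹ * u 0‖ + ‖u 1 - (a : ℂ) * u 0‖) / (a - a⁻¹), fun j => ?_⟩
  have e : ((a - a⁻¹ : ℝ) : ℂ) * u j =
      (a : ℂ) ^ j * (u 1 - (a : ℂ)⁻¹ * u 0) - ((a : ℂ)⁻¹) ^ j * (u 1 - (a : ℂ) * u 0) := by
    rw [← hv j, ← hw j]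
    push_cast
    ring
  have h1 : (a - a⁻¹) * ‖u j‖ ≤ (‖u 1 - (a : ℂ)⁻¹ * u 0‖ + ‖u 1 - (a : ℂ) * u 0‖) * a ^ j := by
    have h2 := congrArg norm e
    rw [norm_mul, Complex.norm_real, Real.norm_of_nonneg hd.le] at h2
    rw [h2]
    refine (norm_sub_le _ _).trans ?_
    rw [norm_mul, norm_mul, norm_pow, norm_pow, norm_inv, Complex.norm_real, Real.norm_of_nonneg ha0.le]
    have h3 : a⁻¹ ^ j ≤ a ^ j := pow_le_pow_left₀ (by positivity) (by linarith) j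
    have h4 := mul_le_mul_of_nonneg_right h3 (norm_nonneg (u 1 - (a : ℂ) * u 0))
    linarith
  rw [div_mul_eq_mul_div, le_div_iff₀ hd]
  linarith

theorem hkb_unit (ζ : O) : ∃ C : ℝ, 0 ≤ C ∧ ∀ i : ℕ, ‖tau (ζ * lam ^ i)‖ ≤ C * ((3 : ℝ) ^ i) ^ (1 / 6 : ℝ) := by
  have h3 : (1 : ℝ) < √3 := by
    rw [show (1 : ℝ) = √1 by simp]
    exact Real.sqrt_lt_sqrt (by norm_num) (by norm_num)
  have hc : ∀ c : ℕ, ∃ C : ℝ, 0 ≤ C ∧ ∀ j : ℕ, ‖tau (ζ * lam ^ (c + 3 + 3 * j))‖ ≤ C * √3 ^ j := by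
    intro c
    obtain ⟨C, hC⟩ := rec_bound h3 (u := fun j => tau (ζ * lam ^ (c + 3 + 3 * j))) fun j => by
      have := tau_lam (k := ζ * lam ^ (c + 3 + 3 * j)) ⟨ζ * lam ^ (c + 3 * j), by ring⟩
      have e1 : ζ * lam ^ (c + 3 + 3 * (j + 2)) = ζ * lam ^ (c + 3 + 3 * j) * lam ^ 6 := by ring
      have e2 : ζ * lam ^ (c + 3 + 3 * (j + 1)) = ζ * lam ^ (c + 3 + 3 * j) * lam ^ 3 := by ring
      rw [e1, e2]
      exact this
    refine ⟨max C 0, le_max_right _ _, fun j => (hC j).trans ?_⟩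
    exact mul_le_mul_of_nonneg_right (le_max_left _ _) (by positivity)
  choose C hC0 hC using hc
  have hone : ∀ i : ℕ, (1 : ℝ) ≤ ((3 : ℝ) ^ i) ^ (1 / 6 : ℝ) := fun i =>
    Real.one_le_rpow (one_le_pow₀ (by norm_num)) (by norm_num)
  have hs : ∀ c j : ℕ, √3 ^ j ≤ ((3 : ℝ) ^ (c + 3 + 3 * j)) ^ (1 / 6 : ℝ) := by
    intro c j
    have e : √3 ^ j = ((3 : ℝ) ^ (3 * j)) ^ (1 / 6 : ℝ) := by
      rw [Real.sqrt_eq_rpow, ← Real.rpow_natCast, ← Real.rpow_natCast, ← Real.rpow_mul (by norm_num),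
        ← Real.rpow_mul (by norm_num)]
      congr 1
      push_cast
      ring
    rw [e]
    exact Real.rpow_le_rpow (by positivity) (pow_le_pow_right₀ (by norm_num) (by omega)) (by norm_num)
  refine ⟨∑ c ∈ Finset.range 3, (C c + ‖tau (ζ * lam ^ c)‖),
    Finset.sum_nonneg fun c _ => add_nonneg (hC0 c) (norm_nonneg _), fun i => ?_⟩
  have hle : ∀ c < 3, C c + ‖tau (ζ * lam ^ c)‖ ≤ ∑ c ∈ Finset.range 3, (C c + ‖tau (ζ * lam ^ c)‖) :=
    fun c hc => Finset.single_le_sum (f := fun c => C c + ‖tau (ζ * lam ^ c)‖)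
      (fun c _ => add_nonneg (hC0 c) (norm_nonneg _)) (Finset.mem_range.2 hc)
  rcases lt_or_ge i 3 with hi | hi
  · have h1 := hle i hi
    have h2 := hone i
    have h4 := hC0 i
    have h5 := norm_nonneg (tau (ζ * lam ^ i))
    nlinarith
  · obtain ⟨c, j, hc, rfl⟩ : ∃ c j, c < 3 ∧ i = c + 3 + 3 * j :=
      ⟨i % 3, i / 3 - 1, Nat.mod_lt _ (by norm_num), by omega⟩
    refine (hC c j).trans (mul_le_mul ?_ (hs c j) (by positivity) ?_)
    · exact (le_add_of_nonneg_right (norm_nonneg _)).trans (hle c hc)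
    · exact (add_nonneg (hC0 c) (norm_nonneg _)).trans (hle c hc)

/-- finitely many units and classes of `i mod 3`; `norm_tau0_le` -/
theorem tau_bound : ∃ C : ℝ, ∀ n : O, ‖tau n‖ ≤ C * nm n ^ (1 / 6 : ℝ) := by
  choose C hC0 hC using hkb_unit
  refine ⟨∑ j ∈ Finset.range 6, C (zt ^ j), fun n => ?_⟩
  have hS : 0 ≤ ∑ j ∈ Finset.range 6, C (zt ^ j) := Finset.sum_nonneg fun j _ => hC0 _
  rcases eq_or_ne n 0 with rfl | hn
  · rw [D.tau_zero, norm_zero]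
    exact mul_nonneg hS (Real.rpow_nonneg (nm_nonneg _) _)
  obtain ⟨ζ, i, m, hζ, hm, rfl⟩ := exists_decomp hn
  obtain ⟨j, hj, rfl⟩ := isUnit_iff.1 hζ
  have h1 : C (zt ^ j) ≤ ∑ j ∈ Finset.range 6, C (zt ^ j) :=
    Finset.single_le_sum (f := fun j => C (zt ^ j)) (fun j _ => hC0 _) (Finset.mem_range.2 hj)
  rw [tau_shape hζ i hm, norm_mul, norm_mul, nm_mul, nm_mul, nm_unit hζ, one_mul, nm_pow, nm_lam,
    Real.mul_rpow (by positivity) (nm_nonneg _), ← mul_assoc]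
  refine mul_le_mul ?_ (norm_tau0_le m) (norm_nonneg _) (by positivity)
  calc _ ≤ ‖tau (zt ^ j * lam ^ i)‖ * 1 := mul_le_mul_of_nonneg_left (norm_cb_le _ _) (norm_nonneg _)
    _ ≤ C (zt ^ j) * ((3 : ℝ) ^ i) ^ (1 / 6 : ℝ) := by rw [mul_one]; exact hC _ i
    _ ≤ _ := mul_le_mul_of_nonneg_right h1 (by positivity)

end Crest.Agent.R17.D
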