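import Crest.Agent.R17.D.Sums

/-! Row 17, block D (owner helper53): local identities of the Dirichlet series `psi`. -/

set_option autoImplicit false

namespace Crest.Agent.R17.D

open Complex MeasureTheory Filter Set
open scoped Real Topology ComplexConjugate

open Classical in
theorem hsa_step {p : O} (hp : p ≠ 0) {f : O → ℂ} (hf : Summable f) :
    ∑' c, f c = ∑' c, (if p ∣ c then 0 else f c) + ∑' c, f (p * c) := by
  have h1 : ∀ (P : O → Prop) [DecidablePred P], Summable fun c => if P c then f c else 0 :=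
    fun P _ => hf.norm.of_norm_bounded fun c => by split_ifs <;> simp
  have h2 : Summable fun c => if p ∣ c then 0 else f c := by
    simpa only [ite_not] using h1 fun c => ¬ p ∣ c
  rw [← tsum_dvd hp, ← h2.tsum_add (h1 _)]
  exact tsum_congr fun c => by split_ifs <;> simp

open Classical in
/-- splitting a sum over `c` by the `p`-adic valuation `< k` or `≥ k` (`tsum_dvd`, induction) -/
theorem tsum_val {p : O} (hp : p ≠ 0) {f : O → ℂ} (hf : Summable f) (k : ℕ) :
    ∑' c, f c = ∑ j ∈ Finset.range k, ∑' c, (if p ∣ c then 0 else f (p ^ j * c)) +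
      ∑' c, f (p ^ k * c) := by
  induction k with
  | zero => simp
  | succ k ih =>
    rw [ih, Finset.sum_range_succ, add_assoc, hsa_step hp (f := fun c => f (p ^ k * c))
      (hf.comp_injective (mul_right_injective₀ (pow_ne_zero k hp)))]
    simp only [pow_succ, mul_assoc]

variable {p : O} {s : ℂ}

theorem hsa_gc (hp : Prime p) {j : ℕ} (hj : ¬ 3 ∣ j) {m : O} (hm : p ∣ m) : gc j m p = 0 := by
  rw [gc_sqfree hp.squarefree hj, cb_eq_zero_of_not_coprime fun h =>
    hp.not_isUnit (h.isUnit_of_dvd' hm dvd_rfl), map_zero, zero_pow (by rintro rfl; simp at hj),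
    zero_mul]

theorem hsa_XX (hp : p ≠ 0) (s : ℂ) :
    XX p s = (nm p : ℂ) ^ 3 * ((nm (p ^ 3) : ℝ) : ℂ) ^ (-s) := by
  have h0 : (nm p : ℂ) ≠ 0 := ofReal_ne_zero.2 (nm_pos hp).ne'
  have h1 : ((nm (p ^ 3) : ℝ) : ℂ) ^ (-s) = (nm p : ℂ) ^ (-(3 * s)) := by
    rw [show -(3 * s) = -s + -s + -s by ring, cpow_add _ _ h0, cpow_add _ _ h0, pow_three', nm_mul,
      nm_mul, ofReal_mul, mul_cpow_ofReal_nonneg (mul_nonneg (nm_nonneg _) (nm_nonneg _))
        (nm_nonneg _), ofReal_mul, mul_cpow_ofReal_nonneg (nm_nonneg _) (nm_nonneg _)]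
  rw [XX, h1, sub_eq_add_neg, cpow_add _ _ h0, cpow_ofNat]

/-- the valuations `1`, `2` do not contribute if `p² ∣ n` -/
theorem hsa_split (hp : Prime p) (h : Prim p) {n : O} (hn : p ^ 2 ∣ n) (hs : 2 < s.re) :
    psi rho n s = psi (rnd p) n s +
      ((nm (p ^ 3) : ℝ) : ℂ) ^ (-s) * ∑' c, SG rho (p ^ 3 * c) n * (nm c : ℂ) ^ (-s) := by
  classical
  obtain ⟨m, rfl⟩ := hn
  have h1 : ∑' c, (if p ∣ c then 0 else
      SG rho (p ^ 1 * c) (p ^ 2 * m) * (nm (p ^ 1 * c) : ℂ) ^ (-s)) = 0 := by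
    refine (tsum_congr fun c => ?_).trans tsum_zero
    split_ifs with hc
    · rfl
    · rw [pow_one, SG_crt h (hp.irreducible.coprime_iff_not_dvd.2 hc),
        hsa_gc hp (by norm_num) ((dvd_pow_self p two_ne_zero).mul_right m)]
      simp
  have h2 : ∑' c, (if p ∣ c then 0 else
      SG rho (p ^ 2 * c) (p ^ 2 * m) * (nm (p ^ 2 * c) : ℂ) ^ (-s)) = 0 := by
    refine (tsum_congr fun c => ?_).trans tsum_zero
    split_ifs with hc
    · rfl
    · have e : gc 1 (p ^ 2 * m) (p ^ 2) = 0 := by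
        rw [show p ^ 2 * m = p ^ 1 * (p * m) by ring, gc_pow_succ 1 1 _ hp.ne_zero,
          hsa_gc hp (by norm_num) (dvd_mul_right p m), mul_zero]
      rw [SG_crt (h.pow 2) (hp.irreducible.coprime_iff_not_dvd.2 hc).pow_left, e]
      simp
  rw [psi, DD, tsum_val hp.ne_zero (wt_rho.summable _ hs) 3, Finset.sum_range_succ,
    Finset.sum_range_succ, Finset.sum_range_one, h1, h2, add_zero, add_zero, ← tsum_mul_left]
  congr 1
  · refine tsum_congr fun c => ?_
    simp only [SG_rnd, pow_zero, one_mul, ite_mul, zero_mul]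
  · refine tsum_congr fun c => ?_
    rw [nm_mul, ofReal_mul, mul_cpow_ofReal_nonneg (nm_nonneg _) (nm_nonneg _)]
    ring

/-- (H3) `tsum_val` with `k = 3`; `j = 0`: `SG_mul_cube`; `j = 1, 2`: `SG_crt` and `gc` vanishes;
`SG_cube`. -/
theorem psi_H3 (hp : Prime p) (h : Prim p) (k : O) (hs : 2 < s.re) :
    psi rho (k * p ^ 3) s = XX p s * psi rho k s + (1 - XX p s / nm p) * psi (rnd p) k s := by
  have h0 : (nm p : ℂ) ≠ 0 := ofReal_ne_zero.2 (nm_pos hp.ne_zero).ne'
  have h1 : psi (rnd p) (k * p ^ 3) s = psi (rnd p) k s := by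
    refine tsum_congr fun c => ?_
    simp only [SG_rnd]
    split_ifs with hc
    · rfl
    · rw [SG_mul_cube h (hp.irreducible.coprime_iff_not_dvd.2 hc)]
  have h2 : ∑' c, SG rho (p ^ 3 * c) (k * p ^ 3) * (nm c : ℂ) ^ (-s) =
      (nm p : ℂ) ^ 3 * psi rho k s - (nm p : ℂ) ^ 2 * psi (rnd p) k s := by
    rw [psi, psi, DD, DD, ← tsum_mul_left, ← tsum_mul_left, ← Summable.tsum_sub
      ((wt_rho.summable _ hs).mul_left _) ((wt_rnd.summable _ hs).mul_left _)]
    refine tsum_congr fun c => ?_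
    rw [SG_cube hp h, SG_rnd]
    split_ifs <;> ring
  rw [hsa_split hp h ((pow_dvd_pow p (by norm_num)).mul_left k) hs, h1, h2, hsa_XX hp.ne_zero]
  field_simp
  ring

/-- (H2) -/
theorem psi_H2 (hp : Prime p) (h : Prim p) {r : O} (hr : ¬ p ∣ r) (hs : 2 < s.re) :
    psi rho (r * p ^ 2) s = (1 - XX p s / nm p) * psi (rnd p) (r * p ^ 2) s := by
  have h0 : (nm p : ℂ) ≠ 0 := ofReal_ne_zero.2 (nm_pos hp.ne_zero).ne'
  have h2 : ∑' c, SG rho (p ^ 3 * c) (r * p ^ 2) * (nm c : ℂ) ^ (-s) =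
      -(nm p : ℂ) ^ 2 * psi (rnd p) (r * p ^ 2) s := by
    rw [psi, DD, ← tsum_mul_left]
    refine tsum_congr fun c => ?_
    rw [SG_cube_sq hp h hr, SG_rnd]
    split_ifs <;> ring
  rw [hsa_split hp h (dvd_mul_left _ r) hs, h2, hsa_XX hp.ne_zero]
  field_simp
  ring

private theorem hb_cpow (a c : O) (s : ℂ) :
    (nm (a * c) : ℂ) ^ s = (nm a : ℂ) ^ s * (nm c : ℂ) ^ s := by
  rw [nm_mul, Complex.ofReal_mul, Complex.mul_cpow_ofReal_nonneg (nm_nonneg a) (nm_nonneg c)]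

private theorem hb_cpow_pow (a : O) (k : ℕ) (s : ℂ) :
    (nm (a ^ k) : ℂ) ^ s = ((nm a : ℂ) ^ s) ^ k := by
  induction k with
  | zero => simp
  | succ k ih => rw [pow_succ, hb_cpow, ih, pow_succ]

private theorem hb_XX {p : O} (hp : p ≠ 0) (s : ℂ) :
    XX p s = (nm p : ℂ) ^ 3 * ((nm p : ℂ) ^ (-s)) ^ 3 := by
  have h0 : (nm p : ℂ) ≠ 0 := Complex.ofReal_ne_zero.2 (nm_pos hp).ne'
  rw [XX, show (3 - 3 * s : ℂ) = ((3 : ℕ) : ℂ) + ((3 : ℕ) : ℂ) * (-s) by push_cast; ring,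
    Complex.cpow_add _ _ h0, Complex.cpow_natCast, Complex.cpow_nat_mul]

open Classical in
private theorem hb_rnd (p k : O) (s : ℂ) : psi (rnd p) k s =
    ∑' c, if p ∣ c then 0 else SG rho c k * (nm c : ℂ) ^ (-s) := by
  simp only [psi, DD, SG_rnd, ite_mul, zero_mul]

private theorem hb_vanish (hp : Prime p) (h : Prim p) {r : O} (hr : ¬ p ∣ r) (c : O) :
    SG rho (p ^ 3 * c) (r * p) = 0 := by
  rcases eq_or_ne c 0 with rfl | hc
  · simp [SG]
  obtain ⟨i, c', hc', rfl⟩ := WfDvdMonoid.max_power_factor' hc hp.not_isUnit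
  have hcop : IsCoprime (p ^ (2 + i + 1)) c' :=
    ((Prime.coprime_iff_not_dvd hp).2 hc').pow_left
  rw [show p ^ 3 * (p ^ i * c') = p ^ (2 + i + 1) * c' by ring, SG_crt (h.pow _) hcop,
    gc_pow_succ_zero 1 (2 + i) hp.ne_zero, mul_zero, zero_mul]
  intro hd
  apply hr
  have h2 : p * p ∣ r * p := (show p * p ∣ p ^ (2 + i) from ⟨p ^ i, by ring⟩).trans hd
  exact (mul_dvd_mul_iff_right hp.ne_zero).1 h2

/-- (H1) with `g = (3/p) G(r, p)`, `y = q^{-s}`, `a_j = psi (rnd p) (r p^j)`: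
`psi r = a₀ + g y a₁` (`SG_crt`, `SG_mul_arg`, `SG_eq_zero_of_dvd`),
`psi (r p) = a₁ + q conj g y² a₀` (`gc_pow_succ`, `conj_gc`, `gc_pow_succ_zero`), `g conj g = q`. -/
theorem psi_H1 (hp : Prime p) (h : Prim p) {r : O} (hr : ¬ p ∣ r) (hs : 2 < s.re) :
    psi rho r s - cb 3 p * gc 1 r p * (nm p : ℂ) ^ (-s) * psi rho (r * p) s =
      (1 - XX p s / nm p) * psi (rnd p) r s := by
  classical
  have h3 : IsCoprime p 3 := h.coprime_three
  have hq0 : (nm p : ℂ) ≠ 0 := Complex.ofReal_ne_zero.2 (nm_pos hp.ne_zero).ne'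
  set y : ℂ := (nm p : ℂ) ^ (-s) with hy
  set g : ℂ := cb 3 p * gc 1 r p with hg
  have hcop : ∀ c, ¬ p ∣ c → IsCoprime p c := fun c hc => (Prime.coprime_iff_not_dvd hp).2 hc
  have harg : ∀ c, ¬ p ∣ c → SG rho c (r * p) = cb c p ^ 2 * SG rho c r := by
    intro c hc
    rw [mul_comm r p, SG_mul_arg h (hcop c hc), conj_cb]
  have hgg : g * conj g = nm p := by
    rw [Complex.mul_conj, Complex.normSq_eq_norm_sq, hg, norm_mul, norm_cb h3 h3.symm,
      gc_sqfree hp.squarefree (by norm_num), norm_mul, norm_pow, Complex.norm_conj,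
      norm_cb h3 (hcop r hr).symm, norm_gc hp.squarefree h3 (by norm_num), one_pow, one_mul, one_mul,
      Real.sq_sqrt (nm_nonneg p)]
  have e1 : psi rho r s = psi (rnd p) r s + g * y * psi (rnd p) (r * p) s := by
    have := tsum_val hp.ne_zero (wt_rho.summable r hs) 2
    rw [psi, DD, this, Finset.sum_range_succ, Finset.sum_range_one, hb_rnd, hb_rnd, ← tsum_mul_left]
    have h0 : ∀ c, SG rho (p ^ 2 * c) r * (nm (p ^ 2 * c) : ℂ) ^ (-s) = 0 := by
      intro c
      rw [pow_two, mul_assoc, SG_eq_zero_of_dvd h (dvd_mul_right p c) hr, zero_mul]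
    simp only [h0, tsum_zero, add_zero, pow_zero, one_mul, pow_one]
    congr 1
    refine tsum_congr fun c => ?_
    split_ifs with hc
    · rw [mul_zero]
    · rw [SG_crt h (hcop c hc), harg c hc, hb_cpow, hg, ← hy]
      ring
  have e2 : psi rho (r * p) s =
      psi (rnd p) (r * p) s + nm p * conj g * y ^ 2 * psi (rnd p) r s := by
    have := tsum_val hp.ne_zero (wt_rho.summable (r * p) hs) 3
    rw [psi, DD, this, Finset.sum_range_succ, Finset.sum_range_succ, Finset.sum_range_one, hb_rnd,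
      hb_rnd, ← tsum_mul_left]
    have h1 : ∀ c, (if p ∣ c then 0 else SG rho (p * c) (r * p) * (nm (p * c) : ℂ) ^ (-s)) = 0 := by
      intro c
      split_ifs with hc
      · rfl
      · rw [SG_crt h (hcop c hc), gc_sqfree hp.squarefree (by norm_num),
          cb_eq_zero_of_not_coprime (u := r * p) fun h' =>
            hp.not_isUnit (isCoprime_self.1 h'.of_mul_left_right)]
        simp
    simp only [hb_vanish hp h hr, zero_mul, tsum_zero, add_zero, pow_zero, one_mul, pow_one, h1]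
    congr 1
    refine tsum_congr fun c => ?_
    split_ifs with hc
    · rw [mul_zero]
    · have h6 : cb c p ^ 3 = 1 := by rw [cb_pow_three, if_pos ⟨h3, (hcop c hc).symm⟩]
      have hgc : gc 1 (r * p) (p ^ 2) = nm p * conj (gc 1 r p) := by
        have := gc_pow_succ 1 1 r hp.ne_zero
        rw [pow_one, pow_one, mul_comm p r] at this
        rw [conj_gc 1 r hp.ne_zero]
        exact this
      rw [SG_crt (h.pow 2) (hcop c hc).pow_left, harg c hc, hb_cpow, hb_cpow_pow, ← hy, hgc, hg,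
        map_mul, conj_cb, cb_pow_right, cb_pow_right]
      linear_combination (cb 3 p ^ 2 * (nm p * conj (gc 1 r p)) * SG rho c r * y ^ 2 *
        (nm c : ℂ) ^ (-s) * (cb c p ^ 3 + 1)) * h6
  rw [e1, e2, hb_XX hp.ne_zero, ← hy]
  field_simp
  linear_combination (-(nm p : ℂ) * y ^ 3 * psi (rnd p) r s) * hgg

/-- (Hλ) `tsum_val` at `λ` with `k = 5` for `psi (n λ³)` and `k = 2` for `psi n`:
`psi (n λ³) - X psi n = ∑_{j<5} (…)(n λ³) - X ∑_{j<2} (…)(n)` (`SG_lam_cube`), and the right side is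
the same for `n = k` and `n = k λ³` (`SG_lam_inv`). -/
theorem psi_Hlam {k : O} (hk : lam ^ 3 ∣ k) (hs : 2 < s.re) :
    psi rho (k * lam ^ 6) s = (1 + XX lam s) * psi rho (k * lam ^ 3) s - XX lam s * psi rho k s := by
  classical
  set T : ℕ → O → ℂ := fun j m =>
    ∑' c, if lam ∣ c then 0 else SG rho (lam ^ j * c) m * (nm (lam ^ j * c) : ℂ) ^ (-s) with hT
  have key : ∀ n : O, psi rho (n * lam ^ 3) s - XX lam s * psi rho n s =
      ∑ j ∈ Finset.range 5, T j (n * lam ^ 3) - XX lam s * ∑ j ∈ Finset.range 2, T j n := by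
    intro n
    have h1 := tsum_val lam_ne_zero (wt_rho.summable (n * lam ^ 3) hs) 5
    have h2 := tsum_val lam_ne_zero (wt_rho.summable n hs) 2
    have h3 : ∑' c, SG rho (lam ^ 5 * c) (n * lam ^ 3) * (nm (lam ^ 5 * c) : ℂ) ^ (-s) =
        XX lam s * ∑' c, SG rho (lam ^ 2 * c) n * (nm (lam ^ 2 * c) : ℂ) ^ (-s) := by
      rw [← tsum_mul_left]
      refine tsum_congr fun c => ?_
      have hd : (3 : O) ∣ lam ^ 2 * c := by
        rw [lam_sq]
        exact ((dvd_refl 3).neg_right).mul_right c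
      rw [show lam ^ 5 * c = lam ^ 3 * (lam ^ 2 * c) by ring, SG_lam_cube hd, hb_cpow (lam ^ 3),
        hb_cpow_pow, hb_XX lam_ne_zero, nm_lam]
      push_cast
      ring
    rw [psi, psi, DD, DD, h1, h2, h3]
    ring
  have hinv : ∀ (j : ℕ) (m : O), lam ^ (j + 2) ∣ m → T j (m * lam ^ 3) = T j m := by
    intro j m hm
    refine tsum_congr fun c => ?_
    split_ifs with hc
    · rfl
    · rw [SG_lam_inv hc hm]
  have h1 := key (k * lam ^ 3)
  have h2 := key k
  have h5 : ∑ j ∈ Finset.range 5, T j (k * lam ^ 3 * lam ^ 3) =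
      ∑ j ∈ Finset.range 5, T j (k * lam ^ 3) := by
    refine Finset.sum_congr rfl fun j hj => hinv j _ ?_
    have : lam ^ 6 ∣ k * lam ^ 3 := by
      rw [show lam ^ 6 = lam ^ 3 * lam ^ 3 by ring]
      exact mul_dvd_mul_right hk _
    exact (pow_dvd_pow lam (by rw [Finset.mem_range] at hj; omega)).trans this
  have h6 : ∑ j ∈ Finset.range 2, T j (k * lam ^ 3) = ∑ j ∈ Finset.range 2, T j k :=
    Finset.sum_congr rfl fun j hj =>
      hinv j _ ((pow_dvd_pow lam (by rw [Finset.mem_range] at hj; omega)).trans hk)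
  rw [h5, h6, ← h2, show k * lam ^ 3 * lam ^ 3 = k * lam ^ 6 by ring] at h1
  linear_combination h1

end Crest.Agent.R17.D
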