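import Crest.Agent.R17.D.Van
import Crest.Agent.R17.D.Const
import Crest.Agent.R17.D.HeckeS

/-! Row 17, block D (owner helper53): the functionals `LL` are multiples of evaluation at `2/3`. -/

set_option autoImplicit false

namespace Crest.Agent.R17.D

open Complex MeasureTheory Filter Set
open scoped Real Topology ComplexConjugate

variable {p : O} {Φ P : ℂ → ℂ}

/-- `expand`, `const_term`, `four_const` ⇒ hypothesis of `vanish`; then `four_zero` -/
theorem AA_vanish (hp : p = 1 ∨ Prime p) (h : Rap Φ) (h1 : Φ 1 = 0) (h2 : Φ (2 / 3) = 0)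
    (hc : ∀ s : ℂ, s.re = 6 → Φ s * psi (rhp p) 0 s = -nm p * Φ (2 - s) * psi rho 0 s) {k : O}
    (hk : k ≠ 0) : ∀ᵐ v ∂(volume.restrict (Ioi (0 : ℝ))), AA (rhp p) (MM Φ) k v = 0 := by
  have hM := h.vInt_MM
  have hχ := wt_rhp p
  obtain ⟨C₁, hC₁⟩ := FQ_bdd h h1 h2
  obtain ⟨C₂, hC₂⟩ := norm_FQ_le hM 0
  have hF : Prof (FQ 0 (MM Φ)) (max C₁ C₂) := by
    refine ⟨continuousOn_FQ hM 0, fun Q hQ => (hC₁ Q hQ).trans (le_max_left _ _),
      fun Q hQ => (hC₂ Q hQ).trans ?_⟩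
    have e : Q ^ (-6 - ((0 : ℕ) : ℝ)) = Q⁻¹ ^ 6 := by
      rw [Nat.cast_zero, sub_zero, Real.rpow_neg hQ.le, inv_pow]
      norm_cast
    rw [e]
    gcongr
    exact le_max_right _ _
  have hE : ∀ v : ℝ, 0 < v → ∀ z, EE (rhp p) (FQ 0 (MM Φ)) (Qf z v) =
      2 * (nm p : ℂ) * FQ 0 (MM Φ) v⁻¹ +
        ∑' h : O, AA (rhp p) (MM Φ) h v * eC (sg h * z / 3) := fun v hv z => by
    rw [← EG_zero _ _ true, expand hχ hM true 0 hv z]
    simp only [pow_zero, one_mul, if_true]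
  have hs : ∀ v : ℝ, 0 < v → Summable fun h : O => ‖AA (rhp p) (MM Φ) h v‖ := fun v hv => by
    simpa only [pow_zero, one_mul] using AA_summable hχ hM true 0 hv
  have h0 := vanish hp hF fun v hv => by
    simp only [hE v hv]
    rw [four_const (hs v hv) fun h hh => AA_eq_zero hχ _ hh v, const_term h h1 hc hv, h2]
    simp
  filter_upwards [h0, ae_restrict_mem measurableSet_Ioi] with v hv0 hv
  simp only [hE v hv] at hv0
  exact (four_zero (hs v hv) (fun h hh => AA_eq_zero hχ _ hh v) hv0).2 k hk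

/-- the divisor -/
noncomputable def klG (s : ℂ) : ℂ := (Gamma ((6 + s) / 2))⁻¹ * (Gamma ((8 - s) / 2))⁻¹

theorem klG_mod : Mod klG := by
  have h := (mod_inv_Gamma (1 / 2) 3).mul (mod_inv_Gamma (-1 / 2) 4)
  convert h using 2 with s
  unfold klG
  congr 3 <;> push_cast <;> ring

theorem klG_ev : Ev klG := fun s => by
  unfold klG
  rw [mul_comm]
  congr 3 <;> ring

theorem klG_mul {s : ℂ} (hs : s.re = 6) :
    klG s * (Gamma ((6 + s) / 2) * Gamma ((8 - s) / 2)) = 1 := by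
  have h1 : Gamma ((6 + s) / 2) ≠ 0 := Gamma_ne_zero_of_re_pos (by simp [hs])
  have h2 : Gamma ((8 - s) / 2) ≠ 0 := Gamma_ne_zero_of_re_pos (by simp [hs]; norm_num)
  unfold klG
  field_simp

/-- apply `AA_vanish` to `Φ P / (Γ((6+s)/2) Γ((8-s)/2))` (the divisor is even, `mod_inv_Gamma`),
then `AA_eq_LL` and `kill` -/
theorem LL_vanish (hp : p = 1 ∨ Prime p) (h : Rap Φ) (ho : Od Φ) (hP : Mod P)
    (h2 : Φ (2 / 3) * P (2 / 3) = 0)
    (hc : ∀ s : ℂ, s.re = 6 → P s * psi (rhp p) 0 s = nm p * P (2 - s) * psi rho 0 s) {k : O}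
    (hk : k ≠ 0) : LL (rhp p) k (fun s => Φ s * P s) = 0 := by
  have hΨ : Rap fun s => Φ s * P s * klG s := (h.mul hP).mul klG_mod
  have hB : 0 < √(bt * nm k) := Real.sqrt_pos.2 (mul_pos bt_pos (nm_pos hk))
  have h0 := AA_vanish hp hΨ (by rw [ho.one, zero_mul, zero_mul]) (by rw [h2, zero_mul])
    (fun s hs => by
      rw [ho s, klG_ev s]
      linear_combination Φ s * klG s * hc s hs) hk
  have h1 := kill (vInt_LL (wt_rhp p) k hΨ) hB (by
    filter_upwards [h0, ae_restrict_mem measurableSet_Ioi] with v hv0 hv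
    rw [AA_eq_LL _ hk _ hv] at hv0
    rw [← (mul_eq_zero.1 hv0).resolve_left (ofReal_ne_zero.2 (ne_of_gt hv))]
    refine VI_congr fun s _ => ?_
    simp only [MM]
    ring)
  rw [← h1]
  refine VI_congr fun s hs => ?_
  simp only [MM]
  linear_combination (-(Φ s * P s * xi (3 * s - 2) * (Gamma s)⁻¹ * bb (rhp p) k s)) * klG_mul hs

theorem LL_zero (χ : O → O → ℂ) (Φ : ℂ → ℂ) : LL χ 0 Φ = 0 := by
  have h : LL χ 0 Φ = VI 6 fun _ => 0 := VI_congr fun s hs => by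
    have h1 : (s - 1) / 2 ≠ 0 := fun h => by
      have := congrArg re h
      simp [hs] at this
      norm_num at this
    simp only [bb, nm_zero, mul_zero, ofReal_zero, zero_cpow h1]
  rw [h]
  simp [VI]

/-- `LL_vanish` with `p = 1`, `P = 1` for `Φ - Φ(2/3) Ph0` -/
theorem LL_rho (h : Rap Φ) (ho : Od Φ) (k : O) : LL rho k Φ = tau k * Φ (2 / 3) := by
  by_cases hk : k = 0
  · rw [hk, tau, LL_zero, LL_zero, zero_mul]
  have h1 : Rap fun s => Φ s - Ph0 s * Φ (2 / 3) := h.sub (rap_Ph0.mul (mod_const _))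
  have h2 : Od fun s => Φ s - Ph0 s * Φ (2 / 3) := fun s => by
    simp only [ho s, od_Ph0 s]
    ring
  have h3 := LL_vanish (P := fun _ => 1) (Or.inl rfl) h1 h2 (mod_const 1)
    (by simp only [Ph0_two_thirds]; ring) (fun s _ => by rw [rhp_one]; simp) hk
  rw [rhp_one] at h3
  have h4 : LL rho k (fun s => (Φ s - Ph0 s * Φ (2 / 3)) * 1) =
      LL rho k Φ - Φ (2 / 3) * LL rho k Ph0 := by
    have i : VInt 6 fun s => Φ (2 / 3) * (MM Ph0 s * bb rho k s) :=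
      (vInt_LL wt_rho k rap_Ph0).const_mul _
    rw [LL, LL, LL, ← VI_const_mul, ← VI_sub (vInt_LL wt_rho k h) i]
    refine VI_congr fun s _ => ?_
    simp only [MM]
    ring
  rw [tau]
  linear_combination h3 - h4

theorem AA_rho (h : Rap Φ) (ho : Od Φ) {k : O} (hk : k ≠ 0) {v : ℝ} (hv : 0 < v) :
    AA rho (MM Φ) k v = Φ (2 / 3) * tau k * JJ k v := by
  have hx : 0 < v * √(bt * nm k) := mul_pos hv (Real.sqrt_pos.2 (mul_pos bt_pos (nm_pos hk)))
  have he : Ev fun s => KB (s - 1) (v * √(bt * nm k)) := fun s => by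
    show KB (2 - s - 1) _ = KB (s - 1) _
    rw [← KB_neg (s - 1)]
    congr 1
    ring
  rw [AA_eq_LL rho hk Φ hv, LL_rho (h.mul (mod_KB hx)) (ho.mul he), JJ, ← KB_neg (1 / 3),
    show (2 / 3 - 1 : ℂ) = -(1 / 3) by norm_num]
  ring

/-- relations with even coefficients pass to `tau` -/
theorem tau_rel {k₁ k₂ k₃ : O} {E₁ E₂ E₃ : ℂ → ℂ} (m₁ : Mod E₁) (m₂ : Mod E₂) (m₃ : Mod E₃)
    (e₁ : Ev E₁) (e₂ : Ev E₂) (e₃ : Ev E₃)
    (h : VI 6 (fun s => MM Ph0 s *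
      (E₁ s * bb rho k₁ s + E₂ s * bb rho k₂ s + E₃ s * bb rho k₃ s)) = 0) :
    E₁ (2 / 3) * tau k₁ + E₂ (2 / 3) * tau k₂ + E₃ (2 / 3) * tau k₃ = 0 := by
  have k : ∀ (k : O) {E : ℂ → ℂ}, Mod E → Ev E →
      VInt 6 (fun s => MM (fun s => Ph0 s * E s) s * bb rho k s) ∧
      VI 6 (fun s => MM (fun s => Ph0 s * E s) s * bb rho k s) = E (2 / 3) * tau k :=
    fun k E m e => ⟨vInt_LL wt_rho k (rap_Ph0.mul m), by
      have := LL_rho (rap_Ph0.mul m) (od_Ph0.mul e) k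
      rw [Ph0_two_thirds, one_mul, mul_comm] at this
      exact this⟩
  obtain ⟨i₁, v₁⟩ := k k₁ m₁ e₁
  obtain ⟨i₂, v₂⟩ := k k₂ m₂ e₂
  obtain ⟨i₃, v₃⟩ := k k₃ m₃ e₃
  have i₄ : VInt 6 fun s => MM (fun s => Ph0 s * E₁ s) s * bb rho k₁ s +
      MM (fun s => Ph0 s * E₂ s) s * bb rho k₂ s := i₁.add i₂
  rw [← v₁, ← v₂, ← v₃, ← VI_add i₁ i₂, ← VI_add i₄ i₃, ← h]
  refine VI_congr fun s _ => ?_
  simp only [MM]
  ring

theorem tau_zero : tau 0 = 0 := LL_zero _ _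

theorem tau_neg (k : O) : tau (-k) = tau k := by
  simp only [tau, LL, bb, psi_rho_neg, nm_neg]

theorem tau_eq_zero {k : O} (hk : ¬ Rt k) : tau k = 0 := by
  simp only [tau, LL, bb, VI, wt_rho.psi_eq_zero hk, mul_zero, zero_mul, integral_zero]

end Crest.Agent.R17.D
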