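import Crest.Agent.R17.D.Defs

/-! Row 17, block D (owner helper53): lattice sums. -/

set_option autoImplicit false

namespace Crest.Agent.R17.D

open Complex MeasureTheory Filter Set
open scoped Real Topology ComplexConjugate

/-- `poisson_shift` and `tsum_gw_le`: the shifted Gaussian sum is at most the unshifted one. -/
theorem gauss_le {t : ℝ} (ht : 0 < t) (x : ℂ) :
    Summable (fun d : O => Real.exp (-(t * ‖x + sg d‖ ^ 2))) ∧
      ∑' d : O, Real.exp (-(t * ‖x + sg d‖ ^ 2)) ≤ 11 + 4 / t := by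
  have hc := poa_c_bounds
  set K : ℝ := 2 * π / √3 / t with hK
  have hK0 : 0 < K := by positivity
  constructor
  · refine Summable.of_nonneg_of_le (fun d => (Real.exp_pos _).le) (fun d => ?_)
      ((summable_gw (K := 2 * K) (by positivity)).mul_left (Real.exp (t * ‖x‖ ^ 2)))
    have e : 2 * π / √3 / (2 * K) = t / 2 := by rw [hK]; field_simp
    rw [poa_gw_eq, ← Real.exp_add, Real.exp_le_exp, e, nm_eq]
    have h1 : ‖sg d‖ ≤ ‖x + sg d‖ + ‖x‖ := by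
      have := norm_sub_le (x + sg d) x
      rwa [add_sub_cancel_left] at this
    have h2 : ‖sg d‖ ^ 2 ≤ 2 * ‖x + sg d‖ ^ 2 + 2 * ‖x‖ ^ 2 := by
      nlinarith [norm_nonneg (sg d), sq_nonneg (‖x + sg d‖ - ‖x‖)]
    nlinarith
  · have h := poisson_shift hK0 x
    have e : ∀ d : O, 2 * π * ‖sg d + x‖ ^ 2 / (√3 * K) = t * ‖x + sg d‖ ^ 2 := fun d => by
      rw [hK, add_comm x]; field_simp
    simp only [e] at h
    rw [← Complex.ofReal_tsum] at h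
    have h1 := congrArg norm h
    rw [Complex.norm_real, norm_mul, Complex.norm_real, Real.norm_of_nonneg hK0.le] at h1
    have h2 : ‖∑' h : O, eC (sg h * x) * gw K⁻¹ h‖ ≤ 1 + 11 * K⁻¹ := by
      refine (tsum_of_norm_bounded (summable_gw (inv_pos.2 hK0)).hasSum fun h => ?_).trans
        (tsum_gw_le (inv_pos.2 hK0))
      rw [norm_mul, norm_eC, one_mul, Complex.norm_real, Real.norm_of_nonneg (gw_pos _ _).le]
    calc _ ≤ _ := Real.le_norm_self _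
      _ ≤ K * (1 + 11 * K⁻¹) := by rw [h1]; gcongr
      _ = 11 + K := by field_simp; ring
      _ ≤ 11 + 4 / t := by rw [hK]; gcongr; exact hc.2

theorem lata_int {a r : ℝ} (ha : 0 < a) (hr : 0 < r) :
    IntegrableOn (fun t : ℝ => t ^ (a - 1) * Real.exp (-(r * t))) (Ioi 0) ∧
      ∫ t in Ioi (0 : ℝ), t ^ (a - 1) * Real.exp (-(r * t)) = r ^ (-a) * Real.Gamma a := by
  have h := Real.integral_rpow_mul_exp_neg_mul_Ioi ha hr
  rw [one_div, Real.inv_rpow hr.le, ← Real.rpow_neg hr.le] at h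
  refine ⟨Integrable.of_integral_ne_zero ?_, h⟩
  rw [h]
  exact (mul_pos (Real.rpow_pos_of_pos hr _) (Real.Gamma_pos_of_pos ha)).ne'

/-- `Γ(σ) Q^{-σ} = ∫ t^{σ-1} e^{-t Q} dt` and `gauss_le` (bound finite partial sums). -/
theorem lat {σ : ℝ} (hσ : 1 < σ) : ∃ C : ℝ, 0 < C ∧ ∀ (x : ℂ) (y : ℝ), 0 < y →
    Summable (fun d : O => (‖x + sg d‖ ^ 2 + y ^ 2) ^ (-σ)) ∧
      ∑' d : O, (‖x + sg d‖ ^ 2 + y ^ 2) ^ (-σ) ≤ C * (y ^ (2 - 2 * σ) + y ^ (-2 * σ)) := by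
  have hσ0 : 0 < σ := by linarith
  have hσ1 : 0 < σ - 1 := by linarith
  have hG := Real.Gamma_pos_of_pos hσ0
  have hG1 := Real.Gamma_pos_of_pos hσ1
  refine ⟨11 + 4 * Real.Gamma (σ - 1) / Real.Gamma σ, by positivity, fun x y hy => ?_⟩
  have hy2 : 0 < y ^ 2 := by positivity
  have hQ : ∀ d : O, 0 < ‖x + sg d‖ ^ 2 + y ^ 2 := fun d => by positivity
  have key : ∀ A : Finset O, ∑ d ∈ A, (‖x + sg d‖ ^ 2 + y ^ 2) ^ (-σ) ≤
      (11 + 4 * Real.Gamma (σ - 1) / Real.Gamma σ) * (y ^ (2 - 2 * σ) + y ^ (-2 * σ)) := by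
    intro A
    obtain ⟨i1, e1⟩ := lata_int hσ0 hy2
    obtain ⟨i2, e2⟩ := lata_int hσ1 hy2
    have h1 : (∑ d ∈ A, (‖x + sg d‖ ^ 2 + y ^ 2) ^ (-σ)) * Real.Gamma σ ≤
        11 * ((y ^ 2) ^ (-σ) * Real.Gamma σ) + 4 * ((y ^ 2) ^ (-(σ - 1)) * Real.Gamma (σ - 1)) := by
      rw [Finset.sum_mul, ← e1, ← e2, ← integral_const_mul, ← integral_const_mul,
        ← integral_add (i1.const_mul _) (i2.const_mul _),
        Finset.sum_congr rfl fun d _ => (lata_int hσ0 (hQ d)).2.symm,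
        ← integral_finsetSum _ fun d _ => (lata_int hσ0 (hQ d)).1]
      refine setIntegral_mono_on (integrable_finsetSum _ fun d _ => (lata_int hσ0 (hQ d)).1)
        ((i1.const_mul _).add (i2.const_mul _)) measurableSet_Ioi fun t ht => ?_
      have ht0 : 0 < t := ht
      obtain ⟨g1, g2⟩ := gauss_le ht0 x
      have g3 := (g1.sum_le_tsum A fun d _ => (Real.exp_pos _).le).trans g2
      calc ∑ d ∈ A, t ^ (σ - 1) * Real.exp (-((‖x + sg d‖ ^ 2 + y ^ 2) * t))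
          = t ^ (σ - 1) * Real.exp (-(y ^ 2 * t)) * ∑ d ∈ A, Real.exp (-(t * ‖x + sg d‖ ^ 2)) := by
            rw [Finset.mul_sum]
            refine Finset.sum_congr rfl fun d _ => ?_
            rw [mul_assoc, ← Real.exp_add]
            congr 2
            ring
        _ ≤ t ^ (σ - 1) * Real.exp (-(y ^ 2 * t)) * (11 + 4 / t) := by gcongr
        _ = _ := by
            rw [Real.rpow_sub_one ht0.ne' (σ - 1)]
            ring
    have e3 : (y ^ 2) ^ (-σ) = y ^ (-2 * σ) := by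
      rw [← Real.rpow_two, ← Real.rpow_mul hy.le]; congr 1; ring
    have e4 : (y ^ 2) ^ (-(σ - 1)) = y ^ (2 - 2 * σ) := by
      rw [← Real.rpow_two, ← Real.rpow_mul hy.le]; congr 1; ring
    rw [e3, e4, ← le_div_iff₀ hG] at h1
    refine h1.trans ?_
    have p1 : 0 < y ^ (-2 * σ) := Real.rpow_pos_of_pos hy _
    have p2 : 0 < y ^ (2 - 2 * σ) := Real.rpow_pos_of_pos hy _
    have p3 : 0 < 4 * Real.Gamma (σ - 1) / Real.Gamma σ := by positivity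
    calc _ = 11 * y ^ (-2 * σ) + 4 * Real.Gamma (σ - 1) / Real.Gamma σ * y ^ (2 - 2 * σ) := by
          field_simp
      _ ≤ _ := by nlinarith [mul_pos p3 p1]
  exact ⟨summable_of_sum_le (fun d => Real.rpow_nonneg (hQ d).le _) key,
    Real.tsum_le_of_sum_le (fun d => Real.rpow_nonneg (hQ d).le _) key⟩

theorem Qf_nonneg (z : ℂ) {v : ℝ} (hv : 0 < v) (x y : ℂ) : 0 ≤ Qf z v x y := by
  unfold Qf
  positivity

theorem Qf_pos (z : ℂ) {v : ℝ} (hv : 0 < v) {x y : ℂ} (h : x ≠ 0 ∨ y ≠ 0) : 0 < Qf z v x y := by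
  unfold Qf
  by_cases hx : x = 0
  · have hy : 0 < ‖y‖ := norm_pos_iff.2 (h.resolve_left fun h' => h' hx)
    rw [hx, zero_mul, zero_add]
    positivity
  · have hx' : 0 < ‖x‖ := norm_pos_iff.2 hx
    positivity

theorem Qf_zero_left (z : ℂ) (v : ℝ) (y : ℂ) : Qf z v 0 y = ‖y‖ ^ 2 / v := by
  simp [Qf]

theorem Qf_add (z b : ℂ) (v : ℝ) (x y : ℂ) : Qf (z + b) v x y = Qf z v x (x * b + y) := by
  unfold Qf
  rw [mul_add, add_assoc]

/-- a positive definite form dominates a multiple of the standard one -/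
theorem Qf_ge (z : ℂ) {v : ℝ} (hv : 0 < v) :
    ∃ c : ℝ, 0 < c ∧ ∀ x y : ℂ, c * (‖x‖ ^ 2 + ‖y‖ ^ 2) ≤ Qf z v x y := by
  refine ⟨v / (2 * v ^ 2 + 2 * ‖z‖ ^ 2 + 1) / 1, by positivity, fun x y => ?_⟩
  unfold Qf
  have h1 : ‖y‖ ≤ ‖x * z + y‖ + ‖x‖ * ‖z‖ := by
    have := norm_sub_le (x * z + y) (x * z)
    rwa [add_sub_cancel_left, norm_mul] at this
  have h2 : ‖y‖ ^ 2 ≤ 2 * ‖x * z + y‖ ^ 2 + 2 * (‖x‖ * ‖z‖) ^ 2 := by
    have := pow_le_pow_left₀ (norm_nonneg _) h1 2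
    nlinarith [sq_nonneg (‖x * z + y‖ - ‖x‖ * ‖z‖)]
  rw [div_one, div_mul_eq_mul_div, div_le_div_iff₀ (by positivity) hv]
  have h3 := mul_le_mul_of_nonneg_left h2 (sq_nonneg v)
  have h4 : 0 ≤ ‖x * z + y‖ ^ 2 * (2 * ‖z‖ ^ 2 + 1) := by positivity
  have h5 : 0 ≤ ‖x‖ ^ 2 * v ^ 2 * (2 * v ^ 2) := by positivity
  nlinarith

theorem latb_term (z : ℂ) {v : ℝ} (hv : 0 < v) {c : O} (hc : c ≠ 0) (d : O) :
    (Qf z v (sg c) (sg d))⁻¹ ^ 3 =
      v ^ 3 * (‖sg c * z + sg d‖ ^ 2 + (‖sg c‖ * v) ^ 2) ^ (-(3 : ℝ)) := by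
  have hc' : 0 < ‖sg c‖ := norm_pos_iff.2 fun h => hc (sg_eq_zero.1 h)
  rw [Real.rpow_neg (by positivity), Real.rpow_ofNat, Qf, inv_div, div_pow, mul_pow,
    div_eq_mul_inv]

theorem latb_bound {v : ℝ} (hv : 0 < v) {c : O} (hc : c ≠ 0) :
    v ^ 3 * ((‖sg c‖ * v) ^ (2 - 2 * (3 : ℝ)) + (‖sg c‖ * v) ^ (-2 * (3 : ℝ))) ≤
      (v⁻¹ + v⁻¹ ^ 3) * nm c ^ (-(2 : ℝ)) := by
  have hc' : 0 < ‖sg c‖ := norm_pos_iff.2 fun h => hc (sg_eq_zero.1 h)
  have h1 := one_le_nm hc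
  have e1 : (2 - 2 * (3 : ℝ)) = -(4 : ℝ) := by norm_num
  have e2 : (-2 * (3 : ℝ)) = -(6 : ℝ) := by norm_num
  rw [e1, e2, Real.rpow_neg (by positivity), Real.rpow_neg (by positivity),
    Real.rpow_neg (nm_nonneg c), Real.rpow_ofNat, Real.rpow_ofNat, Real.rpow_ofNat]
  have e3 : (‖sg c‖ * v) ^ 4 = nm c ^ 2 * v ^ 4 := by rw [nm_eq]; ring
  have e4 : (‖sg c‖ * v) ^ 6 = nm c ^ 3 * v ^ 6 := by rw [nm_eq]; ring
  have h2 : (nm c)⁻¹ ≤ 1 := inv_le_one_of_one_le₀ h1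
  have h0 : 0 < nm c := by linarith
  have e5 : v ^ 3 * ((nm c ^ 2 * v ^ 4)⁻¹ + (nm c ^ 3 * v ^ 6)⁻¹) =
      (v⁻¹ + v⁻¹ ^ 3 * (nm c)⁻¹) * (nm c ^ 2)⁻¹ := by
    field_simp
  rw [e3, e4, e5]
  gcongr
  exact mul_le_of_le_one_right (by positivity) h2

open Classical in
/-- majorant: `lat` with `x = c z`, `y = ‖c‖ v`, then `summable_nm_rpow` -/
theorem maj : ∃ C : ℝ, 0 < C ∧ ∀ (z : ℂ) (v : ℝ), 0 < v →
    Summable (fun r : O × O => if r.1 = 0 then 0 else (Qf z v (sg r.1) (sg r.2))⁻¹ ^ 3) ∧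
      ∑' r : O × O, (if r.1 = 0 then 0 else (Qf z v (sg r.1) (sg r.2))⁻¹ ^ 3) ≤
        C * (v⁻¹ + v⁻¹ ^ 3) := by
  obtain ⟨C, hC, h⟩ := lat (σ := 3) (by norm_num)
  have hZ := summable_nm_rpow (σ := 2) (by norm_num)
  have hZ0 : 0 ≤ ∑' n : O, nm n ^ (-(2 : ℝ)) :=
    tsum_nonneg fun n => Real.rpow_nonneg (nm_nonneg n) _
  refine ⟨C * (∑' n : O, nm n ^ (-(2 : ℝ)) + 1), by positivity, fun z v hv => ?_⟩
  have key : ∀ c : O,
      Summable (fun d : O => if c = 0 then 0 else (Qf z v (sg c) (sg d))⁻¹ ^ 3) ∧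
        ∑' d : O, (if c = 0 then 0 else (Qf z v (sg c) (sg d))⁻¹ ^ 3) ≤
          C * (v⁻¹ + v⁻¹ ^ 3) * nm c ^ (-(2 : ℝ)) := by
    intro c
    by_cases hc : c = 0
    · simp only [if_pos hc, tsum_zero]
      have := Real.rpow_nonneg (nm_nonneg c) (-(2 : ℝ))
      exact ⟨summable_zero, by positivity⟩
    · have hc' : 0 < ‖sg c‖ := norm_pos_iff.2 fun h => hc (sg_eq_zero.1 h)
      obtain ⟨h1, h2⟩ := h (sg c * z) (‖sg c‖ * v) (by positivity)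
      simp only [if_neg hc, latb_term z hv hc]
      refine ⟨h1.mul_left _, ?_⟩
      rw [tsum_mul_left, mul_assoc C]
      refine (mul_le_mul_of_nonneg_left h2 (by positivity)).trans ?_
      rw [mul_left_comm]
      exact mul_le_mul_of_nonneg_left (latb_bound hv hc) hC.le
  have hnn : ∀ r : O × O, 0 ≤ (if r.1 = 0 then 0 else (Qf z v (sg r.1) (sg r.2))⁻¹ ^ 3) := by
    intro r
    have := Qf_nonneg z hv (sg r.1) (sg r.2)
    split_ifs
    · exact le_rfl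
    · positivity
  have hs2 : Summable fun c : O =>
      ∑' d : O, (if c = 0 then 0 else (Qf z v (sg c) (sg d))⁻¹ ^ 3) :=
    Summable.of_nonneg_of_le (fun c => tsum_nonneg fun d => hnn (c, d)) (fun c => (key c).2)
      (hZ.mul_left _)
  have hs : Summable
      (fun r : O × O => if r.1 = 0 then 0 else (Qf z v (sg r.1) (sg r.2))⁻¹ ^ 3) :=
    (summable_prod_of_nonneg hnn).2 ⟨fun c => (key c).1, hs2⟩
  refine ⟨hs, ?_⟩
  rw [hs.tsum_prod]
  refine (hs2.tsum_le_tsum (fun c => (key c).2) (hZ.mul_left _)).trans ?_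
  rw [tsum_mul_left]
  have : 0 ≤ C * (v⁻¹ + v⁻¹ ^ 3) := by positivity
  nlinarith

/-- `‖kk‖ ≤ v^σ (‖y‖² + v²)^{-σ - l/2}` and `lat` -/
theorem kk_bound (b : Bool) (l : ℕ) {v σ : ℝ} (hv : 0 < v) (hσ : 1 < σ) : ∃ C : ℝ,
    ∀ z s : ℂ, s.re = σ → Summable (fun m : O => ‖kk b l v s (z + 3 * sg m)‖) ∧
      ∑' m : O, ‖kk b l v s (z + 3 * sg m)‖ ≤ C := by
  obtain ⟨C, hC, h⟩ := lat hσ
  refine ⟨(2 * v)⁻¹ ^ l * (9 / v) ^ (-σ) * (C * ((v / 3) ^ (2 - 2 * σ) + (v / 3) ^ (-2 * σ))),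
    fun z s hs => ?_⟩
  obtain ⟨h1, h2⟩ := h (z / 3) (v / 3) (by positivity)
  have hb : ∀ m : O, ‖kk b l v s (z + 3 * sg m)‖ ≤
      (2 * v)⁻¹ ^ l * (9 / v) ^ (-σ) * (‖z / 3 + sg m‖ ^ 2 + (v / 3) ^ 2) ^ (-σ) := fun m => by
    set y : ℂ := z + 3 * sg m with hy
    have hQ : 0 < (‖y‖ ^ 2 + v ^ 2) / v := by positivity
    have e1 : (‖y‖ ^ 2 + v ^ 2) / v = 9 / v * (‖z / 3 + sg m‖ ^ 2 + (v / 3) ^ 2) := by
      rw [show y = 3 * (z / 3 + sg m) by rw [hy]; ring, norm_mul, Complex.norm_ofNat]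
      ring
    have e2 : ‖pw b y‖ = ‖y‖ := by
      unfold pw
      split_ifs
      · rfl
      · exact Complex.norm_conj y
    have e3 : (-s - l).re = -σ - l := by simp [hs]
    have e4 : ‖y‖ / v ≤ (2 * v)⁻¹ * ((‖y‖ ^ 2 + v ^ 2) / v) := by
      rw [← mul_div_assoc]
      gcongr
      rw [le_inv_mul_iff₀ (by positivity)]
      nlinarith [sq_nonneg (‖y‖ - v)]
    rw [kk, norm_mul, norm_pow, norm_div, e2, Complex.norm_real, Real.norm_of_nonneg hv.le,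
      Complex.norm_cpow_eq_rpow_re_of_pos hQ, e3, Real.rpow_sub hQ, Real.rpow_natCast, mul_assoc,
      ← Real.mul_rpow (by positivity) (by positivity), ← e1]
    calc (‖y‖ / v) ^ l * (((‖y‖ ^ 2 + v ^ 2) / v) ^ (-σ) / ((‖y‖ ^ 2 + v ^ 2) / v) ^ l)
        ≤ ((2 * v)⁻¹ * ((‖y‖ ^ 2 + v ^ 2) / v)) ^ l *
          (((‖y‖ ^ 2 + v ^ 2) / v) ^ (-σ) / ((‖y‖ ^ 2 + v ^ 2) / v) ^ l) := by gcongr
      _ = _ := by
        rw [mul_pow, mul_assoc, mul_div_cancel₀ _ (pow_pos hQ l).ne']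
  have hs' := Summable.of_nonneg_of_le (fun _ => norm_nonneg _) hb (h1.mul_left _)
  refine ⟨hs', (hs'.tsum_le_tsum hb (h1.mul_left _)).trans ?_⟩
  rw [tsum_mul_left]
  gcongr

theorem latb_one : Summable fun n : O => (1 + nm n) ^ (-(5 / 4 : ℝ)) := by
  classical
  have h1 := summable_nm_rpow (σ := 5 / 4) (by norm_num)
  refine Summable.of_nonneg_of_le (fun n => Real.rpow_nonneg (by linarith [nm_nonneg n]) _)
    (fun n => ?_) (h1.add (hasSum_ite_eq (0 : O) (1 : ℝ)).summable)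
  by_cases hn : n = 0
  · have := Real.rpow_nonneg (nm_nonneg n) (-(5 / 4 : ℝ))
    rw [if_pos hn]
    have h2 : (1 + nm n) ^ (-(5 / 4 : ℝ)) = 1 := by rw [hn, nm_zero, add_zero, Real.one_rpow]
    linarith
  · rw [if_neg hn, add_zero]
    exact Real.rpow_le_rpow_of_nonpos (nm_pos hn) (by linarith) (by norm_num)

theorem latb_four {a b c d : ℝ} (ha : 0 ≤ a) (hb : 0 ≤ b) (hc : 0 ≤ c) (hd : 0 ≤ d)
    (h : 1 ≤ a + b + c + d) : (a + b + c + d)⁻¹ ^ 5 ≤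
      32 * ((1 + a) ^ (-(5 / 4 : ℝ)) * (1 + b) ^ (-(5 / 4 : ℝ)) *
        ((1 + c) ^ (-(5 / 4 : ℝ)) * (1 + d) ^ (-(5 / 4 : ℝ)))) := by
  set t := a + b + c + d with ht
  have h0 : 0 < 2 * t := by linarith
  have key : ∀ x : ℝ, 0 ≤ x → x ≤ t → (2 * t) ^ (-(5 / 4 : ℝ)) ≤ (1 + x) ^ (-(5 / 4 : ℝ)) :=
    fun x hx hxt => Real.rpow_le_rpow_of_nonpos (by linarith) (by linarith) (by norm_num)
  have h1 : t⁻¹ ^ 5 = 32 * ((2 * t) ^ (-(5 / 4 : ℝ)) * (2 * t) ^ (-(5 / 4 : ℝ)) *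
      ((2 * t) ^ (-(5 / 4 : ℝ)) * (2 * t) ^ (-(5 / 4 : ℝ)))) := by
    rw [← Real.rpow_add h0, ← Real.rpow_add h0]
    have e : (-(5 / 4 : ℝ) + -(5 / 4) + (-(5 / 4) + -(5 / 4))) = -(5 : ℝ) := by norm_num
    rw [e, Real.rpow_neg h0.le, Real.rpow_ofNat]
    have : t ≠ 0 := by linarith
    field_simp
    norm_num
  have h2 : 0 ≤ (2 * t) ^ (-(5 / 4 : ℝ)) := Real.rpow_nonneg h0.le _
  have ka := key a ha (by linarith)
  have kb := key b hb (by linarith)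
  have kc := key c hc (by linarith)
  have kd := key d hd (by linarith)
  rw [h1]
  gcongr
  all_goals first | assumption | exact h2.trans ka | exact h2.trans kc | positivity

/-- four-fold lattice sum, for the partition of unity: `(a + b)^{-5} ≤ …` by AM-GM, each factor
`(1 + nm)^{-5/4}`-summable (`summable_nm_rpow`); note the sum of norms is `≥ 1` or the term is `0`. -/
theorem summable_four :
    Summable fun r : (O × O) × (O × O) => (nm r.1.1 + nm r.1.2 + nm r.2.1 + nm r.2.2)⁻¹ ^ 5 := by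
  have h0 : ∀ n : O, 0 ≤ (1 + nm n) ^ (-(5 / 4 : ℝ)) :=
    fun n => Real.rpow_nonneg (by linarith [nm_nonneg n]) _
  have h1 := latb_one.mul_of_nonneg latb_one h0 h0
  have h2 : ∀ r : O × O, 0 ≤ (1 + nm r.1) ^ (-(5 / 4 : ℝ)) * (1 + nm r.2) ^ (-(5 / 4 : ℝ)) :=
    fun r => mul_nonneg (h0 _) (h0 _)
  have h3 := (h1.mul_of_nonneg h1 h2 h2).mul_left 32
  refine Summable.of_nonneg_of_le (fun r => ?_) (fun r => ?_) h3
  · have := nm_nonneg r.1.1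
    have := nm_nonneg r.1.2
    have := nm_nonneg r.2.1
    have := nm_nonneg r.2.2
    positivity
  · have a1 := nm_nonneg r.1.1
    have a2 := nm_nonneg r.1.2
    have a3 := nm_nonneg r.2.1
    have a4 := nm_nonneg r.2.2
    by_cases h : 1 ≤ nm r.1.1 + nm r.1.2 + nm r.2.1 + nm r.2.2
    · exact latb_four a1 a2 a3 a4 h
    · have hz : ∀ n : O, nm n < 1 → nm n = 0 := fun n hn => by
        by_contra h'
        exact absurd (one_le_nm fun h'' => h' (nm_eq_zero.2 h'')) (not_le.2 hn)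
      have e : nm r.1.1 + nm r.1.2 + nm r.2.1 + nm r.2.2 = 0 := by
        rw [hz r.1.1 (by linarith), hz r.1.2 (by linarith), hz r.2.1 (by linarith),
          hz r.2.2 (by linarith)]
        norm_num
      rw [e, inv_zero, zero_pow (by norm_num)]
      exact mul_nonneg (by norm_num) (mul_nonneg (h2 r.1) (h2 r.2))

end Crest.Agent.R17.D
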