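import Crest.Agent.R17.D.Pois
import Crest.Agent.R17.D.Bessel

/-! Row 17, block D (owner helper53): the Lipschitz formula. -/

set_option autoImplicit false

namespace Crest.Agent.R17.D

open Complex MeasureTheory Filter Set
open scoped Real Topology ComplexConjugate

theorem lip_norm_pw (b : Bool) (y : ℂ) : ‖pw b y‖ = ‖y‖ := by
  cases b <;> simp [pw]

theorem lip_int_norm (s : ℂ) (h : O) (v : ℝ) :
    ∫ T in Ioi (0 : ℝ), ‖(T : ℂ) ^ (s - 1 - 1) • (Real.exp (-(v * (T + bt * nm h / T))) : ℂ)‖ ≤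
      ‖ww s.re h v‖ := by
  have e : ww s.re h v = ((∫ T in Ioi (0 : ℝ),
      ‖(T : ℂ) ^ (s - 1 - 1) • (Real.exp (-(v * (T + bt * nm h / T))) : ℂ)‖ : ℝ) : ℂ) := by
    rw [ww, mellin, ← integral_complex_ofReal]
    refine setIntegral_congr_fun measurableSet_Ioi fun T hT => ?_
    have hT : 0 < T := hT
    simp only [smul_eq_mul]
    rw [norm_mul, norm_real, Real.norm_eq_abs, Real.abs_exp, norm_cpow_eq_rpow_re_of_pos hT, ofReal_mul,
      ofReal_cpow hT.le]
    simp
  rw [e, norm_real, Real.norm_eq_abs]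
  exact le_abs_self _

theorem lip_summable (b : Bool) (l : ℕ) {v : ℝ} (hv : 0 < v) (s z : ℂ) :
    Summable fun h : O => qw b h ^ l * eC (sg h * z / 3) * ww s h v := by
  refine (ww_summable b l s.re hv).of_norm_bounded fun h => ?_
  rw [norm_mul, norm_mul, norm_eC, mul_one, norm_pow]
  exact mul_le_mul_of_nonneg_left (norm_ww_le s h v) (by positivity)

/-- `Γ(s + l) Q^{-s-l} = ∫ T^{s+l-1} e^{-T Q} dT` with `Q = (‖y‖² + v²)/v`; swap sum and integral
(`kk_bound`-type bound: the integral of the norm is `Γ(σ + l) ‖kk‖`), apply `pois`, swap back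
(`ww_summable`, `ww_conv`). -/
theorem lip (b : Bool) (l : ℕ) {v : ℝ} (hv : 0 < v) {s : ℂ} (hs : 1 < s.re) (z : ℂ) :
    Gamma (s + l) * ∑' m : O, kk b l v s (z + 3 * sg m) =
      k0 * v * ∑' h : O, qw b h ^ l * eC (sg h * z / 3) * ww s h v := by
  haveI : Countable O := crd.symm.injective.countable
  have hp : ∀ y : ℂ, 0 < (‖y‖ ^ 2 + v ^ 2) / v := fun y => by positivity
  obtain ⟨C, hC⟩ := kk_bound b l hv hs
  have hkk : ∀ y : ℂ, kk b l v s y =
      (pw b y / v) ^ l / (((‖y‖ ^ 2 + v ^ 2) / v : ℝ) : ℂ) ^ (s + l) := fun y => by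
    rw [kk, ← neg_add', cpow_neg, div_eq_mul_inv _ (_ ^ (s + l))]
  have h1 := hasSum_mellin (a := fun m : O => (pw b (z + 3 * sg m) / v) ^ l)
    (p := fun m : O => (‖z + 3 * sg m‖ ^ 2 + v ^ 2) / v) (s := s + l)
    (F := fun t => ∑' m : O, (pw b (z + 3 * sg m) / v) ^ l *
      (Real.exp (-((‖z + 3 * sg m‖ ^ 2 + v ^ 2) / v) * t) : ℂ))
    (fun m => .inr (hp _)) (by simp only [add_re, natCast_re]; positivity)
    (fun t ht => by
      have ht : 0 < t := ht
      refine Summable.hasSum (((pois_summable l (div_pos ht hv) z).mul_left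
        (v⁻¹ ^ l * Real.exp (-(v * t)))).of_norm_bounded fun m => le_of_eq ?_)
      rw [norm_mul, norm_pow, norm_div, lip_norm_pw, norm_real, norm_real, Real.norm_eq_abs,
        Real.norm_eq_abs, Real.abs_exp, abs_of_pos hv, mul_mul_mul_comm, ← Real.exp_add, ← mul_pow,
        div_eq_inv_mul]
      congr 2
      field_simp
      ring)
    ((hC z s rfl).1.congr fun m => by
      rw [hkk, norm_div, norm_cpow_eq_rpow_re_of_pos (hp _)])
  have h2 := hasSum_integral_of_summable_integral_norm (μ := volume.restrict (Ioi (0 : ℝ)))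
    (F := fun (h : O) (T : ℝ) => qw b h ^ l * eC (sg h * z / 3) *
      ((T : ℂ) ^ (s - 1 - 1) • (Real.exp (-(v * (T + bt * nm h / T))) : ℂ)))
    (fun h => (ww_conv hs h hv).const_mul _)
    ((ww_summable b l s.re hv).of_nonneg_of_le (fun h => integral_nonneg fun T => norm_nonneg _) fun h => by
      simp only [norm_mul (qw b h ^ l * eC (sg h * z / 3))]
      rw [integral_const_mul, norm_mul, norm_eC, mul_one, norm_pow]
      exact mul_le_mul_of_nonneg_left (lip_int_norm s h v) (by positivity))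
  simp only [integral_const_mul] at h2
  rw [← tsum_mul_left]
  simp only [hkk, ← mul_div_assoc]
  rw [h1.tsum_eq]
  simp only [mul_div_assoc] at h2 ⊢
  simp only [ww, mellin, mul_div_assoc]
  rw [h2.tsum_eq, ← integral_const_mul]
  refine setIntegral_congr_fun measurableSet_Ioi fun T hT => ?_
  have hT : 0 < T := hT
  have hT' : (T : ℂ) ≠ 0 := ofReal_ne_zero.2 hT.ne'
  have h3 := pois b l hT hv z
  simp only [mul_div_assoc] at h3
  have e1 : ∀ m : O, (T : ℂ) ^ (s + l - 1) * ((pw b (z + 3 * sg m) / v) ^ l *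
      (Real.exp (-((‖z + 3 * sg m‖ ^ 2 + v ^ 2) / v) * T) : ℂ)) =
      (T : ℂ) ^ (s - 1) * Real.exp (-(v * T)) * (((T / v : ℝ) * pw b (z + 3 * sg m)) ^ l *
        (Real.exp (-(T * (‖z + 3 * sg m‖ ^ 2 / v))) : ℂ)) := fun m => by
    have a1 : -((‖z + 3 * sg m‖ ^ 2 + v ^ 2) / v) * T = -(v * T) + -(T * (‖z + 3 * sg m‖ ^ 2 / v)) := by
      field_simp
      ring
    rw [a1, Real.exp_add, add_sub_right_comm, cpow_add _ _ hT', cpow_natCast]
    push_cast
    ring
  have e2 : ∀ h : O, qw b h ^ l * eC (sg h * (z / 3)) *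
      ((T : ℂ) ^ (s - 1 - 1) * (Real.exp (-(v * (T + bt * (nm h / T)))) : ℂ)) =
      (T : ℂ) ^ (s - 1) / T * Real.exp (-(v * T)) * (qw b h ^ l * eC (sg h * (z / 3)) *
        (Real.exp (-(v * (bt * (nm h / T)))) : ℂ)) := fun h => by
    rw [mul_add, neg_add, Real.exp_add, cpow_sub _ _ hT', cpow_one, ofReal_mul]
    ring
  simp only [smul_eq_mul]
  rw [← tsum_mul_left]
  simp only [e1, e2]
  rw [tsum_mul_left, tsum_mul_left, h3]
  push_cast
  ring

/-- the row term factors through the `c`-free kernel -/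
theorem pr_mul_Qf (b : Bool) (l : ℕ) (z : ℂ) {v : ℝ} (hv : 0 < v) {c : O} (hc : c ≠ 0) (d : O)
    (s : ℂ) :
    pr b z v (sg c) (sg d) ^ l * (Qf z v (sg c) (sg d) : ℂ) ^ (-s - l) =
      (nm c : ℂ) ^ (-s) * kk b l v s (z + sg d / sg c) := by
  have hx : sg c ≠ 0 := fun h => hc (sg_eq_zero.1 h)
  have hn : (nm c : ℂ) ≠ 0 := ofReal_ne_zero.2 (nm_pos hc).ne'
  have e0 : sg c * z + sg d = sg c * (z + sg d / sg c) := by field_simp
  have e1 : pr b z v (sg c) (sg d) = nm c * (pw b (z + sg d / sg c) / v) := by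
    rw [pr, e0, nm_eq, ofReal_pow, ← mul_conj', mul_div_assoc']
    cases b <;> simp only [pw, Bool.not_true, Bool.not_false, if_true, Bool.false_eq_true, if_false, map_mul] <;>
      ring
  have e2 : Qf z v (sg c) (sg d) = nm c * ((‖z + sg d / sg c‖ ^ 2 + v ^ 2) / v) := by
    rw [Qf, e0, norm_mul, nm_eq]
    ring
  rw [e1, e2, ofReal_mul, mul_cpow_ofReal_nonneg (nm_nonneg c) (by positivity), kk, mul_pow,
    cpow_sub _ _ hn, cpow_natCast]
  field_simp

theorem lip_tsum_le {Q : O} (hQ : Q ≠ 0) {f : O → ℝ} (h0 : ∀ n, 0 ≤ f n) {C : ℝ}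
    (h : ∀ y, Summable (fun k => f (y + Q * k)) ∧ ∑' k, f (y + Q * k) ≤ C) :
    Summable f ∧ ∑' n, f n ≤ nm Q * C := by
  have hb : Function.Bijective fun p : res Q × O => (p.1 : O) + Q * p.2 := by
    constructor
    · rintro ⟨y, z⟩ ⟨y', z'⟩ hv
      dsimp only at hv
      have h1 : (y : O) = y' := res_inj y.2 y'.2 ⟨z' - z, by linear_combination hv⟩
      have h2 : z = z' := mul_left_cancel₀ hQ (by linear_combination hv - h1)
      rw [Subtype.ext h1, h2]
    · intro a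
      obtain ⟨y, hy, w, hw⟩ := exists_res hQ a
      exact ⟨(⟨y, hy⟩, w), by linear_combination -hw⟩
  have h1 : Summable fun p : res Q × O => f ((p.1 : O) + Q * p.2) :=
    (summable_prod_of_nonneg fun p => h0 _).2 ⟨fun y => (h y).1, Summable.of_finite⟩
  refine ⟨(Equiv.ofBijective _ hb).summable_iff.1 h1, ?_⟩
  rw [← (Equiv.ofBijective _ hb).tsum_eq f]
  refine h1.tsum_prod.le.trans ?_
  rw [tsum_fintype]
  refine (Finset.sum_le_card_nsmul _ _ C fun (y : res Q) _ => (h y).2).trans_eq ?_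
  rw [Finset.card_univ, Fintype.card_coe, card_res hQ, nsmul_eq_mul, nm]

theorem lip_three : (3 : O) ≠ 0 := fun h => by
  have := congrArg sg h
  rw [map_ofNat, map_zero] at this
  norm_num at this

theorem lip_shift (z : ℂ) {c : O} (hc : c ≠ 0) (y k : O) :
    z + sg (y + 3 * c * k) / sg c = z + sg y / sg c + 3 * sg k := by
  have hx : sg c ≠ 0 := fun h => hc (sg_eq_zero.1 h)
  rw [map_add, map_mul, map_mul, map_ofNat]
  field_simp
  ring

theorem lip_row_bound (b : Bool) (l : ℕ) {v σ : ℝ} (hv : 0 < v) (hσ : 1 < σ) : ∃ C : ℝ,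
    ∀ (z s : ℂ) (c : O), s.re = σ → c ≠ 0 →
      Summable (fun d : O => ‖kk b l v s (z + sg d / sg c)‖) ∧
        ∑' d : O, ‖kk b l v s (z + sg d / sg c)‖ ≤ C * nm c := by
  obtain ⟨C, hC⟩ := kk_bound b l hv hσ
  refine ⟨nm 3 * C, fun z s c hs hc => ?_⟩
  have h := lip_tsum_le (mul_ne_zero lip_three hc)
    (f := fun d => ‖kk b l v s (z + sg d / sg c)‖) (fun _ => norm_nonneg _) (C := C) fun y => by
      simp only [lip_shift z hc]
      exact hC _ s hs
  rwa [nm_mul, mul_right_comm] at h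

/-- one value of `c`: `tsum_eq_rsum` modulo `3 c`, `lip` at `z + d₀ / c` -/
theorem lip_row {χ : O → O → ℂ} {m : ℂ} (hχ : Wt χ m) (b : Bool) (l : ℕ) {v : ℝ} (hv : 0 < v)
    {s : ℂ} (hs : 1 < s.re) (z : ℂ) {c : O} (hc : c ≠ 0) :
    Gamma (s + l) * ∑' d : O, χ c d * kk b l v s (z + sg d / sg c) =
      k0 * v * ∑' h : O, qw b h ^ l * eC (sg h * z / 3) * ww s h v * SG χ c h := by
  have hx : sg c ≠ 0 := fun h => hc (sg_eq_zero.1 h)
  have hQ : 3 * c ≠ 0 := mul_ne_zero lip_three hc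
  obtain ⟨M, hM⟩ := hχ.bdd
  obtain ⟨C, hC⟩ := lip_row_bound b l hv hs
  have h1 : Summable fun d : O => χ c d * kk b l v s (z + sg d / sg c) :=
    ((hC z s c rfl hc).1.mul_left M).of_norm_bounded fun d => by
      rw [norm_mul]
      exact mul_le_mul_of_nonneg_right (hM c d) (norm_nonneg _)
  have h2 : ∀ y k, χ c (y + 3 * c * k) = χ c y := fun y k => by
    rw [mul_right_comm]
    exact hχ.inv _ c y ⟨0, by simp⟩
  have h3 : ∀ y h : O, eC (sg h * (z + sg y / sg c) / 3) = eC (sg h * z / 3) * eQ (h * y) (3 * c) := fun y h => by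
    rw [eQ, ← eC_add, map_mul, map_mul, map_ofNat]
    congr 1
    field_simp
  rw [tsum_eq_rsum hQ h1, rsum_eq_sum hQ, Finset.mul_sum]
  simp only [SG, if_neg hc, FT, rsum_eq_sum hQ, Finset.mul_sum, h2, lip_shift z hc, tsum_mul_left]
  have h4 : ∀ y h : O, qw b h ^ l * eC (sg h * z / 3) * ww s h v * (χ c y * eQ (h * y) (3 * c)) =
      χ c y * (qw b h ^ l * eC (sg h * (z + sg y / sg c) / 3) * ww s h v) := fun y h => by
    rw [h3]; ring
  simp only [h4]
  rw [Summable.tsum_finsetSum fun y _ => (lip_summable b l hv s _).mul_left _, Finset.mul_sum]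
  refine Finset.sum_congr rfl fun y _ => ?_
  rw [tsum_mul_left, mul_left_comm, lip b l hv hs, mul_left_comm]

theorem kk_row_bound (b : Bool) (l : ℕ) {v σ : ℝ} (hv : 0 < v) (hσ : 1 < σ) : ∃ C : ℝ,
    ∀ (z s : ℂ) (c : O), s.re = σ → c ≠ 0 →
      Summable (fun d : O => ‖kk b l v s (z + sg d / sg c)‖) ∧
        ∑' d : O, ‖kk b l v s (z + sg d / sg c)‖ ≤ C * nm c := by
  exact lip_row_bound b l hv hσ

end Crest.Agent.R17.D
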