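import Crest.Agent.R17.D.Theta
import Crest.Agent.R17.D.FE

/-! Row 17, block D (owner helper53): the functional equation and `stD`. -/

set_option autoImplicit false

namespace Crest.Agent.R17.D

open Complex MeasureTheory Filter Set
open scoped Real Topology ComplexConjugate

theorem mainfe_ent {F : ℂ → ℂ} (h : EntBdd F) (c : ℂ) : EntBdd fun s => c * F s := by
  refine ⟨h.1.const_mul c, fun σ₁ σ₂ => ?_⟩
  obtain ⟨B, hB⟩ := h.2 σ₁ σ₂
  exact ⟨‖c‖ * B, fun s h1 h2 => by rw [norm_mul]; gcongr; exact hB s h1 h2⟩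

/-- the Bessel series with coefficients `|n| τ(n) u(n)` -/
noncomputable def mainfe_f (u : O → ℂ) (v : ℝ) : ℂ := ∑' n : O, (√(nm n) : ℝ) * (tau n * u n) * JJ n v

theorem mainfe_ser {u : O → ℂ} (hu : ∀ n, ‖u n‖ ≤ 1) :
    ContinuousOn (mainfe_f u) (Ioi 0) ∧ (∀ A : ℝ, mainfe_f u =O[atTop] fun v : ℝ => v ^ (-A)) ∧
      ∀ s : ℂ, 2 < s.re → (2 * √bt : ℝ) * mellin (mainfe_f u) (2 * s) =
        gth s * ∑' n : O, tau n * u n * (nm n : ℂ) ^ (-s) := by
  obtain ⟨C, hC⟩ := tau_bound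
  have h0 : ((√(nm 0) : ℝ) : ℂ) * (tau 0 * u 0) = 0 := by simp
  have ha : ∀ n : O, ‖((√(nm n) : ℝ) : ℂ) * (tau n * u n)‖ ≤ max C 0 * nm n := fun n => by
    by_cases hn : n = 0
    · simp [hn]
    have h1 := one_le_nm hn
    have h2 : nm n ^ (1 / 6 : ℝ) ≤ √(nm n) := by
      rw [Real.sqrt_eq_rpow]
      exact Real.rpow_le_rpow_of_exponent_le h1 (by norm_num)
    have h3 : ‖tau n‖ ≤ max C 0 * √(nm n) :=
      (hC n).trans (mul_le_mul (le_max_left _ _) h2 (by positivity) (le_max_right _ _))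
    rw [norm_mul, norm_mul, norm_real, Real.norm_of_nonneg (Real.sqrt_nonneg _)]
    calc _ ≤ √(nm n) * (max C 0 * √(nm n) * 1) := by gcongr; exact hu n
      _ = max C 0 * (√(nm n) * √(nm n)) := by ring
      _ = _ := by rw [Real.mul_self_sqrt (nm_nonneg n)]
  refine ⟨ser_continuousOn h0 ha, ser_decay h0 ha, fun s hs => ?_⟩
  have h1 : ((2 * √bt : ℝ) : ℂ) ≠ 0 := ofReal_ne_zero.2 (mul_pos two_pos (Real.sqrt_pos.2 bt_pos)).ne'
  unfold mainfe_f
  rw [ser_mellin h0 ha hs, ofReal_inv, mul_assoc, mul_inv_cancel_left₀ h1]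
  congr 1
  refine tsum_congr fun n => ?_
  by_cases hn : n = 0
  · simp [hn, tau_zero]
  have h2 : ((√(nm n) : ℝ) : ℂ) ≠ 0 := ofReal_ne_zero.2 (Real.sqrt_pos.2 (nm_pos hn)).ne'
  field_simp

theorem mainfe_false (a c : O) {v : ℝ} (hv : 0 < v) : EG rho (MM Ph0) false 1 (sg a / sg c) v =
    3 * k0 * mainfe_f (fun n => al n * eQ (-(n * a)) (3 * c)) v := by
  rw [EG_theta _ _ _ hv, if_neg one_ne_zero, zero_add, mainfe_f, ← tsum_mul_left,
    ← (Equiv.neg O).tsum_eq]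
  refine tsum_congr fun n => ?_
  have h : sg (-n) * (sg a / sg c) / 3 = sg (-(n * a)) / sg (3 * c) := by
    simp only [map_neg, map_mul, map_ofNat]
    ring
  simp only [Equiv.neg_apply, h, qw, JJ, eQ, nm_neg, tau_neg]
  rw [map_neg, sg_eq_al n]
  simp
  ring

theorem mainfe_true (d c : O) {v : ℝ} (hv : 0 < v) : EG rho (MM Ph0) true 1 (-(sg d / sg c)) v =
    -(3 * k0 * mainfe_f (fun n => conj (al n) * eQ (n * d) (3 * c)) v) := by
  rw [EG_theta _ _ _ hv, if_neg one_ne_zero, zero_add, mainfe_f, ← tsum_mul_left, ← tsum_neg,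
    ← (Equiv.neg O).tsum_eq]
  refine tsum_congr fun n => ?_
  have h : sg (-n) * -(sg d / sg c) / 3 = sg (n * d) / sg (3 * c) := by
    simp only [map_neg, map_mul, map_ofNat]
    ring
  simp only [Equiv.neg_apply, h, qw, JJ, eQ, nm_neg, tau_neg]
  rw [map_neg, sg_eq_al n]
  simp
  ring

/-- `b = (a d - 1)/c ∈ 3 O`; `f V = ∑ n τ(n) e(-n a/3c) JJ n V`, `g v = ∑ conj n τ(n) e(n d/3c) JJ n v`;
`EG_reflect` with `l = 1`, `EG_theta`, re-index `h = -n` (`tau_neg`): `f (1/(N v)) = κ c² v² g v`,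
`κ = conj (rho c d) = cb c a`; `mellin_FE`, `ser_*`; `Λ = 2 √bt · mellin f (2 s)`. -/
theorem theta_FE {a d c : O} (hc : c ≠ 0) (h3 : (3 : O) ∣ c) (ha : Prim a) (h : 3 * c ∣ a * d - 1) :
    ∃ Λ Λ' : ℂ → ℂ, EntBdd Λ ∧ EntBdd Λ' ∧
      (∀ s : ℂ, 2 < s.re →
        Λ s = gth s * ∑' n : O, tau n * al n * eQ (-(n * a)) (3 * c) * (nm n : ℂ) ^ (-s)) ∧
      (∀ s : ℂ, 2 < s.re →
        Λ' s = gth s * ∑' n : O, tau n * conj (al n) * eQ (n * d) (3 * c) * (nm n : ℂ) ^ (-s)) ∧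
      ∀ s : ℂ, Λ s = 1 * cb c a * al c ^ 2 * (nm c : ℂ) ^ (1 - 2 * s) * Λ' (1 - s) := by
  obtain ⟨k, hk⟩ := h
  have hd : Prim d := ha.of_mul ⟨c * k, by rw [hk]; ring⟩
  have hb : Rt (3 * k) := rt_of_dvd (dvd_mul_right _ _)
  have hdet : a * d - 3 * k * c = 1 := by linear_combination hk
  have hκ : conj (rho c d) = cb c a := by
    have h1 := rho_mul_conj (rt_of_dvd h3) (rt_of_prim hd) ⟨-(3 * k), a, by linear_combination hdet⟩
    have h2 := rho_mul_right ha c d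
    rw [show a * d = 1 + 3 * k * c by linear_combination hdet, rho_add hb, rho_eq_cb (rt_of_dvd h3) prim_one,
      cb_one_right] at h2
    linear_combination conj (rho c d) * h2 + cb c a * h1
  have hκ0 : cb c a ≠ 0 := by
    rw [← hκ, map_ne_zero, rho_ne_zero]
    exact ⟨rt_of_dvd h3, rt_of_prim hd, -(3 * k), a, by linear_combination hdet⟩
  have hsc : sg c ≠ 0 := sg_eq_zero.not.2 hc
  obtain ⟨f1, f2, f3⟩ := mainfe_ser (u := fun n => al n * eQ (-(n * a)) (3 * c)) fun n => by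
    simpa using norm_al_le n
  obtain ⟨g1, g2, g3⟩ := mainfe_ser (u := fun n => conj (al n) * eQ (n * d) (3 * c)) fun n => by
    simpa using norm_al_le n
  obtain ⟨e1, e2, e3⟩ := mellin_FE f1 g1 f2 g2 (nm_pos hc) (mul_ne_zero hκ0 (pow_ne_zero 2 hsc))
    fun v hv => by
      have h1 := EG_reflect (rt_of_prim ha) hb (rt_of_dvd h3) (rt_of_prim hd) hdet hc (MM Ph0) 1 hv
      rw [mainfe_false a c (inv_pos.2 (mul_pos (nm_pos hc) hv)), mainfe_true d c hv, hκ] at h1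
      have h2 : (3 * k0 : ℂ) ≠ 0 := mul_ne_zero three_ne_zero (ofReal_ne_zero.2 k0_pos.ne')
      exact mul_left_cancel₀ h2 (by linear_combination h1)
  refine ⟨_, _, mainfe_ent e1 (2 * √bt : ℝ), mainfe_ent e2 (2 * √bt : ℝ), fun s hs => ?_, fun s hs => ?_,
    fun s => ?_⟩
  · simpa only [mul_assoc] using f3 s hs
  · simpa only [mul_assoc] using g3 s hs
  · have h0 : (nm c : ℂ) ≠ 0 := ofReal_ne_zero.2 (nm_pos hc).ne'
    rw [e3, sg_eq_al c, mul_pow, ← ofReal_pow, Real.sq_sqrt (nm_nonneg c), sub_eq_add_neg 1 (2 * s),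
      cpow_add _ _ h0, cpow_one]
    ring

end Crest.Agent.R17.D

namespace Crest.Agent.R17

open D in
theorem stD : StD := by
  refine ⟨tau, fun ζ i => tau (ζ * lam ^ i), 1, norm_one, fun ζ i n hζ hn => tau_shape hζ i hn, ?_,
    by simpa using tau_one_ne_zero, ?_, fun a d c hc h3 ha h => theta_FE hc h3 ha h⟩
  · obtain ⟨C, hC⟩ := tau_bound
    refine ⟨max C 0, fun ζ i hζ => (hC _).trans ?_⟩
    rw [nm_mul, nm_unit hζ, one_mul, nm_pow, nm_lam, ← Real.rpow_natCast,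
      ← Real.rpow_mul (by norm_num)]
    exact mul_le_mul (le_max_left _ _) (Real.rpow_le_rpow_of_exponent_le (by norm_num)
      (by have : (0 : ℝ) ≤ i := Nat.cast_nonneg i; linarith)) (by positivity) (le_max_right _ _)
  · obtain ⟨ζ, h1, h2⟩ := exists_tau_lam_sq
    exact ⟨ζ, 2, h1, by norm_num, h2⟩

end Crest.Agent.R17
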