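import Crest.Agent.R17.D.Defs
import Crest.Agent.R17.C.Theta

/-! Row 17, block D (owner helper53): test functions and the contour shift. -/

set_option autoImplicit false

namespace Crest.Agent.R17.D

open Complex MeasureTheory Filter Set
open scoped Real Topology ComplexConjugate

variable {Φ Φ' G G' : ℂ → ℂ}

theorem Rap.mul (h : Rap Φ) (hG : Mod G) : Rap fun s => Φ s * G s := by
  refine ⟨h.1.mul hG.1, fun A σ₁ σ₂ => ?_⟩
  obtain ⟨C', A', h'⟩ := hG.2 σ₁ σ₂
  obtain ⟨C, h1⟩ := h.2 (A + A') σ₁ σ₂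
  refine ⟨C * C', fun s hs => ?_⟩
  rw [norm_mul]
  refine (mul_le_mul (h1 s hs) (h' s hs) (norm_nonneg _) ((norm_nonneg _).trans (h1 s hs))).trans_eq ?_
  rw [mul_mul_mul_comm, ← Real.exp_add]
  congr 2
  ring

theorem Rap.sub (h : Rap Φ) (h' : Rap Φ') : Rap fun s => Φ s - Φ' s := by
  refine ⟨h.1.sub h'.1, fun A σ₁ σ₂ => ?_⟩
  obtain ⟨C, h1⟩ := h.2 A σ₁ σ₂
  obtain ⟨C', h2⟩ := h'.2 A σ₁ σ₂
  refine ⟨C + C', fun s hs => ?_⟩
  rw [add_mul]
  exact norm_sub_le_of_le (h1 s hs) (h2 s hs)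

theorem Rap.refl (h : Rap Φ) : Rap fun s => Φ (2 - s) := by
  refine ⟨h.1.comp (differentiable_id.const_sub 2), fun A σ₁ σ₂ => ?_⟩
  obtain ⟨C, h1⟩ := h.2 A (2 - σ₂) (2 - σ₁)
  refine ⟨C, fun s hs => ?_⟩
  have h2 := h1 (2 - s) ⟨by rw [sub_re, re_ofNat]; linarith [hs.2], by rw [sub_re, re_ofNat]; linarith [hs.1]⟩
  simpa using h2

theorem Rap.vInt (h : Rap Φ) (σ : ℝ) : VInt σ Φ := by
  obtain ⟨C, h1⟩ := h.2 1 σ σ
  refine ((linec_exp_abs one_pos).const_mul C).mono'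
    (h.1.continuous.comp (by fun_prop)).aestronglyMeasurable (.of_forall fun y => ?_)
  simpa using h1 (σ + y * I) ⟨by simp, by simp⟩

theorem mod_const (c : ℂ) : Mod fun _ => c := by
  exact ⟨differentiable_const c, fun _ _ => ExpOn.of_bdd fun _ _ => le_rfl⟩

theorem Mod.mul (h : Mod G) (h' : Mod G') : Mod fun s => G s * G' s := by
  exact ⟨h.1.mul h'.1, fun σ₁ σ₂ => (h.2 σ₁ σ₂).mul (h'.2 σ₁ σ₂)⟩

theorem Mod.add (h : Mod G) (h' : Mod G') : Mod fun s => G s + G' s := by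
  refine ⟨h.1.add h'.1, fun σ₁ σ₂ => ?_⟩
  obtain ⟨C, A, h1⟩ := h.2 σ₁ σ₂
  obtain ⟨C', A', h2⟩ := h'.2 σ₁ σ₂
  refine ⟨|C| + |C'|, max A A', fun s hs => ?_⟩
  rw [add_mul]
  refine norm_add_le_of_le ((h1 s hs).trans ?_) ((h2 s hs).trans ?_)
  · gcongr
    · exact le_abs_self _
    · exact le_max_left _ _
  · gcongr
    · exact le_abs_self _
    · exact le_max_right _ _

theorem Mod.sub (h : Mod G) (h' : Mod G') : Mod fun s => G s - G' s := by
  have h1 := h.add ((mod_const (-1)).mul h')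
  simpa only [neg_one_mul, ← sub_eq_add_neg] using h1

theorem drapa_re {σ₁ σ₂ : ℝ} {s : ℂ} (hs : s ∈ strip σ₁ σ₂) : |s.re| ≤ |σ₁| + |σ₂| := by
  rw [abs_le]
  constructor <;> linarith [hs.1, hs.2, neg_abs_le σ₁, le_abs_self σ₂, abs_nonneg σ₁, abs_nonneg σ₂]

theorem mod_id : Mod fun s => s := by
  refine ⟨differentiable_id, fun σ₁ σ₂ => ExpOn.of_poly (B := |σ₁| + |σ₂| + 1) (A := 1) fun s hs => ?_⟩
  have h1 := norm_le_abs_re_add_abs_im s
  have h2 := drapa_re hs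
  rw [Real.rpow_one]
  nlinarith [abs_nonneg s.im, abs_nonneg σ₁, abs_nonneg σ₂]

theorem mod_cpow {X : ℝ} (hX : 0 < X) (α β : ℝ) : Mod fun s => (X : ℂ) ^ (α * s + β) := by
  exact ⟨gc_diff_cpow hX α β, fun σ₁ σ₂ => expOn_cpow hX σ₁ σ₂ α β⟩

/-- `inv_Gamma_strip` -/
theorem mod_inv_Gamma (α β : ℝ) : Mod fun s => (Gamma (α * s + β))⁻¹ := by
  refine ⟨differentiable_one_div_Gamma.comp (by fun_prop), fun σ₁ σ₂ => ?_⟩
  obtain ⟨C, -, h1⟩ := inv_Gamma_strip (-(|α| * (|σ₁| + |σ₂|)) + β) (|α| * (|σ₁| + |σ₂|) + β)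
  refine ⟨C, π * |α|, fun s hs => ?_⟩
  have h2 : |α * s.re| ≤ |α| * (|σ₁| + |σ₂|) := by
    rw [abs_mul]
    exact mul_le_mul_of_nonneg_left (drapa_re hs) (abs_nonneg _)
  rw [abs_le] at h2
  have h3 := h1 (α * s + β) ⟨by simpa using h2.1, by simpa using h2.2⟩
  simpa [abs_mul, mul_assoc] using h3

theorem rap_Ph0 : Rap Ph0 := by
  have h1 : Rap fun s => cexp ((s - 1) ^ 2 - 1 / 9) := by
    refine ⟨by fun_prop, fun A σ₁ σ₂ => ⟨Real.exp ((|σ₁| + |σ₂| + 1) ^ 2 + A ^ 2), fun s hs => ?_⟩⟩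
    rw [norm_exp, ← Real.exp_add, Real.exp_le_exp]
    have e : ((s - 1) ^ 2 - 1 / 9).re = (s.re - 1) ^ 2 - s.im ^ 2 - 1 / 9 := by simp [sq]
    have h2 := abs_le.1 (drapa_re hs)
    have h3 : (s.re - 1) ^ 2 ≤ (|σ₁| + |σ₂| + 1) ^ 2 :=
      sq_le_sq' (by linarith [h2.1]) (by linarith [h2.2])
    rw [e, ← sq_abs s.im]
    nlinarith [sq_nonneg (|s.im| - A), sq_nonneg A, sq_nonneg |s.im|]
  have h2 := h1.mul ((mod_const (-3)).mul (mod_id.sub (mod_const 1)))
  convert h2 using 2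
  rw [Ph0, mul_comm]

theorem od_Ph0 : Od Ph0 := by
  intro s
  rw [Ph0, Ph0, show (2 - s - 1) ^ 2 = (s - 1) ^ 2 by ring]
  ring

theorem Ph0_two_thirds : Ph0 (2 / 3) = 1 := by
  rw [Ph0, show ((2 / 3 : ℂ) - 1) ^ 2 - 1 / 9 = 0 by norm_num, Complex.exp_zero]
  norm_num

theorem Od.one (h : Od Φ) : Φ 1 = 0 := by
  have h1 := h 1
  rw [show (2 : ℂ) - 1 = 1 by norm_num] at h1
  linear_combination h1 / 2

theorem Od.mul (h : Od Φ) (hG : Ev G) : Od fun s => Φ s * G s := by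
  intro s
  simp only [h s, hG s, neg_mul]

theorem xi_line {σ : ℝ} (hσ : 1 < σ) :
    (Continuous fun y : ℝ => xi (σ + y * I)) ∧ ∃ C : ℝ, ∀ s : ℂ, s.re = σ → ‖xi s‖ ≤ C := by
  classical
  have hA : Adm (fun n : O => if n = 0 then (0 : ℂ) else 1) nm σ := by
    refine ⟨fun n hn => nm_pos fun h0 => hn (if_pos h0), ?_⟩
    refine (B_summable_nm hσ).of_nonneg_of_le (fun n => ?_) fun n => ?_
    · exact mul_nonneg (norm_nonneg _) (Real.rpow_nonneg (nm_nonneg n) _)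
    · refine mul_le_of_le_one_left (Real.rpow_nonneg (nm_nonneg n) _) ?_
      beta_reduce
      split_ifs <;> simp
  have hZ : ∀ s : ℂ, s.re = σ → ZK s = DD (fun n : O => if n = 0 then (0 : ℂ) else 1) nm s := fun s hs => by
    refine tsum_congr fun n => ?_
    beta_reduce
    split_ifs with h0
    · have h1 : -s ≠ 0 := fun h2 => by
        have h3 : s.re = 0 := by rw [neg_eq_zero.1 h2, zero_re]
        linarith
      rw [nm_eq_zero.2 h0, ofReal_zero, zero_cpow h1, zero_mul]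
    · rw [one_mul]
  refine ⟨?_, (2 * π / √3) ^ (-σ) * Real.Gamma σ * DA (fun n : O => if n = 0 then (0 : ℂ) else 1) nm σ,
    fun s hs => ?_⟩
  · have h1 : Continuous fun y : ℝ => ((2 * π / √3 : ℝ) : ℂ) ^ (-((σ : ℂ) + y * I)) :=
      Continuous.const_cpow (by fun_prop) (Or.inl (ofReal_ne_zero.2 gc_XK_pos.ne'))
    refine ((h1.mul (gA_continuous_line (by linarith))).mul hA.continuous_DD).congr fun y => ?_
    simp only [xi, gK, Pi.mul_apply]
    rw [hZ _ (by simp)]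
  · have h0 : 0 < s.re := by linarith
    rw [xi, gK, norm_mul, norm_mul, norm_cpow_eq_rpow_re_of_pos gc_XK_pos, hZ s hs, neg_re, hs]
    have h1 := norm_Gamma_le h0
    rw [hs] at h1
    have h2 := (Real.Gamma_pos_of_pos (show 0 < σ by linarith)).le
    have h3 := Real.rpow_nonneg gc_XK_pos.le (-σ)
    gcongr
    exact hA.norm_DD_le hs

/-- `MM Φ` times a continuous function of at most exponential growth is integrable on the line -/
theorem Rap.vInt_MM_mul (h : Rap Φ) {D : ℂ → ℂ} (hc : Continuous fun y : ℝ => D ((6 : ℝ) + y * I))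
    {C A : ℝ} (hb : ∀ s : ℂ, s.re = 6 → ‖D s‖ ≤ C * Real.exp (A * |s.im|)) :
    VInt 6 fun s => MM Φ s * D s := by
  have h1 : Rap fun s => Φ s * (Gamma s)⁻¹ := by simpa using h.mul (mod_inv_Gamma 1 0)
  obtain ⟨hx, C₂, h2⟩ := xi_line (σ := 16) (by norm_num)
  obtain ⟨C₁, h3⟩ := h1.2 (A + 1) 6 6
  have e : ∀ s, MM Φ s * D s = Φ s * (Gamma s)⁻¹ * (xi (3 * s - 2) * D s) := fun s => by
    rw [MM]; ring
  have hx' : Continuous fun y : ℝ => xi (3 * (((6 : ℝ) : ℂ) + y * I) - 2) := by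
    refine (hx.comp (show Continuous fun y : ℝ => 3 * y by fun_prop)).congr fun y => ?_
    simp only [Function.comp_apply]
    congr 1
    push_cast
    ring
  simp only [VInt, e]
  refine ((linec_exp_abs one_pos).const_mul (C₁ * (C₂ * C))).mono'
    ((h1.1.continuous.comp (by fun_prop)).mul (hx'.mul hc)).aestronglyMeasurable (.of_forall fun y => ?_)
  have h4 := h3 ((6 : ℝ) + y * I) ⟨by simp, by simp⟩
  have h5 := h2 (3 * (((6 : ℝ) : ℂ) + y * I) - 2) (by simp; norm_num)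
  have h6 := hb ((6 : ℝ) + y * I) (by simp)
  rw [show (((6 : ℝ) : ℂ) + y * I).im = y by simp] at h4 h6
  rw [norm_mul, norm_mul (xi _)]
  refine (mul_le_mul h4 (mul_le_mul h5 h6 (norm_nonneg _) ((norm_nonneg _).trans h5)) (by positivity)
    ((norm_nonneg _).trans h4)).trans_eq ?_
  rw [← mul_assoc C₂, mul_mul_mul_comm, ← Real.exp_add]
  congr 2
  ring

theorem Rap.vInt_MM (h : Rap Φ) : VInt 6 (MM Φ) := by
  have h1 := h.vInt_MM_mul (D := fun _ => 1) continuous_const (C := 1) (A := 0) fun s _ => by simp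
  simpa only [mul_one] using h1

theorem rapb_int : LocallyIntegrableOn (C.th fun _ => 1) (Ioi 0) :=
  (C.continuousOn_th (M := 1) fun _ => by simp).locallyIntegrableOn measurableSet_Ioi

theorem rapb_top (r : ℝ) : (fun t => C.th (fun _ => 1) t - 1) =O[atTop] fun t : ℝ => t ^ r := by
  simpa using C.th_decay (Ψ := fun _ => 1) (M := 1) (fun _ => by simp) one_pos r

/-- the theta function of the lattice, twice -/
noncomputable def rapb_pair : WeakFEPair ℂ where
  f := C.th fun _ => 1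
  g := C.th fun _ => 1
  k := 1
  ε := 1
  f₀ := 1
  g₀ := 1
  hf_int := rapb_int
  hg_int := rapb_int
  hk := one_pos
  hε := one_ne_zero
  h_feq x hx := by
    have e : FT 1 (fun _ => (1 : ℂ)) = fun _ => 1 := by
      funext h
      simp only [FT, one_mul]
      rw [rsum_eQ one_ne_zero, if_pos (one_dvd h)]
      simp
    rw [C.th_FE one_ne_zero (fun _ _ _ => rfl) (one_div_pos.2 hx), e]
    simp
  hf_top := rapb_top
  hg_top := rapb_top

/-- the completed zeta function: `WeakFEPair` of `C.th (fun _ => 1)` (`C.th_FE` with `Q = 1`,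
`C.th_decay`, `C.mellin_th`, `C.bdd_Λ₀`; `Λ₀ (1 - s) = Λ₀ s` from `functional_equation₀`). -/
theorem exists_xi0 : ∃ L : ℂ → ℂ, EntBdd L ∧ (∀ s, L (1 - s) = L s) ∧
    ∀ s : ℂ, 1 < s.re → xi s = L s - 1 / s - 1 / (1 - s) := by
  refine ⟨rapb_pair.Λ₀, ⟨rapb_pair.differentiable_Λ₀, C.bdd_Λ₀ _⟩, fun s => ?_, fun s hs => ?_⟩
  · have h := rapb_pair.functional_equation₀ s
    have e : rapb_pair.symm.Λ₀ = rapb_pair.Λ₀ := by
      simp only [WeakFEPair.Λ₀, WeakFEPair.f_modif, WeakFEPair.symm, rapb_pair, inv_one]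
    rw [e] at h
    simpa [rapb_pair] using h
  · have h1 := (rapb_pair.hasMellin (s := s) hs).2
    have h2 := C.mellin_th (Ψ := fun _ => 1) (M := 1) (fun _ => by simp) one_pos hs
    simp only [one_mul, mul_one] at h2
    have h3 : mellin (fun t => C.th (fun _ => 1) t - 1) s = rapb_pair.Λ s := h1
    rw [h2] at h3
    have h4 : xi s = rapb_pair.Λ s := by
      rw [← h3, xi, gK, ZK, C.ZD]
      simp only [one_mul]
    rw [h4, WeakFEPair.Λ]
    simp [rapb_pair]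

/-- CONTOUR SHIFT from `Re s = 6` to `Re s = -4`.  With `L` from `exists_xi0` the integrand is
`H(s) L(3s-2) + (dslope H 1 s)/3 - (H(s)/3)/(s - 2/3)`: `VI_shift` for the first two terms,
`VI_shift_pole` for the last; `VI_const_sub` turns the line `-4` into the second integral. -/
theorem contour {H : ℂ → ℂ} (h : Rap H) (h1 : H 1 = 0) :
    VI 6 (fun s => H s * xi (3 * s - 2)) - VI 6 (fun s => H (2 - s) * xi (3 * s - 3)) =
      -(H (2 / 3) / 3) := by
  obtain ⟨L, ⟨hL, hLb⟩, hFE, hxi⟩ := exists_xi0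
  obtain ⟨C, hC⟩ := h.2 1 (-4) 6
  obtain ⟨B, hB⟩ := hLb (-14) 16
  have hφ := linec_exp_abs one_pos
  have hds : Differentiable ℂ (dslope H 1) :=
    differentiableOn_univ.1 ((differentiableOn_dslope univ_mem).2 h.1.differentiableOn)
  have hdv : ∀ s : ℂ, s ≠ 1 → dslope H 1 s = H s / (s - 1) := fun s hs => by
    rw [dslope_of_ne _ hs, slope_def_field, h1, sub_zero]
  have hA := VI_shift (σ₁ := -4) (σ₂ := 6) (T₀ := 1)
    (F := fun s => H s * L (3 * s - 2) + dslope H 1 s / 3) (by norm_num)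
    ((h.1.mul (hL.comp (by fun_prop))).add (hds.div_const 3)).differentiableOn
    (hφ.const_mul (C * (B + 1))) (fun s hs hi => by
      have a1 := hC s hs
      have a2 : ‖L (3 * s - 2)‖ ≤ B := hB _ (by simp; linarith [hs.1]) (by simp; linarith [hs.2])
      have a3 : 1 ≤ ‖s - 1‖ := hi.trans (by simpa using abs_im_le_norm (s - 1))
      have a4 : s ≠ 1 := fun e => by rw [e] at a3; norm_num at a3
      have a5 : ‖dslope H 1 s / 3‖ ≤ ‖H s‖ := by
        rw [hdv s a4, div_div, norm_div, norm_mul]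
        refine div_le_self (norm_nonneg _) ?_
        simp only [norm_ofNat]
        linarith
      have a6 : ‖H s * L (3 * s - 2)‖ ≤ ‖H s‖ * B := by
        rw [norm_mul]
        exact mul_le_mul_of_nonneg_left a2 (norm_nonneg _)
      have a7 : 0 ≤ B + 1 := by linarith [norm_nonneg (L (3 * s - 2))]
      calc _ ≤ ‖H s‖ * (B + 1) := (norm_add_le _ _).trans (by linarith)
        _ ≤ C * Real.exp (-1 * |s.im|) * (B + 1) := mul_le_mul_of_nonneg_right a1 a7
        _ = _ := by ring)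
  have hG := VI_shift_pole (σ₁ := -4) (σ₂ := 6) (T₀ := 0) (G := fun s => H s / 3) (ρ := 2 / 3)
    (by norm_num) (by norm_num) (h.1.div_const 3).differentiableOn (hφ.const_mul C)
    (fun s hs _ => by
      refine le_trans ?_ (hC s hs)
      rw [norm_div]
      exact div_le_self (norm_nonneg _) (by simp))
  set K : ℂ → ℂ := fun s => (H s * L (3 * s - 2) + dslope H 1 s / 3) - H s / 3 / (s - 2 / 3) with hK
  have hKs : ∀ s : ℂ, s.re = 6 ∨ s.re = -4 →
      K s = H s * (L (3 * s - 2) - 1 / (3 * s - 2) - 1 / (1 - (3 * s - 2))) := fun s hs => by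
    have ne : ∀ w : ℂ, w.re ≠ 0 → w ≠ 0 := fun w hw e => hw (by rw [e, zero_re])
    have a1 : s - 1 ≠ 0 := ne _ (by rcases hs with hs | hs <;> simp [hs] <;> norm_num)
    have a2 : 3 * s - 2 ≠ 0 := ne _ (by rcases hs with hs | hs <;> simp [hs] <;> norm_num)
    have e1 : s - 2 / 3 = (3 * s - 2) / 3 := by ring
    have e2 : 1 - (3 * s - 2) = -(3 * (s - 1)) := by ring
    simp only [hK]
    rw [hdv s (sub_ne_zero.1 a1), e1, e2]
    field_simp
    ring
  have e1 : VI 6 (fun s => H s * xi (3 * s - 2)) = VI 6 K := VI_congr fun s hs => by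
    rw [hKs s (Or.inl hs), hxi _ (by simp [hs]; norm_num)]
  have e2 : VI 6 (fun s => H (2 - s) * xi (3 * s - 3)) = VI (-4) K := by
    have := VI_const_sub 6 2 K
    rw [show (2 : ℂ).re - 6 = -4 by norm_num] at this
    rw [← this]
    refine VI_congr fun s hs => ?_
    rw [hKs _ (Or.inr (by simp [hs]; norm_num)), hxi _ (by simp [hs]; norm_num), ← hFE (3 * s - 3),
      show 3 * (2 - s) - 2 = 1 - (3 * s - 3) by ring, sub_sub_cancel]
    ring
  rw [e1, e2, hK, VI_sub hA.2.1 hG.2.1, VI_sub hA.1 hG.1, hA.2.2, hG.2.2]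
  ring

end Crest.Agent.R17.D
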