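import Crest.Agent.R17.D.Defs

/-! Row 17, block D (owner helper53): the Kubota character `rho`. -/

set_option autoImplicit false

namespace Crest.Agent.R17.D

open Complex MeasureTheory Filter Set
open scoped Real Topology ComplexConjugate

theorem rt_int (k : ℤ) : Rt (k : O) := ⟨k, by simp⟩

theorem rt_zero : Rt 0 := ⟨0, by simp⟩

theorem rt_one : Rt 1 := ⟨1, by simp⟩

theorem rt_of_dvd {x : O} (h : (3 : O) ∣ x) : Rt x := ⟨0, by simpa using h⟩

theorem rt_of_prim {x : O} (h : Prim x) : Rt x := ⟨1, by simpa [Prim] using h⟩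

theorem Rt.add {x y : O} (hx : Rt x) (hy : Rt y) : Rt (x + y) := by
  obtain ⟨k, s, hk⟩ := hx
  obtain ⟨l, t, hl⟩ := hy
  exact ⟨k + l, s + t, by push_cast; linear_combination hk + hl⟩

theorem Rt.neg {x : O} (hx : Rt x) : Rt (-x) := by
  obtain ⟨k, s, hk⟩ := hx
  exact ⟨-k, -s, by push_cast; linear_combination -hk⟩

theorem Rt.sub {x y : O} (hx : Rt x) (hy : Rt y) : Rt (x - y) := by
  rw [sub_eq_add_neg]
  exact hx.add hy.neg

theorem Rt.mul {x y : O} (hx : Rt x) (hy : Rt y) : Rt (x * y) := by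
  obtain ⟨k, s, hk⟩ := hx
  obtain ⟨l, t, hl⟩ := hy
  exact ⟨k * l, s * y + k * t, by push_cast; linear_combination y * hk + k * hl⟩

theorem rt_neg {x : O} : Rt (-x) ↔ Rt x :=
  ⟨fun h => neg_neg x ▸ h.neg, Rt.neg⟩

theorem Rt.cases {x : O} (hx : Rt x) : (3 : O) ∣ x ∨ Prim x ∨ Prim (-x) := by
  obtain ⟨k, s, hk⟩ := hx
  obtain ⟨j, rfl | rfl | rfl⟩ : ∃ j, k = 3 * j ∨ k = 3 * j + 1 ∨ k = 3 * j + 2 := ⟨k / 3, by omega⟩
  · exact Or.inl ⟨s + j, by push_cast at hk; linear_combination hk⟩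
  · exact Or.inr (Or.inl ⟨s + j, by push_cast at hk; linear_combination hk⟩)
  · exact Or.inr (Or.inr ⟨-s - j - 1, by push_cast at hk; linear_combination -hk⟩)

theorem rt_prim_mul {a x : O} (ha : Prim a) : Rt (a * x) ↔ Rt x := by
  refine ⟨fun ⟨k, s, hk⟩ => ?_, (rt_of_prim ha).mul⟩
  obtain ⟨t, ht⟩ := ha
  exact ⟨k, s - t * x, by linear_combination hk - x * ht⟩

theorem rt_coord {x y : ℤ} : Rt ((x : O) + y * om) ↔ 3 ∣ y := by
  constructor
  · rintro ⟨k, hk⟩
    have : ((3 : ℤ) : O) ∣ ((x - k : ℤ) : O) + y * om := by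
      push_cast
      rwa [← add_sub_right_comm]
    exact (int_dvd_coord.1 this).2
  · rintro ⟨t, rfl⟩
    exact ⟨x, t * om, by push_cast; ring⟩

theorem rt_cube (m : O) : Rt (m ^ 3) := by
  obtain ⟨x, y, rfl⟩ := exists_coord m
  exact ⟨x ^ 3 + y ^ 3, x ^ 2 * y * om + x * y ^ 2 * om ^ 2, by
    push_cast; linear_combination (y : O) ^ 3 * om_cube⟩

theorem rha_eQ {x : O} : eQ x 3 = 1 ↔ Rt x := by
  obtain ⟨a, b, rfl⟩ := exists_coord x
  have h := eQ_coord_nat a b (m := 3) (by norm_num)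
  push_cast at h
  rw [h, rt_coord, Complex.exp_eq_one_iff]
  constructor
  · rintro ⟨n, hn⟩
    rw [mul_comm (n : ℂ), mul_right_inj' Complex.two_pi_I_ne_zero, div_eq_iff three_ne_zero] at hn
    exact ⟨n, by rw [mul_comm]; exact_mod_cast hn⟩
  · rintro ⟨n, rfl⟩
    exact ⟨n, by push_cast; ring⟩

/-- the pairing `e(x y / 3)` is trivial on `Λ × Λ` -/
theorem Rt.eQ_mul {x y : O} (hx : Rt x) (hy : Rt y) : eQ (x * y) 3 = 1 :=
  rha_eQ.2 (hx.mul hy)

theorem eQ_three_eq_one {x : O} : eQ x 3 = 1 ↔ Rt x :=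
  rha_eQ

theorem rha_row {c d : O} (hd : Prim d) (h : IsCoprime c d) :
    ∃ a b, Rt a ∧ Rt b ∧ a * d - b * c = 1 := by
  obtain ⟨u, v, h⟩ := h
  obtain ⟨t, ht⟩ := id hd
  refine ⟨v + u * c, u * (d - 1), (rt_prim_mul hd).1 ⟨1, u * t * c, ?_⟩,
    rt_of_dvd (Dvd.dvd.mul_left hd u), by linear_combination h⟩
  push_cast
  linear_combination h + u * c * ht

/-- completing a row to a matrix of `SL₂(Λ)`: start from any solution and add `k (c, d)` so that
`b ≡ 0 mod 3` (if `d ≡ ±1`) or `a ≡ 0 mod 3` (if `c ≡ ±1`). -/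
theorem exists_row {c d : O} (hc : Rt c) (hd : Rt d) (h : IsCoprime c d) :
    ∃ a b, Rt a ∧ Rt b ∧ a * d - b * c = 1 := by
  rcases hd.cases with h1 | h1 | h1
  · rcases hc.cases with h2 | h2 | h2
    · exact absurd (isUnit_of_dvd_unit lam_dvd_three (h.isUnit_of_dvd' h2 h1))
        prime_lam.not_isUnit
    · obtain ⟨a, b, ha, hb, e⟩ := rha_row h2 h.symm
      exact ⟨-b, -a, hb.neg, ha.neg, by linear_combination e⟩
    · obtain ⟨a, b, ha, hb, e⟩ := rha_row h2 h.symm.neg_right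
      exact ⟨-b, a, hb.neg, ha, by linear_combination e⟩
  · exact rha_row h1 h
  · obtain ⟨a, b, ha, hb, e⟩ := rha_row h1 h.neg_right
    exact ⟨-a, b, ha.neg, hb, by linear_combination e⟩

theorem rhob_neg (u n : O) : cb u (-n) = cb u n := cb_assoc u (Associated.refl n).neg_left

theorem rhob_recip {a b : O} (ha : Prim a ∨ Prim (-a)) (hb : Prim b ∨ Prim (-b)) :
    cb a b = cb b a := by
  rcases ha with ha | ha <;> rcases hb with hb | hb <;>
    simpa only [rhob_neg, cb_neg_left] using cb_recip ha hb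

theorem rhob_cop {a : O} (ha : Prim a ∨ Prim (-a)) : IsCoprime a 3 := by
  rcases ha with ha | ha
  · exact ha.coprime_three
  · exact (IsCoprime.neg_left_iff _ _).1 ha.coprime_three

theorem rhob_pm {a : O} (ha : Rt a) (h : ¬ (3 : O) ∣ a) : Prim a ∨ Prim (-a) :=
  ha.cases.resolve_left h

theorem rhob_zero {n : O} (hn : (3 : O) ∣ n) (u : O) : cb u n = 0 :=
  cub_zero (lam_dvd_three.trans hn) u

theorem rhob_a {c d : O} (hc : Rt c) (hd : Rt d) (h : (3 : O) ∣ c) : rho c d = cb c d := by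
  rw [rho, if_pos ⟨hc, hd⟩, if_pos h]

theorem rhob_b {c d : O} (hc : Rt c) (hd : Rt d) (h : ¬ (3 : O) ∣ c) : rho c d = cb d c := by
  rw [rho, if_pos ⟨hc, hd⟩, if_neg h]

theorem rhob_l {c : O} (hc : ¬ Rt c) (d : O) : rho c d = 0 := by
  rw [rho, if_neg fun h => hc h.1]

theorem rhob_r (c : O) {d : O} (hd : ¬ Rt d) : rho c d = 0 := by
  rw [rho, if_neg fun h => hd h.2]

theorem rho_neg_left (c d : O) : rho (-c) d = rho c d := by
  by_cases hc : Rt c
  · by_cases hd : Rt d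
    · by_cases h : (3 : O) ∣ c
      · rw [rhob_a hc hd h, rhob_a hc.neg hd (dvd_neg.2 h), cb_neg_left]
      · rw [rhob_b hc hd h, rhob_b hc.neg hd (mt dvd_neg.1 h), rhob_neg]
    · rw [rhob_r _ hd, rhob_r _ hd]
  · rw [rhob_l hc, rhob_l (mt rt_neg.1 hc)]

theorem rho_neg_right (c d : O) : rho c (-d) = rho c d := by
  by_cases hc : Rt c
  · by_cases hd : Rt d
    · by_cases h : (3 : O) ∣ c
      · rw [rhob_a hc hd h, rhob_a hc hd.neg h, rhob_neg]
      · rw [rhob_b hc hd h, rhob_b hc hd.neg h, cb_neg_left]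
    · rw [rhob_r _ hd, rhob_r _ (mt rt_neg.1 hd)]
  · rw [rhob_l hc, rhob_l hc]

/-- cubic reciprocity if `3 ∤ c` -/
theorem rho_eq_cb {c d : O} (hc : Rt c) (hd : Prim d) : rho c d = cb c d := by
  rw [rho, if_pos ⟨hc, rt_of_prim hd⟩]
  split_ifs with h
  · rfl
  · exact rhob_recip (.inl hd) (rhob_pm hc h)

theorem rho_symm (c d : O) : rho c d = rho d c := by
  by_cases h : Rt c ∧ Rt d
  · rw [rho, rho, if_pos h, if_pos h.symm]
    split_ifs with h1 h2 h2
    · rw [rhob_zero h1, rhob_zero h2]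
    · rfl
    · rfl
    · exact rhob_recip (rhob_pm h.2 h2) (rhob_pm h.1 h1)
  · rw [rho, rho, if_neg h, if_neg fun h' => h h'.symm]

theorem rho_ne_zero {c d : O} : rho c d ≠ 0 ↔ Rt c ∧ Rt d ∧ IsCoprime c d := by
  unfold rho
  constructor
  · intro h
    split_ifs at h with h1 h2
    · exact ⟨h1.1, h1.2, (cb_ne_zero.1 h).2⟩
    · exact ⟨h1.1, h1.2, (cb_ne_zero.1 h).2.symm⟩
    · exact absurd rfl h
  · rintro ⟨hc, hd, h⟩
    rw [if_pos ⟨hc, hd⟩]
    split_ifs with h1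
    · exact cb_ne_zero.2 ⟨(h.of_isCoprime_of_dvd_left h1).symm, h⟩
    · exact cb_ne_zero.2 ⟨rhob_cop (rhob_pm hc h1), h.symm⟩

theorem norm_rho_le (c d : O) : ‖rho c d‖ ≤ 1 := by
  unfold rho
  split_ifs
  · exact norm_cb_le _ _
  · exact norm_cb_le _ _
  · simp

theorem rho_mul_conj {c d : O} (hc : Rt c) (hd : Rt d) (h : IsCoprime c d) :
    rho c d * conj (rho c d) = 1 := by
  have h0 := rho_ne_zero.2 ⟨hc, hd, h⟩
  rw [rho, if_pos ⟨hc, hd⟩] at h0 ⊢
  split_ifs at h0 ⊢ <;> rw [cb_mul_conj, if_pos (cb_ne_zero.1 h0)]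

open Classical in
theorem rho_zero_left (d : O) : rho 0 d = if d = 1 ∨ d = -1 then 1 else 0 := by
  split_ifs with h
  · have h1 : rho 0 1 = 1 := by rw [rho_eq_cb rt_zero prim_one, cb_one_right]
    rcases h with rfl | rfl
    · exact h1
    · rw [rho_neg_right, h1]
  · by_contra h0
    obtain ⟨-, hd, hu⟩ := rho_ne_zero.1 h0
    rw [isCoprime_zero_left] at hu
    rcases hd.cases with h1 | h1 | h1
    · exact prime_lam.not_isUnit (isUnit_of_dvd_unit (lam_dvd_three.trans h1) hu)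
    · exact h (.inl (h1.eq_one_of_isUnit hu))
    · exact h (.inr (neg_eq_iff_eq_neg.1 (h1.eq_one_of_isUnit hu.neg)))

theorem rho_mul_left {a : O} (ha : Prim a) (c d : O) : rho (a * c) d = cb d a * rho c d := by
  have h3 : (3 : O) ∣ a * c ↔ (3 : O) ∣ c :=
    ⟨fun h => ha.coprime_three.symm.dvd_of_dvd_mul_left h, fun h => h.mul_left a⟩
  by_cases hc : Rt c
  · have hc' := (rt_prim_mul ha).2 hc
    by_cases hd : Rt d
    · by_cases h2 : (3 : O) ∣ c
      · rw [rhob_a hc hd h2, rhob_a hc' hd (h3.2 h2), cb_mul_left]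
        by_cases h : (3 : O) ∣ d
        · rw [rhob_zero h c, mul_zero, mul_zero]
        · rw [rhob_recip (.inl ha) (rhob_pm hd h)]
      · rw [rhob_b hc hd h2, rhob_b hc' hd (mt h3.1 h2), cb_mul_right]
    · rw [rhob_r _ hd, rhob_r _ hd, mul_zero]
  · rw [rhob_l hc, rhob_l (mt (rt_prim_mul ha).1 hc), mul_zero]

theorem rho_mul_right {a : O} (ha : Prim a) (c d : O) : rho c (a * d) = cb c a * rho c d := by
  rw [rho_symm, rho_mul_left ha, rho_symm]

theorem rhob_step {c d : O} (hc : (3 : O) ∣ c) (hd : Rt d) : cb c (d + c) = cb c d := by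
  by_cases h : (3 : O) ∣ d
  · rw [rhob_zero h, rhob_zero (dvd_add h hc)]
  · have h' : ¬ (3 : O) ∣ d + c := fun h' => h ((dvd_add_left hc).1 h')
    calc cb c (d + c) = cb (-d) (d + c) := cb_congr ⟨1, by ring⟩
      _ = cb (d + c) d := by
        rw [cb_neg_left, rhob_recip (rhob_pm hd h) (rhob_pm (hd.add (rt_of_dvd hc)) h')]
      _ = cb c d := cb_congr ⟨1, by ring⟩

theorem rhob_int {c d : O} (hc : (3 : O) ∣ c) (hd : Rt d) (k : ℤ) :
    cb c (d + k * c) = cb c d := by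
  have hk : ∀ k : ℤ, Rt (d + k * c) := fun k => hd.add (rt_of_dvd (hc.mul_left _))
  induction k using Int.induction_on with
  | zero => simp
  | succ n ih =>
    rw [← ih, ← rhob_step hc (hk n)]
    congr 1
    push_cast
    ring
  | pred n ih =>
    rw [← ih, ← rhob_step hc (hk (-n - 1))]
    congr 1
    push_cast
    ring

/-- Recipe.  `b = 1`: for `3 ∣ c`, `d ≡ ±1`: `(c / (d + c)) = (-d / (d + c)) = ((d + c) / d) = (c / d)` by
reciprocity; integers `b` by induction.  `b ∈ 3 O`: `cb_per` with `D = 3 c`-type moduli (`9 ∣ b c`,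
`c ∣ b c`).  For `c ≡ ±1` it is `cb_congr`. -/
theorem rho_add {b : O} (hb : Rt b) (c d : O) : rho c (d + b * c) = rho c d := by
  by_cases hc : Rt c
  swap
  · rw [rhob_l hc, rhob_l hc]
  have hbc := hb.mul hc
  by_cases hd : Rt d
  swap
  · rw [rhob_r _ hd, rhob_r _ fun h => hd (by simpa using h.sub hbc)]
  by_cases h2 : (3 : O) ∣ c
  · rw [rhob_a hc hd h2, rhob_a hc (hd.add hbc) h2]
    obtain ⟨k, m, hm⟩ := hb
    rw [← rhob_int h2 hd k]
    obtain ⟨e, he⟩ := h2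
    refine cb_per (D := c) (k := 1) (by rw [pow_one]) ⟨m * e, ?_⟩ ⟨3 * m, ?_⟩
    · linear_combination c * hm + 3 * m * he
    · linear_combination c * hm
  · rw [rhob_b hc hd h2, rhob_b hc (hd.add hbc) h2]
    exact cb_congr ⟨b, by ring⟩

theorem wt_rho : Wt rho 1 := ⟨⟨1, norm_rho_le⟩, fun _ c d hb => rho_add hb c d, rho_zero_left⟩

theorem wt_rnd {p : O} : Wt (rnd p) 0 := by
  refine ⟨⟨1, fun c d => ?_⟩, fun b c d hb => ?_, fun d => ?_⟩
  · unfold rnd
    split_ifs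
    · simp
    · exact norm_rho_le c d
  · simp only [rnd, rho_add hb]
  · simp [rnd]

theorem wt_rhp (p : O) : Wt (rhp p) (nm p) := by
  obtain ⟨M, hM⟩ := (wt_rnd (p := p)).bdd
  refine ⟨⟨‖(nm p : ℂ)‖ * 1 + ‖(nm p + 1 : ℂ)‖ * M, fun c d => ?_⟩, fun b c d hb => ?_,
    fun d => ?_⟩
  · refine (norm_sub_le _ _).trans ?_
    rw [norm_mul, norm_mul]
    gcongr
    · exact norm_rho_le c d
    · exact hM c d
  · simp only [rhp, rho_add hb, wt_rnd.inv b c d hb]
  · simp [rhp, rnd, rho_zero_left]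

theorem Wt.per {χ : O → O → ℂ} {m : ℂ} (h : Wt χ m) (c : O) : Per (3 * c) (χ c) := by
  rintro a b ⟨t, ht⟩
  rw [← h.inv (3 * t) c b (rt_of_dvd (dvd_mul_right _ _))]
  congr 1
  linear_combination ht

end Crest.Agent.R17.D
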