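import Crest.Agent.R17.D.Lat

/-! Row 17, block D (owner helper53): hyperbolic space as `ℂ × ℝ` with Lebesgue measure.
The point `(u, ℓ)` is `z = u e^ℓ`, `v = e^ℓ`; the invariant measure `dz dv / v³` is `du dℓ`. -/

set_option autoImplicit false

namespace Crest.Agent.R17.D

open Complex MeasureTheory Filter Set
open scoped Real Topology ComplexConjugate

/-- the form of the point `(u, ℓ)` -/
noncomputable def QX (w : ℂ × ℝ) : ℂ → ℂ → ℝ := Qf (w.1 * Real.exp w.2) (Real.exp w.2)

/-- `QX w 0 1 = e^{-ℓ}`; polarise for `u` -/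
theorem QX_inj {w w' : ℂ × ℝ} (h : ∀ x y, QX w x y = QX w' x y) : w = w' := by
  obtain ⟨u, l⟩ := w
  obtain ⟨u', l'⟩ := w'
  have h1 := h 0 1
  simp only [QX, Qf, zero_mul, zero_add, norm_one, norm_zero, one_pow, ne_eq, OfNat.ofNat_ne_zero,
    not_false_eq_true, zero_pow, add_zero, one_div, inv_inj, Real.exp_eq_exp] at h1
  subst h1
  have h2 := h 1 (-(u' * Real.exp l))
  simp only [QX, Qf, one_mul, add_neg_cancel, norm_zero, ne_eq, OfNat.ofNat_ne_zero,
    not_false_eq_true, zero_pow, zero_add] at h2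
  rw [div_left_inj' (Real.exp_pos l).ne', add_eq_right, pow_eq_zero_iff two_ne_zero, norm_eq_zero,
    add_neg_eq_zero] at h2
  rw [mul_right_cancel₀ (ofReal_ne_zero.2 (Real.exp_pos l).ne') h2]

theorem continuous_QX (x y : ℂ) : Continuous fun w => QX w x y := by
  unfold QX Qf
  exact Continuous.div (by fun_prop) (by fun_prop) fun w => (Real.exp_pos _).ne'

/-- the row map `g` is induced by a measure preserving map -/
def Good (g : ℂ × ℂ → ℂ × ℂ) : Prop :=
  ∃ σ : ℂ × ℝ → ℂ × ℝ, MeasurePreserving σ volume volume ∧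
    ∀ w x y, QX (σ w) x y = QX w (g (x, y)).1 (g (x, y)).2

theorem Good.comp {g g' : ℂ × ℂ → ℂ × ℂ} (h : Good g) (h' : Good g') : Good (g' ∘ g) := by
  obtain ⟨σ, h1, h2⟩ := h
  obtain ⟨σ', h1', h2'⟩ := h'
  exact ⟨σ ∘ σ', h1.comp h1', fun w x y => by rw [Function.comp_apply, h2, h2']; rfl⟩

/-- `σ (u, ℓ) = (u + b e^{-ℓ}, ℓ)`: `MeasurePreserving.skew_product` (swap the factors) -/
theorem good_T (b : ℂ) : Good fun r => (r.1, r.1 * b + r.2) := by
  have h1 : MeasurePreserving (fun p : ℝ × ℂ => (p.1, p.2 + b * Real.exp (-p.1)))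
      ((volume : Measure ℝ).prod volume) ((volume : Measure ℝ).prod volume) :=
    (MeasurePreserving.id volume).skew_product (g := fun l u => u + b * Real.exp (-l))
      (by fun_prop) (Eventually.of_forall fun l => map_add_right_eq_self _ _)
  refine ⟨_, (Measure.measurePreserving_swap.comp h1).comp Measure.measurePreserving_swap,
    fun w x y => ?_⟩
  have h2 : ((Real.exp (-w.2) : ℝ) : ℂ) * Real.exp w.2 = 1 := by
    rw [← ofReal_mul, ← Real.exp_add, neg_add_cancel, Real.exp_zero, ofReal_one]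
  simp only [QX, Qf, Function.comp_apply, Prod.swap]
  congr 4
  linear_combination x * b * h2

/-- `σ (u, ℓ) = (-conj u, -ℓ - log (1 + ‖u‖²))`: `MeasurePreserving.skew_product` -/
theorem good_S : Good fun r => (r.2, -r.1) := by
  have h1 : MeasurePreserving (fun p : ℂ × ℝ => (-conj p.1, -Real.log (1 + ‖p.1‖ ^ 2) - p.2))
      ((volume : Measure ℂ).prod volume) ((volume : Measure ℂ).prod volume) :=
    (conjLIE.trans (LinearIsometryEquiv.neg ℝ)).measurePreserving.skew_product
      (g := fun u l => -Real.log (1 + ‖u‖ ^ 2) - l) (by fun_prop)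
      (Eventually.of_forall fun u => (Measure.measurePreserving_sub_left volume _).map_eq)
  refine ⟨_, h1, fun w x y => ?_⟩
  have h2 : (0 : ℝ) < 1 + ‖w.1‖ ^ 2 := by positivity
  have h3 := Real.exp_pos w.2
  simp only [QX, Qf]
  rw [Real.exp_sub, Real.exp_neg, Real.exp_log h2]
  generalize Real.exp w.2 = v at h3
  have h4 : ‖w.1‖ ^ 2 = w.1.re ^ 2 + w.1.im ^ 2 := by rw [Complex.sq_norm, normSq_apply]; ring
  rw [h4] at h2 ⊢
  simp only [Complex.sq_norm, normSq_apply, add_re, add_im, mul_re, mul_im, neg_re, neg_im, conj_re,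
    conj_im, ofReal_re, ofReal_im]
  field_simp
  ring

theorem space_SL {a b c d : ℂ} (h : a * d - b * c = 1) (hc : c ≠ 0) :
    Good fun r => (r.1 * a + r.2 * c, r.1 * b + r.2 * d) := by
  have := ((((((good_T ((a - 1) / c)).comp good_S).comp (good_T (-c))).comp good_S).comp
    good_S).comp good_S).comp (good_T ((d - 1) / c))
  convert this using 1
  funext r
  simp only [Function.comp_apply, Prod.mk.injEq]
  constructor
  · field_simp
    ring
  · field_simp
    linear_combination (-r.1) * h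

/-- `γ = T_{(a-1)/c} L_c T_{(d-1)/c}` for `c ≠ 0` with `L_c = S³ T_{-c} S` (or similar);
`γ = S³ (S γ)` for `c = 0`. -/
theorem good_SL {a b c d : ℂ} (h : a * d - b * c = 1) :
    Good fun r => (r.1 * a + r.2 * c, r.1 * b + r.2 * d) := by
  by_cases hc : c = 0
  · have ha : a ≠ 0 := by
      rintro rfl
      simp [hc] at h
    have := ((good_S.comp good_S).comp good_S).comp
      (space_SL (a := -c) (b := -d) (c := a) (d := b) (by linear_combination h) ha)
    convert this using 1
    funext r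
    simp only [Function.comp_apply, Prod.mk.injEq]
    constructor <;> ring
  · exact space_SL h hc

theorem exists_Qf {a b c d : ℂ} (h : a * d - b * c = 1) (z : ℂ) {v : ℝ} (hv : 0 < v) :
    ∃ (z' : ℂ) (v' : ℝ), 0 < v' ∧ ∀ x y, Qf z' v' x y = Qf z v (x * a + y * c) (x * b + y * d) := by
  obtain ⟨σ, -, h2⟩ := good_SL h
  refine ⟨_, _, Real.exp_pos _, fun x y => (h2 (z / v, Real.log v) x y).trans ?_⟩
  simp only [QX, Real.exp_log hv]
  rw [div_mul_cancel₀ _ (ofReal_ne_zero.2 hv.ne')]

/-- the group `Γ₂ = SL₂(Λ)`, as quadruples -/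
structure G2 where
  /-- entry -/
  a : O
  /-- entry -/
  b : O
  /-- entry -/
  c : O
  /-- entry -/
  d : O
  ha : Rt a
  hb : Rt b
  hc : Rt c
  hd : Rt d
  det : a * d - b * c = 1

theorem G2.det' (γ : G2) : sg γ.a * sg γ.d - sg γ.b * sg γ.c = 1 := by
  rw [← map_mul, ← map_mul, ← map_sub, γ.det, map_one]

/-- the action on `ℂ × ℝ` -/
noncomputable def G2.act (γ : G2) : ℂ × ℝ → ℂ × ℝ := (good_SL γ.det').choose

theorem G2.act_mp (γ : G2) : MeasurePreserving γ.act volume volume := (good_SL γ.det').choose_spec.1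

theorem G2.QX_act (γ : G2) (w : ℂ × ℝ) (x y : ℂ) :
    QX (γ.act w) x y = QX w (x * sg γ.a + y * sg γ.c) (x * sg γ.b + y * sg γ.d) :=
  (good_SL γ.det').choose_spec.2 w x y

end Crest.Agent.R17.D
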