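import Crest.Agent.R17.D.Hecke

/-! Row 17, block D (owner helper53): the theta function: expansion, automorphy, non-vanishing. -/

set_option autoImplicit false

namespace Crest.Agent.R17.D

open Complex MeasureTheory Filter Set
open scoped Real Topology ComplexConjugate

theorem tha_AA {h : O} (hh : h ≠ 0) {v : ℝ} (hv : 0 < v) :
    AA rho (MM Ph0) h v = tau h * JJ h v := by
  rw [AA_rho rap_Ph0 od_Ph0 hh hv, Ph0_two_thirds, one_mul]

theorem tha_qw (b : Bool) : qw b 0 = 0 := by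
  cases b <;> simp [qw]

theorem theta_summable (b : Bool) (l : ℕ) {v : ℝ} (hv : 0 < v) :
    Summable fun h : O => ‖qw b h ^ l * tau h * JJ h v‖ := by
  refine (AA_summable wt_rho rap_Ph0.vInt_MM b l hv).of_nonneg_of_le (fun _ => norm_nonneg _)
    fun h => ?_
  by_cases hh : h = 0
  · subst hh
    rw [tau_zero, mul_zero, zero_mul, norm_zero]
    exact norm_nonneg _
  · rw [tha_AA hh hv, mul_assoc]

/-- `expand`, `const_term`, `AA_rho` (split off `h = 0`; `tau 0 = 0`, `qw b 0 = 0`) -/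
theorem EG_theta (b : Bool) (l : ℕ) (z : ℂ) {v : ℝ} (hv : 0 < v) :
    EG rho (MM Ph0) b l z v = (if l = 0 then -(2 / 3) * ((v ^ (2 / 3 : ℝ) : ℝ) : ℂ) else 0) +
      ∑' h : O, qw b h ^ l * tau h * JJ h v * eC (sg h * z / 3) := by
  classical
  have hs : Summable fun h : O => qw b h ^ l * tau h * JJ h v * eC (sg h * z / 3) := by
    refine Summable.of_norm ?_
    simpa only [norm_mul (_ * _ * JJ _ _), norm_eC, mul_one] using theta_summable b l hv
  have e : ∀ h : O, qw b h ^ l * AA rho (MM Ph0) h v * eC (sg h * z / 3) =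
      (if h = 0 then qw b 0 ^ l * AA rho (MM Ph0) 0 v else 0) +
        qw b h ^ l * tau h * JJ h v * eC (sg h * z / 3) := by
    intro h
    by_cases hh : h = 0
    · subst hh
      simp [tau_zero]
    · rw [if_neg hh, zero_add, tha_AA hh hv, mul_assoc (qw b h ^ l) (tau h)]
  have h0 := hasSum_ite_eq (0 : O) (qw b 0 ^ l * AA rho (MM Ph0) 0 v)
  rw [expand wt_rho rap_Ph0.vInt_MM b l hv z, tsum_congr e, h0.summable.tsum_add hs, h0.tsum_eq,
    ← add_assoc]
  congr 1
  split_ifs with hl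
  · subst hl
    have := const_term (χ := rho) (m := 1) rap_Ph0 od_Ph0.one
      (fun s _ => by rw [od_Ph0 s]; ring) hv
    rw [pow_zero, one_mul, this, Ph0_two_thirds]
    ring
  · rw [tha_qw, zero_pow hl, zero_mul, add_zero]

theorem theta_expand (z : ℂ) {v : ℝ} (hv : 0 < v) :
    theta z v = -(2 / 3) * ((v ^ (2 / 3 : ℝ) : ℝ) : ℂ) +
      ∑' h : O, tau h * JJ h v * eC (sg h * z / 3) := by
  have := EG_theta true 0 z hv
  rw [EG_zero] at this
  simpa only [theta, TH, pow_zero, one_mul, if_true] using this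

theorem TH_aut {a b c d : O} (ha : Rt a) (hb : Rt b) (hc : Rt c) (hd : Rt d)
    (h : a * d - b * c = 1) (Q : ℂ → ℂ → ℝ) :
    TH (fun x y => Q (x * sg a + y * sg c) (x * sg b + y * sg d)) = conj (rho c d) * TH Q :=
  EE_aut ha hb hc hd h _ Q

/-- a function of the form that is invariant under `T_β` and `γ = (1 0; c 1)` and is multiplied by
`w ≠ 1` under `T_β γ T_{-β}` vanishes on point forms -/
theorem thb_conj {Θ : (ℂ → ℂ → ℝ) → ℂ} {β c w : ℂ} (hw : w ≠ 1)
    (hT : ∀ z v, 0 < v → Θ (Qf (z + β) v) = Θ (Qf z v))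
    (hγ : ∀ Q : ℂ → ℂ → ℝ, Θ (fun x y => Q (x * 1 + y * c) (x * 0 + y * 1)) = Θ Q)
    (hγ' : ∀ Q : ℂ → ℂ → ℝ, Θ (fun x y => Q (x * (1 + β * c) + y * c)
      (x * (-(β ^ 2 * c)) + y * (1 - β * c))) = w * Θ Q) (z : ℂ) {v : ℝ} (hv : 0 < v) :
    Θ (Qf z v) = 0 := by
  obtain ⟨z', v', hv', h⟩ := exists_Qf (a := 1) (b := 0) (c := c) (d := 1) (by ring) (z - β) hv
  have e1 : Θ (Qf z' v') = Θ (Qf z v) := by
    rw [show Qf z' v' = fun x y => Qf (z - β) v (x * 1 + y * c) (x * 0 + y * 1) from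
      funext fun x => funext fun y => h x y, hγ, ← hT _ _ hv, sub_add_cancel]
  have e2 : Qf (z' + β) v' = fun x y => Qf z v (x * (1 + β * c) + y * c)
      (x * (-(β ^ 2 * c)) + y * (1 - β * c)) := by
    funext x y
    rw [Qf_add, h, sub_eq_add_neg, Qf_add]
    congr 1 <;> ring
  have e3 := hT z' v' hv'
  rw [e2, hγ', e1] at e3
  have : (w - 1) * Θ (Qf z v) = 0 := by linear_combination e3
  exact (mul_eq_zero.1 this).resolve_left (sub_ne_zero.2 hw)

theorem thb_om_ne : conj (sg om) ≠ 1 := fun h =>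
  isPrimitiveRoot_sg_om.ne_one (by norm_num) (by simpa using congrArg conj h)

theorem thb_summable {v : ℝ} (hv : 0 < v) : Summable fun h : O => ‖tau h * JJ h v‖ := by
  simpa using theta_summable true 0 hv

theorem thb_shift (h : O) (z β : ℂ) :
    eC (sg h * (z + β) / 3) = eC (sg h * β / 3) * eC (sg h * z / 3) := by
  rw [← eC_add]
  congr 1
  ring

/-- If `tau` lives on `3 O`, then `theta (z ± ω) = theta z`; by `exists_Qf`, `Qf_add` this is invariance
of `TH` on all point forms under `T_{±ω}`.  `T_ω (1 0; 3 1) T_{-ω} = (1+3ω, -3ω²; 3, 1-3ω)` has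
`rho 3 (1 - 3ω) = cb 3 (1 - 3ω) ≠ 1` (`cb_three`), `rho 3 1 = 1`; so `theta = 0`, against
`four_zero`. -/
theorem exists_tau_ne_zero : ∃ h : O, ¬ (3 : O) ∣ h ∧ tau h ≠ 0 := by
  by_contra hn
  push Not at hn
  have key : ∀ z : ℂ, TH (Qf z 1) = 0 := by
    intro z
    refine thb_conj (β := sg om) (c := 3) (w := conj ((sg om)⁻¹)) ?_ ?_ ?_ ?_ z one_pos
    · intro h
      rw [map_inv₀, inv_eq_one] at h
      exact thb_om_ne h
    · intro z v hv
      show theta (z + sg om) v = theta z v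
      rw [theta_expand _ hv, theta_expand _ hv]
      congr 1
      refine tsum_congr fun h => ?_
      by_cases h3 : (3 : O) ∣ h
      · obtain ⟨k, rfl⟩ := h3
        rw [thb_shift, show sg (3 * k) * sg om / 3 = sg (k * om) by
          rw [map_mul, map_mul, map_ofNat]; ring, eC_sg, one_mul]
      · rw [hn h h3, zero_mul, zero_mul, zero_mul]
    · intro Q
      have := TH_aut rt_one rt_zero (rt_of_dvd dvd_rfl) rt_one (by ring) Q
      rw [rho_eq_cb (rt_of_dvd dvd_rfl) prim_one, cb_one_right, map_one, map_one, one_mul,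
        map_zero, map_ofNat] at this
      exact this
    · intro Q
      have hp : Prim (1 + 3 * (((0 : ℤ) : O) + ((-1 : ℤ) : O) * om)) := cub_prim 0 (-1)
      have := TH_aut (a := 1 + om * 3) (b := -(om ^ 2 * 3)) (c := 3)
        (d := 1 + 3 * (((0 : ℤ) : O) + ((-1 : ℤ) : O) * om))
        (rt_one.add (rt_of_dvd (dvd_mul_left _ _))) (rt_of_dvd (dvd_mul_left _ _)).neg
        (rt_of_dvd dvd_rfl) (rt_of_prim hp) (by push_cast; ring) Q
      rw [rho_eq_cb (rt_of_dvd dvd_rfl) hp, cb_three, zpow_neg_one] at this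
      rw [← this]
      congr 1
      funext x y
      simp only [map_add, map_mul, map_neg, map_pow, map_one, map_ofNat, map_intCast]
      congr 1
      push_cast
      ring
  have := (four_zero (thb_summable one_pos) (fun h hh => by rw [tau_eq_zero hh, zero_mul])
    (c := -(2 / 3) * (((1 : ℝ) ^ (2 / 3 : ℝ) : ℝ) : ℂ))
    (Eventually.of_forall fun z => by rw [← theta_expand z one_pos]; exact key z)).1
  rw [tau_zero] at this
  norm_num at this

/-- the translate of a form -/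
def thbT (β : ℂ) (Q : ℂ → ℂ → ℝ) : ℂ → ℂ → ℝ := fun x y => Q x (x * β + y)

theorem thbT_Qf (β z : ℂ) (v : ℝ) : thbT β (Qf z v) = Qf (z + β) v :=
  funext fun x => funext fun y => (Qf_add z β v x y).symm

theorem thb_aut {a b d : O} (ha : Prim a) (hb : (3 : O) ∣ b) (hd : Prim d)
    (h : a * d - b * 9 = 1) (β : O) (Q : ℂ → ℂ → ℝ) :
    TH (thbT (sg β) fun x y => Q (x * sg a + y * 9) (x * sg b + y * sg d)) =
      conj (cb 9 d) * TH (thbT (sg β) Q) := by
  have h9 : (3 : O) ∣ 9 := ⟨3, by norm_num⟩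
  have hd' : Prim (d - 9 * β) := hd.congr (by
    rw [sub_sub_cancel]; exact h9.mul_right _)
  have hb' : (3 : O) ∣ β * (d - a) - 9 * β ^ 2 + b := by
    refine (Dvd.dvd.sub (Dvd.dvd.mul_left ?_ _) (h9.mul_right _)).add hb
    have := Dvd.dvd.sub (show (3 : O) ∣ d - 1 from hd) (show (3 : O) ∣ a - 1 from ha)
    rwa [sub_sub_sub_cancel_right] at this
  have := TH_aut (a := a + 9 * β) (b := β * (d - a) - 9 * β ^ 2 + b) (c := 9) (d := d - 9 * β)
    ((rt_of_prim ha).add (rt_of_dvd (h9.mul_right _))) (rt_of_dvd hb') (rt_of_dvd h9)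
    (rt_of_prim hd') (by linear_combination h) (thbT (sg β) Q)
  have e : (9 : O) ∣ d - 9 * β - d := ⟨-β, by ring⟩
  rw [rho_eq_cb (rt_of_dvd h9) hd', cb_per (D := 9) (k := 1) (by rw [pow_one]) e e] at this
  rw [← this]
  congr 1
  funext x y
  simp only [thbT, map_add, map_mul, map_sub, map_pow, map_ofNat]
  congr 1 <;> ring

/-- the average over the translates by `0, ω, 2 ω` -/
noncomputable def thb0 (Q : ℂ → ℂ → ℝ) : ℂ :=
  TH (thbT (sg 0) Q) + TH (thbT (sg om) Q) + TH (thbT (sg (2 * om)) Q)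

theorem thb0_aut {a b d : O} (ha : Prim a) (hb : (3 : O) ∣ b) (hd : Prim d)
    (h : a * d - b * 9 = 1) (Q : ℂ → ℂ → ℝ) :
    thb0 (fun x y => Q (x * sg a + y * 9) (x * sg b + y * sg d)) = conj (cb 9 d) * thb0 Q := by
  simp only [thb0, thb_aut ha hb hd h]
  ring

theorem thb0_expand (z : ℂ) {v : ℝ} (hv : 0 < v) :
    thb0 (Qf z v) = 3 * (-(2 / 3) * ((v ^ (2 / 3 : ℝ) : ℝ) : ℂ)) +
      ∑' h : O, tau h * JJ h v * (1 + eQ (h * om) 3 + eQ (h * om) 3 ^ 2) * eC (sg h * z / 3) := by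
  have hs : ∀ z : ℂ, Summable fun h : O => tau h * JJ h v * eC (sg h * z / 3) := fun z =>
    Summable.of_norm (by simpa only [norm_mul _ (eC _), norm_eC, mul_one] using thb_summable hv)
  simp only [thb0, thbT_Qf]
  have e : ∀ z, TH (Qf z v) = _ := fun z => theta_expand z hv
  rw [e, e, e]
  have e1 : ∀ h : O, eC (sg h * sg om / 3) = eQ (h * om) 3 := fun h => by
    rw [eQ, map_mul, map_ofNat]
  have e2 : ∀ h : O, eC (sg h * sg (2 * om) / 3) = eQ (h * om) 3 ^ 2 := fun h => by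
    rw [sq, ← e1, ← eC_add, map_mul, map_ofNat]
    congr 1
    ring
  have e3 : (∑' h : O, tau h * JJ h v * (1 + eQ (h * om) 3 + eQ (h * om) 3 ^ 2) *
      eC (sg h * z / 3)) = (∑' h : O, tau h * JJ h v * eC (sg h * (z + sg 0) / 3)) +
      (∑' h : O, tau h * JJ h v * eC (sg h * (z + sg om) / 3)) +
      ∑' h : O, tau h * JJ h v * eC (sg h * (z + sg (2 * om)) / 3) := by
    rw [← (hs _).tsum_add (hs _), ← ((hs _).add (hs _)).tsum_add (hs _)]
    refine tsum_congr fun h => ?_
    rw [map_zero, add_zero, thb_shift, thb_shift, e1, e2]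
    ring
  rw [e3]
  ring

theorem thb_sum {h : O} (hh : Prim h ∨ Prim (-h)) : 1 + eQ (h * om) 3 + eQ (h * om) 3 ^ 2 = 0 := by
  have h0 : ¬ Rt om := fun h => by
    have : Rt (((0 : ℤ) : O) + ((1 : ℤ) : O) * om) := by simpa using h
    rw [rt_coord] at this
    norm_num at this
  have h1 : eQ (h * om) 3 ≠ 1 := by
    rw [Ne, eQ_three_eq_one]
    rcases hh with hh | hh
    · rwa [rt_prim_mul hh]
    · rwa [← rt_neg, ← neg_mul, rt_prim_mul hh]
  have h3 : eQ (h * om) 3 ^ 3 = 1 := by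
    rw [eQ_pow]
    exact eQ_of_dvd (Dvd.intro _ (by push_cast; rfl))
  have : (eQ (h * om) 3 - 1) * (1 + eQ (h * om) 3 + eQ (h * om) 3 ^ 2) = 0 := by
    linear_combination h3
  exact (mul_eq_zero.1 this).resolve_left (sub_ne_zero.2 h1)

/-- `θ₀(Q) = ∑_{j<3} TH (Q ∘ T_{jω})` has the expansion `3 (const + ∑_{3 ∣ h})`.  If `tau` vanishes on
`3 O ∖ λ³ O`, `θ₀` is invariant under `T_{±1/λ}`.  `γ = (1 0; 9 1)` fixes `θ₀`
(`T_{jω} γ T_{-jω}` has bottom row `(9, 1 - 9jω)`), `γ'' = T_{1/λ} γ T_{-1/λ} = (1-3λ, 3; 9, 1+3λ)`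
multiplies it by `conj (cb 9 (1 + 3λ)) ≠ 1` (bottom rows `(9, 1 + 3λ - 9jω)`, `rho_add`); so `θ₀ = 0`,
against `four_zero`. -/
theorem exists_tau_ne_zero' : ∃ h : O, (3 : O) ∣ h ∧ ¬ lam ^ 3 ∣ h ∧ tau h ≠ 0 := by
  by_contra hn
  push Not at hn
  have hl : sg lam ≠ 0 := fun h => lam_ne_zero (sg_eq_zero.1 h)
  have hl2 : sg lam ^ 2 = -3 := by rw [← map_pow, lam_sq, map_neg, map_ofNat]
  have hli : (sg lam)⁻¹ = -(sg lam) / 3 := by
    field_simp
    linear_combination hl2
  have key : ∀ z : ℂ, thb0 (Qf z 1) = 0 := by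
    intro z
    refine thb_conj (β := (sg lam)⁻¹) (c := 9) (w := conj (sg om)) thb_om_ne ?_ ?_ ?_ z one_pos
    · intro z v hv
      rw [thb0_expand _ hv, thb0_expand _ hv]
      congr 1
      refine tsum_congr fun h => ?_
      by_cases h3 : lam ^ 3 ∣ h
      · obtain ⟨k, rfl⟩ := h3
        rw [thb_shift, show sg (lam ^ 3 * k) * (sg lam)⁻¹ / 3 = sg (-k) by
          rw [map_mul, map_pow, map_neg]
          field_simp
          linear_combination sg k * hl2, eC_sg, one_mul]
      · by_cases hr : Rt h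
        · rcases hr.cases with h1 | h1
          · simp only [hn h h1 h3, zero_mul]
          · simp only [thb_sum h1, zero_mul, mul_zero]
        · simp only [tau_eq_zero hr, zero_mul]
    · intro Q
      have := thb0_aut prim_one (dvd_zero _) prim_one (by ring) Q
      rw [cb_one_right, map_one, map_one, one_mul, map_zero] at this
      exact this
    · intro Q
      have hp : Prim (1 + 3 * (((1 : ℤ) : O) + ((2 : ℤ) : O) * om)) := cub_prim 1 2
      have hp' : Prim (1 - 3 * lam) := ⟨-lam, by ring⟩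
      have := thb0_aut (b := 3) hp' dvd_rfl hp (by
        have := lam_sq
        unfold lam at this ⊢
        push_cast
        linear_combination -9 * this) Q
      rw [show (9 : O) = 3 * 3 by norm_num, cb_mul_left, cb_three,
        show sg om ^ (2 : ℤ) * sg om ^ (2 : ℤ) = sg om by
          rw [zpow_ofNat]; linear_combination sg om * cub_om_cube] at this
      rw [← this]
      congr 1
      funext x y
      have e : sg (1 + 3 * (((1 : ℤ) : O) + ((2 : ℤ) : O) * om)) = 1 + 3 * sg lam := by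
        unfold lam
        simp only [map_add, map_mul, map_one, map_ofNat, map_intCast]
        push_cast
        ring
      rw [e, hli]
      simp only [map_sub, map_mul, map_one, map_ofNat]
      congr 1
      · ring
      · linear_combination (-x) * hl2
  have hs : Summable fun h : O =>
      ‖tau h * JJ h 1 * (1 + eQ (h * om) 3 + eQ (h * om) 3 ^ 2)‖ := by
    refine Summable.of_nonneg_of_le (fun _ => norm_nonneg _) (fun h => ?_)
      ((thb_summable one_pos).mul_right 3)
    rw [norm_mul]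
    refine mul_le_mul_of_nonneg_left ?_ (norm_nonneg _)
    refine norm_add₃_le.trans ?_
    rw [norm_pow, norm_eQ]
    norm_num
  have := (four_zero hs (fun h hh => by rw [tau_eq_zero hh, zero_mul, zero_mul])
    (c := 3 * (-(2 / 3) * (((1 : ℝ) ^ (2 / 3 : ℝ) : ℝ) : ℂ)))
    (Eventually.of_forall fun z => by rw [← thb0_expand z one_pos]; exact key z)).1
  rw [tau_zero] at this
  norm_num at this

theorem tha_prim {n : O} (hn : Prim n) (h : tau n ≠ 0) : tau 1 ≠ 0 := by
  intro h1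
  have := tau_shape isUnit_one 0 hn
  rw [pow_zero, mul_one, one_mul, h1, zero_mul, zero_mul] at this
  exact h this

theorem tau_one_ne_zero : tau 1 ≠ 0 := by
  obtain ⟨h, h3, hh⟩ := exists_tau_ne_zero
  have hr : Rt h := by
    by_contra hr
    exact hh (tau_eq_zero hr)
  rcases rhob_pm hr h3 with hp | hp
  · exact tha_prim hp hh
  · exact tha_prim hp (by rwa [tau_neg])

theorem exists_tau_lam_sq : ∃ ζ : O, IsUnit ζ ∧ tau (ζ * lam ^ 2) ≠ 0 := by
  obtain ⟨h, ⟨k, rfl⟩, h3, hh⟩ := exists_tau_ne_zero'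
  have e : (3 : O) * k = lam ^ 2 * -k := by rw [lam_sq]; ring
  have hk : ¬ lam ∣ -k := by
    rintro ⟨m, hm⟩
    exact h3 ⟨m, by rw [e, hm]; ring⟩
  obtain ⟨u, n, hu, hn, hun⟩ := exists_unit_prim hk
  refine ⟨u, hu, fun h0 => hh ?_⟩
  rw [e, hun, show lam ^ 2 * (u * n) = u * lam ^ 2 * n by ring, tau_shape hu 2 hn, h0, zero_mul,
    zero_mul]

end Crest.Agent.R17.D
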