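import Crest.Agent.R17.D.Space
import Crest.Agent.R17.D.Rho

/-! Row 17, block D (owner helper53): unfolding with a partition of unity. -/

set_option autoImplicit false

namespace Crest.Agent.R17.D

open Complex MeasureTheory Filter Set
open scoped Real Topology ComplexConjugate

/-- ABSTRACT UNFOLDING.  `H w = ∑ h₀ (γ w)` is invariant and positive, `h = h₀ / H` has
`∑_γ h (γ⁻¹ w) = 1`, so `0 = ∫ u = ∑_γ ∫ h(γ⁻¹ w) u(w) = ∑_γ ∫ h(w) u(γ w) = ∫ h N`
(`integral_tsum`; `∑_γ ∫ h(γ⁻¹ w) ‖u w‖ = ∫ ‖u‖ < ∞` by `lintegral_tsum`), and `h N ≥ 0` is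
integrable. -/
theorem unfold {Γ X : Type} [Group Γ] [Countable Γ] [MeasurableSpace X] (μ : Measure X)
    (act : Γ → X → X) (h1 : ∀ w, act 1 w = w) (hmul : ∀ γ δ w, act (γ * δ) w = act γ (act δ w))
    (hmp : ∀ γ, MeasurePreserving (act γ) μ μ) {h₀ : X → ℝ} (hm : Measurable h₀)
    (hp : ∀ w, 0 < h₀ w) (hs : ∀ w, Summable fun γ => h₀ (act γ w)) {u : X → ℂ}
    (hu : Integrable u μ) (h0 : ∫ w, u w ∂μ = 0) {N : X → ℝ} (hN0 : ∀ w, 0 ≤ N w)
    (hN : ∀ w, HasSum (fun γ => u (act γ w)) (N w)) : ∀ᵐ w ∂μ, N w = 0 := by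
  obtain ⟨H, hH⟩ : ∃ H : X → ℝ, H = fun w => ∑' γ, h₀ (act γ w) := ⟨_, rfl⟩
  have Hm : Measurable H := by
    rw [hH]
    exact Measurable.tsum fun γ => hm.comp (hmp γ).measurable
  have Hp : ∀ w, 0 < H w := fun w => by
    rw [hH]
    exact (hs w).tsum_pos (fun γ => (hp _).le) 1 (hp _)
  have Hi : ∀ δ w, H (act δ w) = H w := fun δ w => by
    rw [hH]
    dsimp only
    simp only [← hmul]
    exact (Equiv.mulRight δ).tsum_eq fun γ => h₀ (act γ w)
  obtain ⟨h, hh⟩ : ∃ h : X → ℝ, h = fun w => h₀ w / H w := ⟨_, rfl⟩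
  have hm' : Measurable h := by
    rw [hh]
    exact hm.div Hm
  have hp' : ∀ w, 0 < h w := fun w => by
    rw [hh]
    exact div_pos (hp w) (Hp w)
  have hsum : ∀ w, HasSum (fun γ => h (act γ w)) 1 := fun w => by
    have e : HasSum (fun γ => h₀ (act γ w)) (H w) := by
      rw [hH]
      exact (hs w).hasSum
    have := e.div_const (H w)
    rw [div_self (Hp w).ne'] at this
    simpa only [hh, Hi] using this
  obtain ⟨f, hf⟩ : ∃ f : Γ → X → ℂ, f = fun γ w => (h (act γ w) : ℂ) * u w := ⟨_, rfl⟩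
  have fm : ∀ γ, AEStronglyMeasurable (f γ) μ := fun γ => by
    rw [hf]
    exact ((measurable_ofReal.comp (hm'.comp (hmp γ).measurable)).aestronglyMeasurable).mul hu.1
  have fs : ∀ w, HasSum (fun γ => f γ w) (u w) := fun w => by
    have := (Complex.hasSum_ofReal.2 (hsum w)).mul_right (u w)
    rw [ofReal_one, one_mul] at this
    simpa only [hf] using this
  have fe : ∀ w, ∑' γ, ‖f γ w‖ₑ = ‖u w‖ₑ := fun w => by
    have e1 : ∀ γ, ‖f γ w‖ₑ = ENNReal.ofReal (h (act γ w)) * ‖u w‖ₑ := fun γ => by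
      rw [hf]
      dsimp only
      rw [enorm_mul, ← ofReal_norm (h (act γ w) : ℂ), norm_real,
        Real.norm_of_nonneg (hp' _).le]
    simp only [e1]
    rw [ENNReal.tsum_mul_right, ← ENNReal.ofReal_tsum_of_nonneg (fun γ => (hp' _).le)
      (hsum w).summable, (hsum w).tsum_eq, ENNReal.ofReal_one, one_mul]
  have fl : ∑' γ, ∫⁻ w, ‖f γ w‖ₑ ∂μ ≠ ⊤ := by
    rw [← lintegral_tsum fun γ => (fm γ).enorm]
    simp only [fe]
    exact hu.2.ne
  obtain ⟨g, hg⟩ : ∃ g : Γ → X → ℂ, g = fun γ w => f γ (act γ⁻¹ w) := ⟨_, rfl⟩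
  have fm' : ∀ γ, AEStronglyMeasurable (f γ) (μ.map (act γ⁻¹)) := fun γ => by
    rw [(hmp γ⁻¹).map_eq]
    exact fm γ
  have gm : ∀ γ, AEStronglyMeasurable (g γ) μ := fun γ => by
    rw [hg]
    exact (fm' γ).comp_measurable (hmp γ⁻¹).measurable
  have gi : ∀ γ, ∫ w, g γ w ∂μ = ∫ w, f γ w ∂μ := fun γ => by
    rw [hg]
    dsimp only
    rw [← integral_map (hmp γ⁻¹).measurable.aemeasurable (fm' γ), (hmp γ⁻¹).map_eq]
  have gl : ∀ γ, ∫⁻ w, ‖g γ w‖ₑ ∂μ = ∫⁻ w, ‖f γ w‖ₑ ∂μ := fun γ => by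
    rw [hg]
    dsimp only
    rw [← lintegral_map' (fm' γ).enorm (hmp γ⁻¹).measurable.aemeasurable, (hmp γ⁻¹).map_eq]
  have gl' : ∑' γ, ∫⁻ w, ‖g γ w‖ₑ ∂μ ≠ ⊤ := by
    simp only [gl]
    exact fl
  have gs : ∀ w, ∑' γ, g γ w = ((h w * N w : ℝ) : ℂ) := fun w => by
    have e1 : HasSum (fun γ : Γ => u (act γ⁻¹ w)) (N w) :=
      (Equiv.inv Γ).hasSum_iff.2 (hN w)
    have e2 : ∀ γ, g γ w = (h w : ℂ) * u (act γ⁻¹ w) := fun γ => by
      rw [hg, hf]
      dsimp only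
      rw [← hmul, mul_inv_cancel, h1]
    simp only [e2]
    rw [(e1.mul_left _).tsum_eq, ofReal_mul]
  have key : ∫ w, ((h w * N w : ℝ) : ℂ) ∂μ = 0 := by
    simp only [← gs]
    rw [integral_tsum gm gl']
    simp only [gi]
    rw [← integral_tsum fm fl]
    simp only [(fs _).tsum_eq]
    exact h0
  have hint : Integrable (fun w => ((h w * N w : ℝ) : ℂ)) μ := by
    simp only [← gs]
    refine ⟨(AEMeasurable.tsum fun γ => (gm γ).aemeasurable).aestronglyMeasurable, ?_⟩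
    refine lt_of_le_of_lt (lintegral_mono fun w => enorm_tsum_le_tsum_enorm) ?_
    rw [lintegral_tsum fun γ => (gm γ).enorm]
    exact gl'.lt_top
  have hint' : Integrable (fun w => h w * N w) μ := by
    simpa only [RCLike.re_to_complex, ofReal_re] using hint.re
  rw [integral_complex_ofReal, ofReal_eq_zero,
    integral_eq_zero_iff_of_nonneg (fun w => mul_nonneg (hp' w).le (hN0 w)) hint'] at key
  filter_upwards [key] with w hw
  exact (mul_eq_zero.1 hw).resolve_left (hp' w).ne'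

theorem G2.ext' {γ δ : G2} (ha : γ.a = δ.a) (hb : γ.b = δ.b) (hc : γ.c = δ.c) (hd : γ.d = δ.d) :
    γ = δ := by
  cases γ; cases δ; simp_all

noncomputable instance : Mul G2 where
  mul γ δ := ⟨γ.a * δ.a + γ.b * δ.c, γ.a * δ.b + γ.b * δ.d, γ.c * δ.a + γ.d * δ.c,
    γ.c * δ.b + γ.d * δ.d, (γ.ha.mul δ.ha).add (γ.hb.mul δ.hc), (γ.ha.mul δ.hb).add (γ.hb.mul δ.hd),
    (γ.hc.mul δ.ha).add (γ.hd.mul δ.hc), (γ.hc.mul δ.hb).add (γ.hd.mul δ.hd), by
      linear_combination (δ.a * δ.d - δ.b * δ.c) * γ.det + δ.det⟩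

noncomputable instance : One G2 := ⟨⟨1, 0, 0, 1, rt_one, rt_zero, rt_zero, rt_one, by simp⟩⟩

noncomputable instance : Inv G2 where
  inv γ := ⟨γ.d, -γ.b, -γ.c, γ.a, γ.hd, γ.hb.neg, γ.hc.neg, γ.ha, by linear_combination γ.det⟩

@[simp] theorem G2.mul_a (γ δ : G2) : (γ * δ).a = γ.a * δ.a + γ.b * δ.c := rfl
@[simp] theorem G2.mul_b (γ δ : G2) : (γ * δ).b = γ.a * δ.b + γ.b * δ.d := rfl
@[simp] theorem G2.mul_c (γ δ : G2) : (γ * δ).c = γ.c * δ.a + γ.d * δ.c := rfl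
@[simp] theorem G2.mul_d (γ δ : G2) : (γ * δ).d = γ.c * δ.b + γ.d * δ.d := rfl
@[simp] theorem G2.one_a : (1 : G2).a = 1 := rfl
@[simp] theorem G2.one_b : (1 : G2).b = 0 := rfl
@[simp] theorem G2.one_c : (1 : G2).c = 0 := rfl
@[simp] theorem G2.one_d : (1 : G2).d = 1 := rfl
@[simp] theorem G2.inv_a (γ : G2) : γ⁻¹.a = γ.d := rfl
@[simp] theorem G2.inv_b (γ : G2) : γ⁻¹.b = -γ.b := rfl
@[simp] theorem G2.inv_c (γ : G2) : γ⁻¹.c = -γ.c := rfl
@[simp] theorem G2.inv_d (γ : G2) : γ⁻¹.d = γ.a := rfl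

noncomputable instance : Group G2 :=
  Group.ofLeftAxioms
    (fun γ δ ε => G2.ext' (by simp; ring) (by simp; ring) (by simp; ring) (by simp; ring))
    (fun γ => G2.ext' (by simp) (by simp) (by simp) (by simp))
    (fun γ => G2.ext' (by simp; linear_combination γ.det) (by simp; ring) (by simp; ring)
      (by simp; linear_combination γ.det))

theorem unf_inj : Function.Injective fun γ : G2 => ((γ.a, γ.b), (γ.c, γ.d)) := fun γ δ h => by
  simp only [Prod.mk.injEq] at h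
  exact G2.ext' h.1.1 h.1.2 h.2.1 h.2.2

instance : Countable G2 := by
  have : Countable O := crd.symm.injective.countable
  exact unf_inj.countable

theorem G2.act_one (w : ℂ × ℝ) : (1 : G2).act w = w := by
  refine QX_inj fun x y => ?_
  rw [G2.QX_act]
  simp

theorem G2.act_mul (γ δ : G2) (w : ℂ × ℝ) : (γ * δ).act w = γ.act (δ.act w) := by
  refine QX_inj fun x y => ?_
  rw [G2.QX_act, G2.QX_act, G2.QX_act]
  simp only [G2.mul_a, G2.mul_b, G2.mul_c, G2.mul_d, map_add, map_mul]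
  congr 1 <;> ring

theorem unf_pos (w : ℂ × ℝ) : 0 < QX w 1 0 + QX w 0 1 :=
  add_pos (Qf_pos _ (Real.exp_pos _) (Or.inl one_ne_zero))
    (Qf_pos _ (Real.exp_pos _) (Or.inr one_ne_zero))

/-- `unfold` with `h₀ w = (QX w 1 0 + QX w 0 1)⁻¹ ^ 5` (`Qf_ge`, `summable_four`) -/
theorem unfold_G2 {u : ℂ × ℝ → ℂ} (hu : Integrable u) (h0 : ∫ w, u w = 0) {N : ℂ × ℝ → ℝ}
    (hN0 : ∀ w, 0 ≤ N w) (hN : ∀ w, HasSum (fun γ : G2 => u (γ.act w)) (N w)) :
    ∀ᵐ w, N w = 0 := by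
  refine unfold volume G2.act G2.act_one G2.act_mul G2.act_mp
    (h₀ := fun w => (QX w 1 0 + QX w 0 1)⁻¹ ^ 5)
    ((((continuous_QX 1 0).add (continuous_QX 0 1)).measurable.inv).pow_const 5)
    (fun w => pow_pos (inv_pos.2 (unf_pos w)) 5) (fun w => ?_) hu h0 hN0 hN
  obtain ⟨c, hc, hQ⟩ := Qf_ge (w.1 * Real.exp w.2) (Real.exp_pos w.2)
  refine Summable.of_nonneg_of_le (fun γ => (pow_pos (inv_pos.2 (unf_pos _)) 5).le) (fun γ => ?_)
    ((summable_four.comp_injective unf_inj).mul_left (c⁻¹ ^ 5))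
  have h1 := hQ (sg γ.a) (sg γ.b)
  have h2 := hQ (sg γ.c) (sg γ.d)
  have hs : 0 < nm γ.a + nm γ.b + nm γ.c + nm γ.d := by
    have ha := nm_nonneg γ.a
    have hb := nm_nonneg γ.b
    have hc := nm_nonneg γ.c
    have hd := nm_nonneg γ.d
    by_cases h : γ.a = 0
    · have : γ.b ≠ 0 := fun h' => by
        have := γ.det
        rw [h, h'] at this
        simp at this
      have := nm_pos this
      linarith
    · have := nm_pos h
      linarith
  simp only [Function.comp, G2.QX_act, one_mul, zero_mul, add_zero, zero_add]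
  rw [← mul_pow, ← mul_inv]
  simp only [norm_sg, Real.sq_sqrt (nm_nonneg _)] at h1 h2
  refine pow_le_pow_left₀ (inv_nonneg.2 ?_) (inv_anti₀ (mul_pos hc hs) ?_) 5
  · exact add_nonneg (Qf_nonneg _ (Real.exp_pos _) _ _) (Qf_nonneg _ (Real.exp_pos _) _ _)
  · unfold QX
    linarith

end Crest.Agent.R17.D
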