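import Crest.Agent.R17.D.Unfold
import Crest.Agent.R17.D.Four
import Crest.Agent.R17.D.Cocycle

/-! Row 17, block D (owner helper53): a pseudo-Eisenstein series with zero constant term vanishes. -/

set_option autoImplicit false

namespace Crest.Agent.R17.D

open Complex MeasureTheory Filter Set
open scoped Real Topology ComplexConjugate

/-- profiles: continuous, bounded, `O(Q^{-6})` -/
structure Prof (F : ℝ → ℂ) (C : ℝ) : Prop where
  cont : ContinuousOn F (Ioi 0)
  bdd : ∀ Q, 0 < Q → ‖F Q‖ ≤ C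
  dec : ∀ Q, 0 < Q → ‖F Q‖ ≤ C * Q⁻¹ ^ 6

variable {F : ℝ → ℂ} {C : ℝ} {χ : O → O → ℂ} {m : ℂ} {p : O}

theorem Prof.nonneg (hF : Prof F C) : 0 ≤ C := (norm_nonneg _).trans (hF.bdd 1 one_pos)

theorem Prof.cube (hF : Prof F C) {Q : ℝ} (hQ : 0 < Q) : ‖F Q‖ ≤ C * Q⁻¹ ^ 3 := by
  rcases le_total Q 1 with h | h
  · exact (hF.bdd Q hQ).trans
      (le_mul_of_one_le_right hF.nonneg (one_le_pow₀ ((one_le_inv₀ hQ).2 h)))
  · exact (hF.dec Q hQ).trans (mul_le_mul_of_nonneg_left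
      (pow_le_pow_of_le_one (by positivity) (inv_le_one_of_one_le₀ h) (by norm_num)) hF.nonneg)

theorem vana_bound (hF : Prof F C) (hχ : Wt χ m) : ∃ B : ℝ, 0 ≤ B ∧ ∀ (z : ℂ) (v : ℝ), 0 < v →
    Summable (fun r : O × O => ‖χ r.1 r.2 * F (Qf z v (sg r.1) (sg r.2))‖) ∧
      ∑' r : O × O, ‖χ r.1 r.2 * F (Qf z v (sg r.1) (sg r.2))‖ ≤ B * (1 + v⁻¹ ^ 3) := by
  classical
  obtain ⟨M, hM⟩ := hχ.bdd
  obtain ⟨K, hK, hm⟩ := maj
  have hM0 : 0 ≤ M := (norm_nonneg _).trans (hM 0 0)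
  have hC := hF.nonneg
  refine ⟨M * C * (2 * K + 2), by positivity, fun z v hv => ?_⟩
  obtain ⟨h1, h2⟩ := hm z v hv
  have h3 := ((h1.hasSum.add (hasSum_ite_eq ((0 : O), (1 : O)) (1 : ℝ))).add
    (hasSum_ite_eq ((0 : O), (-1 : O)) (1 : ℝ))).mul_left (M * C)
  have h4 : ∀ r : O × O, ‖χ r.1 r.2 * F (Qf z v (sg r.1) (sg r.2))‖ ≤ M * C *
      ((if r.1 = 0 then 0 else (Qf z v (sg r.1) (sg r.2))⁻¹ ^ 3) +
        (if r = (0, 1) then 1 else 0) + (if r = (0, -1) then 1 else 0)) := by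
    rintro ⟨c, d⟩
    rw [norm_mul]
    by_cases hc : c = 0
    · subst hc
      by_cases hd : d = 1 ∨ d = -1
      · have h5 : 0 < Qf z v (sg 0) (sg d) :=
          Qf_pos z hv (Or.inr (by rcases hd with rfl | rfl <;> simp))
        refine (mul_le_mul (hM _ _) (hF.bdd _ h5) (norm_nonneg _) hM0).trans
          (le_mul_of_one_le_right (by positivity) ?_)
        rcases hd with rfl | rfl
        · simp only [if_true]; split_ifs <;> norm_num
        · simp only [if_true]; split_ifs <;> norm_num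
      · rw [hχ.zero, if_neg hd, norm_zero, zero_mul, if_pos rfl]
        positivity
    · have h5 : 0 < Qf z v (sg c) (sg d) := Qf_pos z hv (Or.inl (mt sg_eq_zero.1 hc))
      simpa [hc, mul_assoc] using mul_le_mul (hM _ _) (hF.cube h5) (norm_nonneg _) hM0
  have h5 := Summable.of_nonneg_of_le (fun _ => norm_nonneg _) h4 h3.summable
  refine ⟨h5, (h5.tsum_le_tsum h4 h3.summable).trans ?_⟩
  rw [h3.tsum_eq, mul_assoc (M * C)]
  refine mul_le_mul_of_nonneg_left ?_ (by positivity)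
  have h6 : 0 < v⁻¹ := by positivity
  have h7 : v⁻¹ ≤ 1 + v⁻¹ ^ 3 := by nlinarith [sq_nonneg (v⁻¹ - 1), mul_pos h6 h6]
  have h8 := pow_pos h6 3
  nlinarith [mul_le_mul_of_nonneg_left h7 hK.le]

theorem Prof.summable (hF : Prof F C) (hχ : Wt χ m) (z : ℂ) {v : ℝ} (hv : 0 < v) :
    Summable fun r : O × O => ‖χ r.1 r.2 * F (Qf z v (sg r.1) (sg r.2))‖ :=
  let ⟨_, _, h⟩ := vana_bound hF hχ
  (h z v hv).1

theorem Prof.norm_EE_le (hF : Prof F C) (hχ : Wt χ m) : ∃ B : ℝ, ∀ (z : ℂ) (v : ℝ), 0 < v →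
    ‖EE χ F (Qf z v)‖ ≤ B * (1 + v⁻¹ ^ 3) :=
  let ⟨B, _, h⟩ := vana_bound hF hχ
  ⟨B, fun z v hv => (norm_tsum_le_tsum_norm (h z v hv).1).trans (h z v hv).2⟩

theorem vana_cont (hF : Prof F C) {x y : ℂ} (h : x ≠ 0 ∨ y ≠ 0) :
    Continuous fun w => F (QX w x y) :=
  hF.cont.comp_continuous (continuous_QX x y) fun _ => Qf_pos _ (Real.exp_pos _) h

theorem vana_meas (hF : Prof F C) (hχ : Wt χ m) : StronglyMeasurable fun w => EE χ F (QX w) := by
  have : Countable O := crd.symm.injective.countable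
  refine stronglyMeasurable_of_tendsto (atTop : Filter (Finset (O × O)))
    (f := fun S w => ∑ r ∈ S, χ r.1 r.2 * F (QX w (sg r.1) (sg r.2))) (fun S => ?_)
    (tendsto_pi_nhds.2 fun w => (hF.summable hχ _ (Real.exp_pos _)).of_norm.hasSum)
  refine (continuous_finsetSum _ fun r _ => ?_).stronglyMeasurable
  by_cases h : r.1 ≠ 0 ∨ r.2 ≠ 0
  · exact continuous_const.mul (vana_cont hF (h.imp (mt sg_eq_zero.1) (mt sg_eq_zero.1)))
  · push Not at h
    simp [h.1, h.2, hχ.zero, continuous_const]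

/-- a pointwise convergent countable sum of measurable functions -/
theorem Prof.measurable_EE (hF : Prof F C) (hχ : Wt χ m) :
    AEStronglyMeasurable (fun w => EE χ F (QX w)) volume := (vana_meas hF hχ).aestronglyMeasurable

open Classical in
/-- the test function of the unfolding -/
noncomputable def uu (χ : O → O → ℂ) (F : ℝ → ℂ) (w : ℂ × ℝ) : ℂ :=
  (if w.1 * Real.exp w.2 ∈ Fd then 1 else 0) * (F (QX w 0 1) * conj (EE χ F (QX w)))

theorem vana_QX (w : ℂ × ℝ) : QX w 0 1 = Real.exp (-w.2) := by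
  rw [QX, Qf_zero_left, norm_one, one_pow, one_div, Real.exp_neg]

theorem vana_scale {E : Type} [NormedAddCommGroup E] [NormedSpace ℝ E] (g : ℂ → E) (ℓ : ℝ) :
    ∫ u : ℂ, Fd.indicator g (u * Real.exp ℓ) = Real.exp (-(2 * ℓ)) • ∫ z in Fd, g z := by
  have h := Measure.integral_comp_smul (volume : Measure ℂ) (Fd.indicator g) (Real.exp ℓ)
  rw [finrank_real_complex, abs_of_pos (by positivity), ← Real.exp_nat_mul, ← Real.exp_neg,
    integral_indicator measurableSet_Fd] at h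
  simpa only [real_smul, mul_comm, Nat.cast_ofNat] using h

theorem vana_exp (ℓ : ℝ) : Real.exp (-(2 * ℓ)) * (min 1 (Real.exp (-ℓ))⁻¹ ^ 6 *
    (1 + (Real.exp ℓ)⁻¹ ^ 3)) ≤ 2 * Real.exp (-1 * |ℓ|) := by
  rw [← Real.exp_neg, ← Real.exp_neg, neg_neg]
  rcases le_total 0 ℓ with h | h
  · rw [min_eq_left (Real.one_le_exp h), abs_of_nonneg h, one_pow, one_mul, mul_add, mul_one,
      ← Real.exp_nat_mul, ← Real.exp_add, two_mul (Real.exp _)]
    gcongr <;> push_cast <;> linarith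
  · rw [min_eq_right (Real.exp_le_one_iff.2 h), abs_of_nonpos h, mul_add, mul_one, mul_add,
      ← Real.exp_nat_mul, ← Real.exp_nat_mul, ← Real.exp_add, ← Real.exp_add, ← Real.exp_add,
      two_mul (Real.exp _)]
    gcongr <;> push_cast <;> linarith

theorem Prof.integrable_uu (hF : Prof F C) (hχ : Wt χ m) : Integrable (uu χ F) := by
  classical
  obtain ⟨B, hB⟩ := hF.norm_EE_le hχ
  have hS : MeasurableSet {w : ℂ × ℝ | w.1 * Real.exp w.2 ∈ Fd} :=
    measurableSet_Fd.preimage (by fun_prop)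
  let b : ℝ → ℝ := fun ℓ => C * min 1 (Real.exp (-ℓ))⁻¹ ^ 6 * (B * (1 + (Real.exp ℓ)⁻¹ ^ 3))
  have hb : Continuous b := by
    simp only [b, ← Real.exp_neg]
    fun_prop
  have hC := hF.nonneg
  have hB0 : 0 ≤ B := by
    have := (norm_nonneg _).trans (hB 0 1 one_pos)
    nlinarith
  have hb0 : ∀ ℓ, 0 ≤ b ℓ := fun ℓ => by positivity
  have hm : AEStronglyMeasurable
      (fun w : ℂ × ℝ => Fd.indicator (fun _ => b w.2) (w.1 * Real.exp w.2)) volume :=
    ((hb.comp continuous_snd).stronglyMeasurable.indicator hS).aestronglyMeasurable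
  refine Integrable.mono' (g := fun w => Fd.indicator (fun _ => b w.2) (w.1 * Real.exp w.2))
    ((integrable_prod_iff' hm).2 ⟨ae_of_all _ fun ℓ => ?_, ?_⟩) ?_ (ae_of_all _ fun w => ?_)
  · have h := (integrable_comp_smul_iff (volume : Measure ℂ) (Fd.indicator fun _ => b ℓ)
      (Real.exp_pos ℓ).ne').2 ((integrable_indicator_iff measurableSet_Fd).2
        (integrableOn_const volume_Fd_ne_top))
    simpa only [real_smul, mul_comm] using h
  · refine ((linec_exp_abs one_pos).const_mul (volume.real Fd * (C * B * 2))).mono'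
      hm.prod_swap.norm.integral_prod_right' (ae_of_all _ fun ℓ => ?_)
    have h1 : ∀ u : ℂ, ‖Fd.indicator (fun _ => b ℓ) (u * Real.exp ℓ)‖ =
        Fd.indicator (fun _ => b ℓ) (u * Real.exp ℓ) := fun u =>
      Real.norm_of_nonneg (indicator_nonneg (fun _ _ => hb0 ℓ) _)
    simp only [h1, vana_scale, setIntegral_const, smul_eq_mul]
    rw [Real.norm_of_nonneg (by have := hb0 ℓ; positivity)]
    have := mul_le_mul_of_nonneg_left (vana_exp ℓ)
      (show 0 ≤ volume.real Fd * (C * B) by positivity)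
    simp only [b]
    linarith
  · exact ((stronglyMeasurable_const.ite hS stronglyMeasurable_const).mul
      ((vana_cont hF (Or.inr one_ne_zero)).stronglyMeasurable.mul
        (continuous_conj.comp_stronglyMeasurable (vana_meas hF hχ)))).aestronglyMeasurable
  · rw [uu, indicator_apply]
    split_ifs
    · rw [one_mul, norm_mul, norm_conj, vana_QX]
      refine mul_le_mul ?_ (hB _ _ (Real.exp_pos _)) (norm_nonneg _) (by positivity)
      rcases min_choice 1 (Real.exp (-w.2))⁻¹ with h | h <;> rw [h]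
      · simpa using hF.bdd _ (Real.exp_pos _)
      · exact hF.dec _ (Real.exp_pos _)
    · simp

theorem Prof.integral_uu (hF : Prof F C) (hχ : Wt χ m)
    (h0 : ∀ v : ℝ, 0 < v → ∫ z in Fd, EE χ F (Qf z v) = 0) : ∫ w, uu χ F w = 0 := by
  classical
  rw [Measure.volume_eq_prod, integral_prod_symm _ (hF.integrable_uu hχ)]
  refine integral_eq_zero_of_ae (ae_of_all _ fun ℓ => ?_)
  have h1 : ∀ u : ℂ, uu χ F (u, ℓ) = Fd.indicator
      (fun z => F (Real.exp (-ℓ)) * conj (EE χ F (Qf z (Real.exp ℓ)))) (u * Real.exp ℓ) := by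
    intro u
    rw [uu, vana_QX, indicator_apply]
    split_ifs
    · exact one_mul _
    · exact zero_mul _
  simp only [h1, vana_scale, integral_const_mul, integral_conj, h0 _ (Real.exp_pos ℓ)]
  simp

/-- the translation `T_b` -/
noncomputable def vanb_T (b : O) (hb : Rt b) : G2 := ⟨1, b, 0, 1, rt_one, hb, rt_zero, rt_one, by simp⟩

theorem vanb_T_act {b : O} (hb : Rt b) (γ : G2) (w : ℂ × ℝ) :
    ((vanb_T b hb * γ).act w).1 * Real.exp ((vanb_T b hb * γ).act w).2 =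
      (γ.act w).1 * Real.exp (γ.act w).2 + sg b := by
  rw [G2.act_mul]
  generalize γ.act w = w
  have he : (Real.exp w.2 : ℂ) ≠ 0 := by exact_mod_cast (Real.exp_pos _).ne'
  have h : (w.1 + sg b / Real.exp w.2) * Real.exp w.2 = w.1 * Real.exp w.2 + sg b := by
    field_simp
  have : (vanb_T b hb).act w = (w.1 + sg b / Real.exp w.2, w.2) := QX_inj fun x y => by
    rw [G2.QX_act, QX, QX, h, Qf_add]
    simp [vanb_T]
  rw [this, h]

/-- Summation over `Γ₂` of the indicator of `Fd` times a function of the bottom row. -/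
theorem hasSum_G2 (w : ℂ × ℝ) {U : O × O → ℂ} (hU : Summable U)
    (h0 : ∀ r : O × O, rho r.1 r.2 = 0 → U r = 0) :
    HasSum (fun γ : G2 => Fd.indicator (fun _ => (1 : ℂ)) ((γ.act w).1 * Real.exp (γ.act w).2) *
      U (γ.c, γ.d)) (∑' r, U r) := by
  let S : Set G2 := {γ | (γ.act w).1 * Real.exp (γ.act w).2 ∈ Fd}
  have hinj : Function.Injective fun γ : S => (γ.1.c, γ.1.d) := by
    rintro ⟨γ, hγ⟩ ⟨δ, hδ⟩ h
    obtain ⟨hc, hd⟩ : γ.c = δ.c ∧ γ.d = δ.d := Prod.mk.inj h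
    have hb : Rt (γ.b * δ.a - γ.a * δ.b) := (γ.hb.mul δ.ha).sub (γ.ha.mul δ.hb)
    have h1 : γ = vanb_T _ hb * δ := G2.ext'
      (by simp only [G2.mul_a, vanb_T]
          linear_combination -γ.a * δ.det + δ.a * γ.det - δ.a * γ.a * hd + δ.a * γ.b * hc)
      (by simp only [G2.mul_b, vanb_T]
          linear_combination -γ.b * δ.det + δ.b * γ.det - δ.b * γ.a * hd + δ.b * γ.b * hc)
      (by simp [vanb_T, hc]) (by simp [vanb_T, hd])
    have h2 : γ.b * δ.a - γ.a * δ.b = 0 :=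
      (exists_unique_Fd ((δ.act w).1 * Real.exp (δ.act w).2)).unique
        ⟨hb, by rw [← vanb_T_act hb, ← h1]; exact hγ⟩ ⟨rt_zero, by rw [map_zero, add_zero]; exact hδ⟩
    refine Subtype.ext (G2.ext' ?_ ?_ hc hd)
    · linear_combination -γ.a * δ.det + δ.a * γ.det - δ.a * γ.a * hd + δ.a * γ.b * hc + δ.c * h2
    · linear_combination -γ.b * δ.det + δ.b * γ.det - δ.b * γ.a * hd + δ.b * γ.b * hc + δ.d * h2
  have h1 := (hinj.hasSum_iff (f := U) (a := ∑' r, U r) fun r hr => h0 r ?_).2 hU.hasSum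
  · have h2 := (hasSum_subtype_iff_indicator (f := fun γ : G2 => U (γ.c, γ.d)) (s := S)).1 h1
    convert h2 using 2 with γ
    by_cases h : γ ∈ S
    · rw [indicator_of_mem h, indicator_of_mem (s := Fd) h, one_mul]
    · rw [indicator_of_notMem h, indicator_of_notMem (s := Fd) h, zero_mul]
  · by_contra h
    obtain ⟨hc, hd, hcd⟩ := rho_ne_zero.1 h
    obtain ⟨a, b, ha, hb, hdet⟩ := exists_row hc hd hcd
    let γ : G2 := ⟨a, b, r.1, r.2, ha, hb, hc, hd, hdet⟩
    obtain ⟨t, ⟨ht, hF⟩, -⟩ := exists_unique_Fd ((γ.act w).1 * Real.exp (γ.act w).2)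
    exact hr ⟨⟨vanb_T t ht * γ, by rwa [← vanb_T_act ht] at hF⟩, by simp [vanb_T, γ]⟩

/-- classes of rows in `ℙ¹(O/p)`: `none` if `p ∣ x`, else the class of `y / x` -/
theorem exists_cl (hp : p = 1 ∨ Prime p) : ∃ (Y : Type) (_ : Fintype Y) (cl : O × O → Y),
    (Fintype.card Y : ℝ) = nm p + 1 ∧ ∀ r r' : O × O, IsCoprime r.1 r.2 → IsCoprime r'.1 r'.2 →
      (cl r = cl r' ↔ p ∣ r.1 * r'.2 - r.2 * r'.1) := by
  classical
  rcases hp with rfl | hp
  · exact ⟨Bool, inferInstance, fun _ => true, by simp [nm, nN]; norm_num, fun r r' _ _ => by simp⟩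
  have := finite_quot hp.ne_zero
  have := Fintype.ofFinite (O ⧸ Ideal.span {p})
  have : (Ideal.span {p}).IsMaximal := (Ideal.span_singleton_prime hp.ne_zero).2 hp |>.isMaximal
    (by simpa using hp.ne_zero)
  let := Ideal.Quotient.field (Ideal.span {p})
  have h0 : ∀ x : O, Ideal.Quotient.mk (Ideal.span {p}) x = 0 ↔ p ∣ x := fun x => by
    rw [Ideal.Quotient.eq_zero_iff_mem, Ideal.mem_span_singleton]
  refine ⟨Option (O ⧸ Ideal.span {p}), inferInstance, fun r => if p ∣ r.1 then none else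
    some (Ideal.Quotient.mk _ r.2 / Ideal.Quotient.mk _ r.1), ?_, fun r r' h h' => ?_⟩
  · rw [Fintype.card_option, ← Nat.card_eq_fintype_card, card_quot, nm]; push_cast; rfl
  have hn : ∀ r : O × O, IsCoprime r.1 r.2 → p ∣ r.1 → ¬ p ∣ r.2 := fun r h h1 h2 =>
    hp.not_isUnit (h.isUnit_of_dvd' h1 h2)
  by_cases h1 : p ∣ r.1 <;> by_cases h2 : p ∣ r'.1
  · simp only [h1, h2, if_true, true_iff]
    exact dvd_sub (h1.mul_right _) (h2.mul_left _)
  · simp only [h1, h2, if_true, if_false, reduceCtorEq, false_iff]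
    rw [dvd_sub_right (h1.mul_right _), hp.dvd_mul]
    exact fun h3 => h3.elim (hn r h h1) h2
  · simp only [h1, h2, if_true, if_false, reduceCtorEq, false_iff]
    rw [dvd_sub_left (h2.mul_left _), hp.dvd_mul]
    exact fun h3 => h3.elim h1 (hn r' h' h2)
  · simp only [h1, h2, if_false, Option.some.injEq]
    rw [div_eq_div_iff (mt (h0 _).1 h1) (mt (h0 _).1 h2), ← h0, map_sub, map_mul, map_mul,
      sub_eq_zero, eq_comm, mul_comm]

open Classical in
theorem EE_rhp_act (p : O) (γ : G2) (F : ℝ → ℂ) (w : ℂ × ℝ) :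
    EE (rhp p) F (QX (γ.act w)) = conj (rho γ.c γ.d) * ∑' r : O × O,
      ((nm p + 1) * (if p ∣ r.1 * γ.d - r.2 * γ.c then 1 else 0) - 1) *
        (rho r.1 r.2 * F (QX w (sg r.1) (sg r.2))) := by
  rw [← (rowEquiv γ.a γ.b γ.c γ.d γ.det).tsum_eq, ← tsum_mul_left, EE]
  refine tsum_congr fun r => ?_
  have h1 := rho_mul_conj γ.hc γ.hd ⟨-γ.b, γ.a, by linear_combination γ.det⟩
  have h2 : (r.1 * γ.a + r.2 * γ.c) * γ.d - (r.1 * γ.b + r.2 * γ.d) * γ.c = r.1 := by
    linear_combination r.1 * γ.det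
  simp only [rowEquiv, Equiv.coe_fn_mk, rho_cocycle γ.ha γ.hb γ.hc γ.hd γ.det, G2.QX_act, map_add,
    map_mul, h2, rhp, rnd]
  split_ifs
  · linear_combination (-(nm p : ℂ) * rho r.1 r.2 * F _) * h1
  · linear_combination (rho r.1 r.2 * F _) * h1

theorem quad {ι Y : Type} [Fintype Y] [DecidableEq Y] [Nonempty Y] (cl : ι → Y) {t : ι → ℂ}
    (ht : Summable t) :
    let g : Y → ℂ := fun y => ∑' r, ((Fintype.card Y : ℂ) * (if cl r = y then 1 else 0) - 1) * t r
    HasSum (fun r => t r * conj (g (cl r))) (((∑ y, ‖g y‖ ^ 2) / Fintype.card Y : ℝ) : ℂ) := by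
  intro g
  let x : Y → ℂ := fun y => ∑' r, if cl r = y then t r else 0
  have hx : ∀ y, HasSum (fun r => if cl r = y then t r else 0) (x y) := fun y =>
    (Summable.of_norm_bounded ht.norm fun r => by split_ifs <;> simp).hasSum
  have hs : ∀ k : Y → ℂ, HasSum (fun r => t r * k (cl r)) (∑ y, x y * k y) := fun k => by
    simpa using hasSum_sum (s := Finset.univ) fun y _ => (hx y).mul_right (k y)
  have hS : HasSum t (∑ y, x y) := by simpa using hs fun _ => 1
  have hg : ∀ y, g y = Fintype.card Y * x y - ∑ y, x y := fun y => by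
    rw [← (((hx y).mul_left (Fintype.card Y : ℂ)).sub hS).tsum_eq]
    exact tsum_congr fun r => by split_ifs <;> ring
  have hn : (Fintype.card Y : ℂ) ≠ 0 := by exact_mod_cast Fintype.card_ne_zero
  have h1 : ∑ y, conj (g y) = 0 := by
    rw [← map_sum]
    simp [hg, ← Finset.mul_sum]
  convert hs fun y => conj (g y) using 1
  push_cast
  rw [div_eq_iff hn, Finset.sum_mul, ← sub_zero (∑ y, _ * _ * _), ← mul_zero (∑ y, x y), ← h1,
    Finset.mul_sum, ← Finset.sum_sub_distrib]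
  refine Finset.sum_congr rfl fun y _ => ?_
  rw [← Complex.mul_conj']
  linear_combination conj (g y) * hg y

theorem vanc_ae {E : Type} [NormedAddCommGroup E] [NormedSpace ℝ E] [FiniteDimensional ℝ E]
    [MeasurableSpace E] [BorelSpace E] (μ : Measure E) [μ.IsAddHaarMeasure] {f : E → E}
    (hf : Differentiable ℝ f) {P : E → Prop} (h : ∀ᵐ x ∂μ, P (f x)) :
    ∀ᵐ y ∂μ, y ∈ range f → P y := by
  have h1 := addHaar_image_eq_zero_of_differentiableOn_of_addHaar_eq_zero μ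
    (s := {x | ¬ P (f x)}) hf.differentiableOn h
  refine measure_mono_null (fun y hy => ?_) h1
  simp only [mem_compl_iff, mem_ofPred_eq, Classical.not_imp] at hy
  obtain ⟨⟨x, rfl⟩, hx⟩ := hy
  exact ⟨x, hx, rfl⟩

/-- VANISHING.  `unfold_G2` for `uu (rhp p) F` with `N w = (∑_y ‖g y‖²)/n` (`hasSum_G2`,
`EE_rhp_act`, `quad`, `t r = rho r · F (QX w r)`); `g (cl (0,1)) = EE (rhp p) F (QX w)`.  Then Fubini for
null sets (`Measure.ae_ae_of_ae_prod` after swapping), scaling `z = u e^ℓ`, and `v = e^ℓ`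
(`addHaar_image_eq_zero_of_differentiableOn_of_addHaar_eq_zero` for `exp`). -/
theorem vanish (hp : p = 1 ∨ Prime p) (hF : Prof F C)
    (h0 : ∀ v : ℝ, 0 < v → ∫ z in Fd, EE (rhp p) F (Qf z v) = 0) :
    ∀ᵐ v ∂(volume.restrict (Ioi (0 : ℝ))), ∀ᵐ z : ℂ, EE (rhp p) F (Qf z v) = 0 := by
  classical
  obtain ⟨Y, _, cl, hcard, hcl⟩ := exists_cl hp
  have : Nonempty Y := ⟨cl (0, 1)⟩
  have hcard' : (Fintype.card Y : ℂ) = nm p + 1 := by exact_mod_cast hcard
  let t : ℂ × ℝ → O × O → ℂ := fun w r => rho r.1 r.2 * F (QX w (sg r.1) (sg r.2))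
  have ht : ∀ w, Summable (t w) := fun w => (hF.summable wt_rho _ (Real.exp_pos _)).of_norm
  let g : ℂ × ℝ → Y → ℂ := fun w y =>
    ∑' r, ((Fintype.card Y : ℂ) * (if cl r = y then 1 else 0) - 1) * t w r
  have hg : ∀ w (γ : G2),
      EE (rhp p) F (QX (γ.act w)) = conj (rho γ.c γ.d) * g w (cl (γ.c, γ.d)) := by
    intro w γ
    rw [EE_rhp_act]
    congr 1
    refine tsum_congr fun r => ?_
    by_cases hr : rho r.1 r.2 = 0
    · simp only [t, hr, zero_mul, mul_zero]
    · have h1 := hcl r (γ.c, γ.d) (rho_ne_zero.1 hr).2.2 ⟨-γ.b, γ.a, by linear_combination γ.det⟩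
      simp only [h1, t, hcard']
  have hN := unfold_G2 (hF.integrable_uu (wt_rhp p)) (hF.integral_uu (wt_rhp p) h0)
    (N := fun w => (∑ y, ‖g w y‖ ^ 2) / Fintype.card Y) (fun w => by positivity) fun w => by
      have h1 := quad cl (ht w)
      have h2 := hasSum_G2 w h1.summable fun r hr => by simp only [t, hr, zero_mul]
      rw [h1.tsum_eq] at h2
      convert h2 using 2 with γ
      rw [uu, hg, G2.QX_act, indicator_apply]
      simp only [t, g, zero_mul, one_mul, zero_add, map_mul, conj_conj]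
      ring
  have h1 : ∀ᵐ w : ℂ × ℝ, EE (rhp p) F (QX w) = 0 := by
    filter_upwards [hN] with w hw
    have h2 := hg w 1
    rw [G2.act_one] at h2
    have h3 : (0 : ℝ) < Fintype.card Y := by exact_mod_cast Fintype.card_pos
    rw [div_eq_zero_iff, or_iff_left h3.ne',
      Finset.sum_eq_zero_iff_of_nonneg fun y _ => by positivity] at hw
    have h4 := hw (cl ((1 : G2).c, (1 : G2).d)) (Finset.mem_univ _)
    rw [h2, norm_eq_zero.1 (pow_eq_zero_iff two_ne_zero |>.1 h4), mul_zero]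
  have h2 : ∀ᵐ q : ℝ × ℂ ∂(volume : Measure ℝ).prod (volume : Measure ℂ),
      EE (rhp p) F (QX q.swap) = 0 :=
    (Measure.measurePreserving_swap (μ := (volume : Measure ℝ))
      (ν := (volume : Measure ℂ))).quasiMeasurePreserving.ae h1
  have h3 : ∀ᵐ ℓ : ℝ, ∀ᵐ z : ℂ, EE (rhp p) F (Qf z (Real.exp ℓ)) = 0 := by
    filter_upwards [Measure.ae_ae_of_ae_prod h2] with ℓ hℓ
    have h4 := vanc_ae volume (f := fun u : ℂ => u * (Real.exp ℓ : ℝ))
      (P := fun z => EE (rhp p) F (Qf z (Real.exp ℓ)) = 0) (by fun_prop) hℓ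
    filter_upwards [h4] with z hz
    exact hz ⟨z / (Real.exp ℓ : ℝ), div_mul_cancel₀ _ (by exact_mod_cast (Real.exp_pos ℓ).ne')⟩
  have h4 := vanc_ae volume Real.differentiable_exp
    (P := fun v => ∀ᵐ z : ℂ, EE (rhp p) F (Qf z v) = 0) h3
  rw [Real.range_exp] at h4
  exact (ae_restrict_iff' measurableSet_Ioi).2 h4

end Crest.Agent.R17.D
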